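import Mathlib
import Crest.Agent.R244.MetricDefs

/-!
# R244 package B2, part 1 : the local quadrilateral inequality
-/

set_option autoImplicit false

open Filter Topology

namespace Crest.Agent.R244

variable {M : Type*} [MetricSpace M]

/-- `m` is a point at parameter `t` between `a` and `b` satisfying the CN inequality at scale `r`. -/
def IsPt (r : ℝ) (a b : M) (t : ℝ) (m : M) : Prop :=
  ∀ p : M, dist p a < r → dist p b < r →
    dist p m ^ 2 ≤ (1 - t) * dist p a ^ 2 + t * dist p b ^ 2 - t * (1 - t) * dist a b ^ 2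

/-- `m` is a CN-midpoint of `a`, `b` at scale `r`. -/
def IsMid (r : ℝ) (a b m : M) : Prop :=
  ∀ p : M, dist p a < r → dist p b < r →
    dist p m ^ 2 ≤ dist p a ^ 2 / 2 + dist p b ^ 2 / 2 - dist a b ^ 2 / 4

theorem IsMid.isPt {r : ℝ} {a b m : M} (h : IsMid r a b m) : IsPt r a b (1/2) m := by
  intro p hp hq
  have := h p hp hq
  linarith

theorem isPt_zero (r : ℝ) (a b : M) : IsPt r a b 0 a := by
  intro p _ _; simp

theorem isPt_one (r : ℝ) (a b : M) : IsPt r a b 1 b := by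
  intro p _ _; simp

theorem IsPt.dist_lt {r : ℝ} {a b m : M} {t : ℝ} (h : IsPt r a b t m) (h0 : 0 ≤ t) (h1 : t ≤ 1)
    {p : M} (hp : dist p a < r) (hq : dist p b < r) : dist p m < r := by
  have hr : 0 ≤ r := le_trans dist_nonneg hp.le
  have := h p hp hq
  have h2 : dist p a ^ 2 < r ^ 2 := by
    apply pow_lt_pow_left₀ hp dist_nonneg; norm_num
  have h3 : dist p b ^ 2 < r ^ 2 := by
    apply pow_lt_pow_left₀ hq dist_nonneg; norm_num
  have h4 : dist p m ^ 2 < r ^ 2 := by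
    have : 0 ≤ t * (1 - t) * dist a b ^ 2 := by
      have : 0 ≤ 1 - t := by linarith
      positivity
    rcases eq_or_lt_of_le h0 with h0' | h0'
    · subst h0'; nlinarith
    · nlinarith
  exact lt_of_pow_lt_pow_left₀ 2 hr h4

theorem IsPt.dist_left_le {r : ℝ} {a b m : M} {t : ℝ} (h : IsPt r a b t m) (h0 : 0 ≤ t)
    (hab : dist a b < r) : dist a m ≤ t * dist a b := by
  have hr : 0 < r := lt_of_le_of_lt dist_nonneg hab
  have := h a (by simpa using hr) hab
  have h2 : dist a m ^ 2 ≤ (t * dist a b) ^ 2 := by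
    rw [dist_self] at this
    nlinarith
  exact le_of_sq_le_sq h2 (by positivity)

theorem IsPt.dist_right_le {r : ℝ} {a b m : M} {t : ℝ} (h : IsPt r a b t m) (h1 : t ≤ 1)
    (hab : dist a b < r) : dist b m ≤ (1 - t) * dist a b := by
  have hr : 0 < r := lt_of_le_of_lt dist_nonneg hab
  have := h b (by rwa [dist_comm]) (by simpa using hr)
  have h2 : dist b m ^ 2 ≤ ((1 - t) * dist a b) ^ 2 := by
    rw [dist_self, dist_comm b a] at this
    nlinarith
  have : 0 ≤ 1 - t := by linarith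
  exact le_of_sq_le_sq h2 (by positivity)

theorem IsPt.midpoint {r : ℝ} (hM : LocalCN M r) {a b m m' : M} {s t : ℝ}
    (hs : IsPt r a b s m) (ht : IsPt r a b t m') (h0 : 0 ≤ s) (hst : s ≤ t) (h1 : t ≤ 1)
    (hab : dist a b < r) : ∃ n, IsPt r a b ((s + t) / 2) n := by
  have hm1 : dist a m ≤ s * dist a b := hs.dist_left_le h0 hab
  have hm2 : dist b m ≤ (1 - s) * dist a b := hs.dist_right_le (by linarith) hab
  have hm1' : dist a m' ≤ t * dist a b := ht.dist_left_le (by linarith) hab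
  have hm2' : dist b m' ≤ (1 - t) * dist a b := ht.dist_right_le h1 hab
  have hd0 : 0 ≤ dist a b := dist_nonneg
  have hma : dist m a < r := by rw [dist_comm]; nlinarith
  have hmb : dist m b < r := by rw [dist_comm]; nlinarith
  have hmm : dist m m' < r := ht.dist_lt (by linarith) h1 hma hmb
  obtain ⟨n, hn⟩ := hM.2 m m' hmm
  refine ⟨n, fun p hpa hpb => ?_⟩
  have h2 := hn p (hs.dist_lt h0 (by linarith) hpa hpb) (ht.dist_lt (by linarith) h1 hpa hpb)
  have h3 := hs p hpa hpb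
  have h4 := ht p hpa hpb
  have h5 : (t - s) * dist a b ≤ dist m m' := by
    have : dist a b ≤ dist a m + dist m m' + dist m' b := dist_triangle4 _ _ _ _
    rw [dist_comm m' b] at this
    nlinarith
  have h6 : ((t - s) * dist a b) ^ 2 ≤ dist m m' ^ 2 := by
    apply pow_le_pow_left₀ _ h5
    exact mul_nonneg (by linarith) hd0
  nlinarith

theorem exists_isPt_dyadic {r : ℝ} (hM : LocalCN M r) {a b : M} (hab : dist a b < r) (n : ℕ) :
    ∀ k : ℕ, k ≤ 2 ^ n → ∃ m, IsPt r a b ((k : ℝ) / 2 ^ n) m := by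
  induction n with
  | zero =>
    intro k hk
    have : k = 0 ∨ k = 1 := by
      simp at hk; omega
    rcases this with rfl | rfl
    · exact ⟨a, by simpa using isPt_zero r a b⟩
    · exact ⟨b, by simpa using isPt_one r a b⟩
  | succ n ih =>
    intro k hk
    rcases Nat.even_or_odd' k with ⟨j, rfl | rfl⟩
    · obtain ⟨m, hm⟩ := ih j (by rw [pow_succ] at hk; omega)
      refine ⟨m, ?_⟩
      have : ((2 * j : ℕ) : ℝ) / 2 ^ (n + 1) = (j : ℝ) / 2 ^ n := by
        rw [pow_succ]; push_cast; field_simp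
      rwa [this]
    · have h1 : j + 1 ≤ 2 ^ n := by rw [pow_succ] at hk; omega
      obtain ⟨m, hm⟩ := ih j (by omega)
      obtain ⟨m', hm'⟩ := ih (j + 1) h1
      have hp : (0 : ℝ) < 2 ^ n := by positivity
      obtain ⟨m'', hm''⟩ := hm.midpoint hM hm' (by positivity)
        (by rw [div_le_div_iff_of_pos_right hp]; push_cast; linarith)
        (by rw [div_le_one hp]; exact_mod_cast h1) hab
      refine ⟨m'', ?_⟩
      have : ((2 * j + 1 : ℕ) : ℝ) / 2 ^ (n + 1)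
          = ((j : ℝ) / 2 ^ n + ((j + 1 : ℕ) : ℝ) / 2 ^ n) / 2 := by
        rw [pow_succ]; push_cast; field_simp; ring
      rwa [this]

/-- auxiliary inequality with a dyadic parameter -/
theorem quad_aux {r : ℝ} {x₁ x₂ x₃ x₄ y : M} {t : ℝ} (h0 : 0 < t) (h1 : t < 1)
    (hy : IsPt r x₂ x₄ t y) (h12 : dist x₁ x₂ < r) (h14 : dist x₁ x₄ < r)
    (h32 : dist x₃ x₂ < r) (h34 : dist x₃ x₄ < r) :
    dist x₁ x₃ ^ 2 + dist x₂ x₄ ^ 2 ≤ dist x₁ x₄ ^ 2 + dist x₃ x₂ ^ 2
      + ((1 - t) / t * dist x₁ x₂ ^ 2 + t / (1 - t) * dist x₃ x₄ ^ 2) := by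
  have h2 := hy x₁ h12 h14
  have h3 := hy x₃ h32 h34
  have ht : 0 < 1 - t := by linarith
  have h4 : dist x₁ x₃ ≤ dist x₁ y + dist x₃ y := by
    rw [dist_comm x₃ y]; exact dist_triangle _ _ _
  have h5 : dist x₁ x₃ ^ 2 ≤ (dist x₁ y + dist x₃ y) ^ 2 :=
    pow_le_pow_left₀ dist_nonneg h4 2
  have h6 : (dist x₁ y + dist x₃ y) ^ 2 ≤ dist x₁ y ^ 2 / t + dist x₃ y ^ 2 / (1 - t) := by
    rw [div_add_div _ _ h0.ne' ht.ne', le_div_iff₀ (by positivity)]
    nlinarith [sq_nonneg ((1 - t) * dist x₁ y - t * dist x₃ y)]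
  have h7 : dist x₁ y ^ 2 / t ≤
      ((1 - t) * dist x₁ x₂ ^ 2 + t * dist x₁ x₄ ^ 2 - t * (1 - t) * dist x₂ x₄ ^ 2) / t :=
    div_le_div_of_nonneg_right h2 h0.le
  have h8 : dist x₃ y ^ 2 / (1 - t) ≤
      ((1 - t) * dist x₃ x₂ ^ 2 + t * dist x₃ x₄ ^ 2 - t * (1 - t) * dist x₂ x₄ ^ 2) / (1 - t) :=
    div_le_div_of_nonneg_right h3 ht.le
  have h9 : ((1 - t) * dist x₁ x₂ ^ 2 + t * dist x₁ x₄ ^ 2 - t * (1 - t) * dist x₂ x₄ ^ 2) / t
      = (1 - t) / t * dist x₁ x₂ ^ 2 + dist x₁ x₄ ^ 2 - (1 - t) * dist x₂ x₄ ^ 2 := by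
    field_simp
  have h10 : ((1 - t) * dist x₃ x₂ ^ 2 + t * dist x₃ x₄ ^ 2 - t * (1 - t) * dist x₂ x₄ ^ 2)
      / (1 - t) = dist x₃ x₂ ^ 2 + t / (1 - t) * dist x₃ x₄ ^ 2 - t * dist x₂ x₄ ^ 2 := by
    field_simp
  rw [h9] at h7
  rw [h10] at h8
  linarith

theorem quad_real {r : ℝ} (hM : LocalCN M r) {x₁ x₂ x₃ x₄ : M} {t : ℝ} (h0 : 0 < t) (h1 : t < 1)
    (h24 : dist x₂ x₄ < r) (h12 : dist x₁ x₂ < r) (h14 : dist x₁ x₄ < r)
    (h32 : dist x₃ x₂ < r) (h34 : dist x₃ x₄ < r) :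
    dist x₁ x₃ ^ 2 + dist x₂ x₄ ^ 2 ≤ dist x₁ x₄ ^ 2 + dist x₃ x₂ ^ 2
      + ((1 - t) / t * dist x₁ x₂ ^ 2 + t / (1 - t) * dist x₃ x₄ ^ 2) := by
  set u : ℕ → ℝ := fun n => (⌊t * (2 : ℝ) ^ n⌋₊ : ℝ) / 2 ^ n with hu
  have hlim : Tendsto u atTop (𝓝 t) := by
    have h2 := tendsto_nat_floor_mul_div_atTop (R := ℝ) (a := t) h0.le
    have h3 : Tendsto (fun n : ℕ => (2 : ℝ) ^ n) atTop atTop :=
      tendsto_pow_atTop_atTop_of_one_lt (by norm_num)
    exact h2.comp h3
  have hev : ∀ᶠ n in atTop, 0 < u n ∧ u n < 1 :=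
    (hlim.eventually (lt_mem_nhds h0)).and (hlim.eventually (gt_mem_nhds h1))
  have hcont : Tendsto (fun n => dist x₁ x₄ ^ 2 + dist x₃ x₂ ^ 2
      + ((1 - u n) / u n * dist x₁ x₂ ^ 2 + u n / (1 - u n) * dist x₃ x₄ ^ 2)) atTop
      (𝓝 (dist x₁ x₄ ^ 2 + dist x₃ x₂ ^ 2
      + ((1 - t) / t * dist x₁ x₂ ^ 2 + t / (1 - t) * dist x₃ x₄ ^ 2))) := by
    have ht : (1 - t) ≠ 0 := by linarith
    refine tendsto_const_nhds.add ?_
    refine Tendsto.add ?_ ?_
    · exact ((tendsto_const_nhds.sub hlim).div hlim h0.ne').mul_const _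
    · exact (hlim.div (tendsto_const_nhds.sub hlim) ht).mul_const _
  refine ge_of_tendsto hcont ?_
  filter_upwards [hev] with n hn
  have hk : ⌊t * (2 : ℝ) ^ n⌋₊ ≤ 2 ^ n := by
    have : (⌊t * (2 : ℝ) ^ n⌋₊ : ℝ) ≤ 2 ^ n := by
      have hp : (0 : ℝ) < 2 ^ n := by positivity
      have h5 := hn.2
      simp only [hu] at h5
      rw [div_lt_one hp] at h5
      exact h5.le
    exact_mod_cast this
  obtain ⟨y, hy⟩ := exists_isPt_dyadic hM h24 n _ hk
  exact quad_aux hn.1 hn.2 hy h12 h14 h32 h34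

/-- Reshetnyak's quadrilateral inequality. -/
theorem quad {r : ℝ} (hM : LocalCN M r) {x₁ x₂ x₃ x₄ : M}
    (h24 : dist x₂ x₄ < r) (h12 : dist x₁ x₂ < r) (h14 : dist x₁ x₄ < r)
    (h32 : dist x₃ x₂ < r) (h34 : dist x₃ x₄ < r) :
    dist x₁ x₃ ^ 2 + dist x₂ x₄ ^ 2 ≤ dist x₁ x₄ ^ 2 + dist x₃ x₂ ^ 2
      + 2 * dist x₁ x₂ * dist x₃ x₄ := by
  have ha : 0 ≤ dist x₁ x₂ := dist_nonneg
  have hb : 0 ≤ dist x₃ x₄ := dist_nonneg
  refine le_of_forall_pos_le_add fun ε hε => ?_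
  set a := dist x₁ x₂
  set b := dist x₃ x₄
  set δ := ε / (a + b + 1) with hδ
  have hδ0 : 0 < δ := by positivity
  have h := quad_real hM (t := (a + δ) / (a + b + 2 * δ)) (by positivity)
    (by rw [div_lt_one (by positivity)]; linarith) h24 h12 h14 h32 h34
  have h1 : 1 - (a + δ) / (a + b + 2 * δ) = (b + δ) / (a + b + 2 * δ) := by
    field_simp; ring
  rw [h1] at h
  have h2 : (b + δ) / (a + b + 2 * δ) / ((a + δ) / (a + b + 2 * δ)) * a ^ 2 ≤ (b + δ) * a := by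
    have : (b + δ) / (a + b + 2 * δ) / ((a + δ) / (a + b + 2 * δ)) = (b + δ) / (a + δ) := by
      field_simp
    rw [this, div_mul_eq_mul_div, div_le_iff₀ (by positivity)]
    have : 0 ≤ (b + δ) * a * δ := by positivity
    nlinarith
  have h3 : (a + δ) / (a + b + 2 * δ) / ((b + δ) / (a + b + 2 * δ)) * b ^ 2 ≤ (a + δ) * b := by
    have : (a + δ) / (a + b + 2 * δ) / ((b + δ) / (a + b + 2 * δ)) = (a + δ) / (b + δ) := by
      field_simp
    rw [this, div_mul_eq_mul_div, div_le_iff₀ (by positivity)]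
    have : 0 ≤ (a + δ) * b * δ := by positivity
    nlinarith
  have h4 : δ * (a + b) ≤ ε := by
    rw [hδ, div_mul_eq_mul_div, div_le_iff₀ (by positivity)]
    nlinarith
  nlinarith


theorem IsMid.dist_lt {r : ℝ} {a b m : M} (h : IsMid r a b m)
    {p : M} (hp : dist p a < r) (hq : dist p b < r) : dist p m < r :=
  h.isPt.dist_lt (by norm_num) (by norm_num) hp hq

theorem IsMid.dist_left {r : ℝ} {a b m : M} (h : IsMid r a b m) (hab : dist a b < r) :
    dist a m = dist a b / 2 := by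
  have h1 := h.isPt.dist_left_le (by norm_num) hab
  have h2 := h.isPt.dist_right_le (by norm_num) hab
  have h3 := dist_triangle a m b
  rw [dist_comm m b] at h3
  linarith

theorem IsMid.dist_right {r : ℝ} {a b m : M} (h : IsMid r a b m) (hab : dist a b < r) :
    dist m b = dist a b / 2 := by
  have h1 := h.isPt.dist_left_le (by norm_num) hab
  have h2 := h.isPt.dist_right_le (by norm_num) hab
  have h3 := dist_triangle a m b
  rw [dist_comm m b] at h3 ⊢
  linarith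

/-- Midpoints are unique at small scale. -/
theorem IsMid.unique {r : ℝ} {a b m m' : M} (h : IsMid r a b m) (h' : IsMid r a b m')
    (hab : dist a b < r) : m = m' := by
  have h1 := h'.dist_left hab
  have h2 := h'.dist_right hab
  have h0 : 0 ≤ dist a b := dist_nonneg
  have h3 := h m' (by rw [dist_comm, h1]; linarith) (by rw [h2]; linarith)
  rw [dist_comm m' a, h1, h2] at h3
  have h4 : dist m' m ^ 2 ≤ 0 := by nlinarith
  have h5 : dist m' m = 0 := by
    have := sq_nonneg (dist m' m)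
    exact pow_eq_zero_iff (n := 2) (by norm_num) |>.1 (le_antisymm h4 this)
  exact (dist_eq_zero.1 h5).symm

/-- Sharp convexity of the distance between midpoints. -/
theorem mid_dist_sq {r : ℝ} (hM : LocalCN M r) {p q p' q' m m' : M}
    (hm : IsMid r p q m) (hm' : IsMid r p' q' m')
    (h1 : dist p q < r) (h2 : dist p' q' < r) (h3 : dist p p' < r) (h4 : dist q q' < r)
    (h5 : dist p q' < r) (h6 : dist q p' < r) :
    dist m m' ^ 2 ≤ dist p p' ^ 2 / 2 + dist q q' ^ 2 / 2 - (dist p q - dist p' q') ^ 2 / 4 := by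
  have e1 : dist m p' < r := by
    rw [dist_comm]; exact hm.dist_lt (by rwa [dist_comm]) (by rwa [dist_comm])
  have e2 : dist m q' < r := by
    rw [dist_comm]; exact hm.dist_lt (by rwa [dist_comm]) (by rwa [dist_comm])
  have f1 := hm' m e1 e2
  have f2 := hm p' (by rwa [dist_comm]) (by rwa [dist_comm])
  have f3 := hm q' (by rwa [dist_comm]) (by rwa [dist_comm])
  have f4 := quad hM (x₁ := p) (x₂ := q) (x₃ := q') (x₄ := p') h6 h1 h3
    (by rwa [dist_comm]) (by rwa [dist_comm])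
  rw [dist_comm p' p, dist_comm p' q, dist_comm p' m] at f2
  rw [dist_comm q' p, dist_comm q' q, dist_comm q' m] at f3
  rw [dist_comm q' q, dist_comm q' p'] at f4
  nlinarith

end Crest.Agent.R244
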