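import Mathlib
import Crest.Agent.R244.MetricDefs
import Crest.Agent.R244.Alg
import Crest.Agent.R244.CHQuad

-- ▼ part R244/Bridge
section

/-!
# R244 : bridge between the path length `D` (package B2) and the group algebra (package B3)

* `PathLength.quadLength` : the length induced on the fundamental group is a `QuadLength`.
* `PathLength.halving` : displacement of the midpoint loop.
* `ContUpToSign.exists_lift`, `Reverses.conj` : lifting of paths through the two-valued map.
* `contradiction_of_tendsto` : a reversing loop cannot have zero stable length.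
-/

set_option autoImplicit false

open Filter Topology unitInterval

namespace Crest.Agent.R244


section

variable {M : Type*} [TopologicalSpace M] {D : ∀ {x y : M}, Path x y → ℝ}

/-- The length on homotopy classes. -/
noncomputable def PathLength.DQ (hD : PathLength M (fun {_ _} γ => D γ)) {x y : M}
    (q : Path.Homotopic.Quotient x y) : ℝ :=
  _root_.Quotient.lift (s := Path.Homotopic.setoid x y) (fun γ : Path x y => D γ)
    (fun a b h => hD.homotopic a b h) q

variable (hD : PathLength M (fun {_ _} γ => D γ))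

@[simp] theorem PathLength.DQ_mk {x y : M} (γ : Path x y) : hD.DQ (Path.Homotopic.Quotient.mk γ) = D γ := rfl

theorem PathLength.DQ_nonneg {x y : M} (q : Path.Homotopic.Quotient x y) : 0 ≤ hD.DQ q := by
  induction q using Path.Homotopic.Quotient.ind with | mk γ => exact hD.nonneg γ

theorem PathLength.DQ_refl (x : M) : hD.DQ (Path.Homotopic.Quotient.refl x) = 0 := hD.refl x

@[simp] theorem PathLength.DQ_symm {x y : M} (q : Path.Homotopic.Quotient x y) :
    hD.DQ q.symm = hD.DQ q := by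
  induction q using Path.Homotopic.Quotient.ind with | mk γ => exact hD.symm γ

theorem PathLength.DQ_trans_le {x y z : M} (q : Path.Homotopic.Quotient x y)
    (q' : Path.Homotopic.Quotient y z) : hD.DQ (q.trans q') ≤ hD.DQ q + hD.DQ q' := by
  induction q using Path.Homotopic.Quotient.ind with | mk γ =>
  induction q' using Path.Homotopic.Quotient.ind with | mk γ' =>
  exact hD.trans_le γ γ'

theorem PathLength.DQ_midpoint {a b : M} (e : Path.Homotopic.Quotient a b) :
    ∃ (m : M) (ρ : Path.Homotopic.Quotient a m), ∀ {p : M} (c : Path.Homotopic.Quotient p a),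
      hD.DQ (c.trans ρ) ^ 2 ≤
        hD.DQ c ^ 2 / 2 + hD.DQ (c.trans e) ^ 2 / 2 - hD.DQ e ^ 2 / 4 := by
  induction e using Path.Homotopic.Quotient.ind with | mk e =>
  obtain ⟨m, ρ, h⟩ := hD.midpoint e
  refine ⟨m, Path.Homotopic.Quotient.mk ρ, ?_⟩
  intro p c
  induction c using Path.Homotopic.Quotient.ind with | mk c =>
  exact h c

/-- symmetric quotients: inverse of a composition -/
theorem symm_trans_eq {x y z : M} (q : Path.Homotopic.Quotient x y)
    (q' : Path.Homotopic.Quotient y z) : (q.trans q').symm = q'.symm.trans q.symm := by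
  have h1 : ((q.trans q').symm.trans (q.trans q')).trans (q'.symm.trans q.symm)
      = q'.symm.trans q.symm := by simp
  have h2 : ((q.trans q').symm.trans (q.trans q')).trans (q'.symm.trans q.symm)
      = (q.trans q').symm := by
    rw [Path.Homotopic.Quotient.trans_assoc]
    have : (q.trans q').trans (q'.symm.trans q.symm) = Path.Homotopic.Quotient.refl x := by
      rw [Path.Homotopic.Quotient.trans_assoc, ← Path.Homotopic.Quotient.trans_assoc q' q'.symm q.symm]
      simp
    rw [this]; simp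
  exact h2.symm.trans h1

@[simp] theorem symm_symm_eq {x y : M} (q : Path.Homotopic.Quotient x y) : q.symm.symm = q := by
  induction q using Path.Homotopic.Quotient.ind with | mk γ =>
  rw [← Path.Homotopic.Quotient.mk_symm, ← Path.Homotopic.Quotient.mk_symm, Path.symm_symm]

theorem symm_trans_cancel {x y z : M} (q : Path.Homotopic.Quotient x y)
    (q' : Path.Homotopic.Quotient y z) : q.symm.trans (q.trans q') = q' := by
  rw [← Path.Homotopic.Quotient.trans_assoc]; simp

theorem trans_symm_cancel {x y z : M} (q : Path.Homotopic.Quotient x y)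
    (q' : Path.Homotopic.Quotient x z) : q.trans (q.symm.trans q') = q' := by
  rw [← Path.Homotopic.Quotient.trans_assoc]; simp

/-- The length on the fundamental group. -/
noncomputable def PathLength.len (x : M) (g : FundamentalGroup M x) : ℝ :=
  hD.DQ (FundamentalGroup.toPath g)

theorem PathLength.quadLength (x : M) : QuadLength (hD.len x) where
  nonneg g := hD.DQ_nonneg _
  one := hD.DQ_refl x
  inv g := hD.DQ_symm _
  mul_le g h := by
    have := hD.DQ_trans_le (FundamentalGroup.toPath h) (FundamentalGroup.toPath g)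
    unfold PathLength.len
    change hD.DQ ((FundamentalGroup.toPath h).trans (FundamentalGroup.toPath g)) ≤ _
    linarith
  quad a b c := by
    unfold PathLength.len
    set α : Path.Homotopic.Quotient x x := FundamentalGroup.toPath a with hα
    set β : Path.Homotopic.Quotient x x := FundamentalGroup.toPath b with hβ
    set γ : Path.Homotopic.Quotient x x := FundamentalGroup.toPath c with hγ
    change hD.DQ (β.trans α) ^ 2 + hD.DQ (γ.trans β) ^ 2 ≤
      hD.DQ α ^ 2 + hD.DQ β ^ 2 + hD.DQ γ ^ 2 + hD.DQ (γ.trans (β.trans α)) ^ 2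
    obtain ⟨m, ρ, h⟩ := hD.DQ_midpoint (β.trans α)
    have h1 := h γ
    have h2 := h β.symm
    rw [symm_trans_cancel, hD.DQ_symm] at h2
    have h3 := hD.DQ_trans_le (γ.trans ρ) ((β.symm.trans ρ).symm)
    rw [hD.DQ_symm] at h3
    have h4 : (γ.trans ρ).trans ((β.symm.trans ρ).symm) = γ.trans β := by
      rw [symm_trans_eq, symm_symm_eq, Path.Homotopic.Quotient.trans_assoc, trans_symm_cancel]
    rw [h4] at h3
    have h5 := hD.DQ_nonneg (γ.trans β)
    have h6 := hD.DQ_nonneg (γ.trans ρ)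
    have h7 := hD.DQ_nonneg (β.symm.trans ρ)
    nlinarith [sq_nonneg (hD.DQ (γ.trans ρ) - hD.DQ (β.symm.trans ρ)),
      mul_le_mul h3 h3 h5 (add_nonneg h6 h7)]

/-- Moving a loop to its midpoint at least halves the displacement of its square. -/
theorem PathLength.halving {x : M} (γ : Path.Homotopic.Quotient x x) :
    ∃ (m : M) (ρ : Path.Homotopic.Quotient x m),
      hD.DQ (ρ.symm.trans (γ.trans ρ)) ≤ hD.DQ (γ.trans γ) / 2 := by
  obtain ⟨m, ρ, h⟩ := hD.DQ_midpoint γ
  refine ⟨m, ρ, ?_⟩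
  have h1 := h (ρ.symm.trans γ)
  have h2 := h γ.symm
  have h3 := h (γ.trans γ).symm
  have e1 : (ρ.symm.trans γ).trans ρ = ρ.symm.trans (γ.trans ρ) := Path.Homotopic.Quotient.trans_assoc _ _ _
  have e2 : hD.DQ (ρ.symm.trans γ) = hD.DQ (γ.symm.trans ρ) := by
    rw [← hD.DQ_symm, symm_trans_eq, symm_symm_eq]
  have e3 : hD.DQ ((ρ.symm.trans γ).trans γ) = hD.DQ ((γ.trans γ).symm.trans ρ) := by
    rw [← hD.DQ_symm, Path.Homotopic.Quotient.trans_assoc, symm_trans_eq, symm_symm_eq]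
  have e4 : (γ.trans γ).symm.trans γ = γ.symm := by
    rw [symm_trans_eq, Path.Homotopic.Quotient.trans_assoc]; simp
  have e5 : hD.DQ (γ.symm.trans γ) = 0 := by
    rw [Path.Homotopic.Quotient.symm_trans]; exact hD.DQ_refl x
  rw [e1, e2, e3] at h1
  rw [hD.DQ_symm, e5] at h2
  rw [hD.DQ_symm, e4, hD.DQ_symm] at h3
  have h5 := hD.DQ_nonneg (ρ.symm.trans (γ.trans ρ))
  have h6 := hD.DQ_nonneg (γ.trans γ)
  apply le_of_sq_le_sq _ (by positivity)
  nlinarith

/-- Powers of a loop class. -/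
theorem PathLength.exists_conj_le {x : M} (γ : FundamentalGroup M x) (k : ℕ) :
    ∃ (m : M) (τ : Path.Homotopic.Quotient x m),
      hD.DQ (τ.symm.trans ((FundamentalGroup.toPath γ).trans τ)) ≤
        hD.len x (γ ^ (2 ^ k)) / 2 ^ k := by
  induction k generalizing γ with
  | zero =>
    refine ⟨x, Path.Homotopic.Quotient.refl x, ?_⟩
    have e : (Path.Homotopic.Quotient.refl x).symm = Path.Homotopic.Quotient.refl x := by
      change (Path.Homotopic.Quotient.mk (Path.refl x)).symm = _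
      rw [← Path.Homotopic.Quotient.mk_symm, Path.refl_symm]; rfl
    rw [e, Path.Homotopic.Quotient.trans_refl, Path.Homotopic.Quotient.refl_trans]
    simp [PathLength.len]
  | succ k ih =>
    obtain ⟨m, τ, h⟩ := ih (γ * γ)
    set g := FundamentalGroup.toPath γ with hg
    have e0 : FundamentalGroup.toPath (γ * γ) = g.trans g := rfl
    obtain ⟨m', ρ, h'⟩ := hD.halving (τ.symm.trans (g.trans τ))
    refine ⟨m', τ.trans ρ, ?_⟩
    have e1 : (τ.trans ρ).symm.trans (g.trans (τ.trans ρ))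
        = ρ.symm.trans ((τ.symm.trans (g.trans τ)).trans ρ) := by
      rw [symm_trans_eq]; simp only [Path.Homotopic.Quotient.trans_assoc]
    have e2 : (τ.symm.trans (g.trans τ)).trans (τ.symm.trans (g.trans τ))
        = τ.symm.trans ((g.trans g).trans τ) := by
      simp only [Path.Homotopic.Quotient.trans_assoc, trans_symm_cancel]
    rw [e1]
    rw [e2] at h'
    rw [e0] at h
    have e3 : (γ * γ) ^ (2 ^ k) = γ ^ (2 ^ (k + 1)) := by
      rw [← pow_two, ← pow_mul, pow_succ, mul_comm]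
    rw [e3] at h
    calc _ ≤ hD.DQ (τ.symm.trans ((g.trans g).trans τ)) / 2 := h'
      _ ≤ (hD.len x (γ ^ 2 ^ (k + 1)) / 2 ^ k) / 2 := by linarith
      _ = hD.len x (γ ^ 2 ^ (k + 1)) / 2 ^ (k + 1) := by
        rw [div_div, ← pow_succ]

end

section Lift

variable {M : Type*} [TopologicalSpace M] {L : M → EuclideanSpace ℝ (Fin 4)}

/-- The determination of `L` which is positive against `p`. -/
noncomputable def posDet (L : M → EuclideanSpace ℝ (Fin 4)) (p : EuclideanSpace ℝ (Fin 4)) (y : M) :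
    EuclideanSpace ℝ (Fin 4) :=
  if 0 < inner ℝ (L y) p then L y else - L y

omit [TopologicalSpace M] in
theorem posDet_eq_or (L : M → EuclideanSpace ℝ (Fin 4)) (p : EuclideanSpace ℝ (Fin 4)) (y : M) :
    posDet L p y = L y ∨ posDet L p y = - L y := by
  unfold posDet; split_ifs <;> simp

omit [TopologicalSpace M] in
theorem posDet_inner (L : M → EuclideanSpace ℝ (Fin 4)) (p : EuclideanSpace ℝ (Fin 4)) (y : M)
    (h : inner ℝ (L y) p ≠ 0) : 0 < inner ℝ (posDet L p y) p := by
  unfold posDet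
  split_ifs with h1
  · exact h1
  · rw [inner_neg_left]
    have := lt_of_le_of_ne (not_lt.1 h1) h
    linarith

theorem isOpen_inner_ne (hL : ContUpToSign L) (p : EuclideanSpace ℝ (Fin 4)) :
    IsOpen {y : M | inner ℝ (L y) p ≠ 0} := by
  rw [isOpen_iff_mem_nhds]
  intro y hy
  replace hy : inner ℝ (L y) p ≠ 0 := hy
  have hp : 0 < ‖p‖ + 1 := by positivity
  have hy' : 0 < |inner ℝ (L y) p| := abs_pos.2 hy
  filter_upwards [hL.2 y (|inner ℝ (L y) p| / (‖p‖ + 1)) (by positivity)] with z hz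
  intro h0
  have key : ∀ w : EuclideanSpace ℝ (Fin 4), inner ℝ w p = (0:ℝ) →
      ‖L y - w‖ < |inner ℝ (L y) p| / (‖p‖ + 1) → False := by
    intro w hw hlt
    have h1 : inner ℝ (L y) p = inner ℝ (L y - w) p := by rw [inner_sub_left, hw, sub_zero]
    have h2 : |inner ℝ (L y - w) p| ≤ ‖L y - w‖ * ‖p‖ := abs_real_inner_le_norm _ _
    rw [← h1] at h2
    have h3 : ‖L y - w‖ * (‖p‖ + 1) < |inner ℝ (L y) p| := by
      rwa [lt_div_iff₀ hp] at hlt
    nlinarith [norm_nonneg (L y - w), norm_nonneg p]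
  rcases hz with hz | hz
  · exact key (L z) h0 hz
  · refine key (- L z) (by rw [inner_neg_left, h0, neg_zero]) ?_
    rwa [sub_neg_eq_add]

theorem continuousAt_posDet (hL : ContUpToSign L) (p : EuclideanSpace ℝ (Fin 4)) {y : M}
    (hy : inner ℝ (L y) p ≠ 0) : ContinuousAt (posDet L p) y := by
  rw [Metric.continuousAt_iff']
  intro ε hε
  have hp : 0 < ‖p‖ + 1 := by positivity
  have hpos := posDet_inner L p y hy
  set a := inner ℝ (posDet L p y) p with ha
  have hmin : 0 < min ε (a / (‖p‖ + 1)) := lt_min hε (by positivity)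
  filter_upwards [hL.2 y _ hmin, (isOpen_inner_ne hL p).mem_nhds hy] with z hz hz'
  have hpz := posDet_inner L p z hz'
  -- either `posDet z` is close to `posDet y` or to `-posDet y`
  have h1 : ‖posDet L p y - posDet L p z‖ < min ε (a / (‖p‖ + 1)) ∨
      ‖posDet L p y + posDet L p z‖ < min ε (a / (‖p‖ + 1)) := by
    rcases posDet_eq_or L p y with h | h <;> rcases posDet_eq_or L p z with h' | h' <;>
      rw [h, h']
    · exact hz
    · rw [sub_neg_eq_add, ← sub_eq_add_neg]; exact hz.symm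
    · have e1 : - L y - L z = -(L y + L z) := by abel
      have e2 : - L y + L z = -(L y - L z) := by abel
      rw [e1, e2, norm_neg, norm_neg]; exact hz.symm
    · have e1 : - L y - - L z = -(L y - L z) := by abel
      have e2 : - L y + - L z = -(L y + L z) := by abel
      rw [e1, e2, norm_neg, norm_neg]; exact hz
  rcases h1 with h1 | h1
  · rw [dist_comm, dist_eq_norm]; exact lt_of_lt_of_le h1 (min_le_left _ _)
  · exfalso
    have h2 := lt_of_lt_of_le h1 (min_le_right _ _)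
    have h3 : |inner ℝ (posDet L p y + posDet L p z) p| ≤ ‖posDet L p y + posDet L p z‖ * ‖p‖ :=
      abs_real_inner_le_norm _ _
    rw [inner_add_left, ← ha] at h3
    have h4 : ‖posDet L p y + posDet L p z‖ * (‖p‖ + 1) < a := by rwa [lt_div_iff₀ hp] at h2
    have h5 := le_abs_self (a + inner ℝ (posDet L p z) p)
    nlinarith [norm_nonneg (posDet L p y + posDet L p z), norm_nonneg p]

theorem exists_lift_aux (hL : ContUpToSign L) (f : ℝ → M) (hf : Continuous f)
    {u : EuclideanSpace ℝ (Fin 4)} (hu : u = L (f 0) ∨ u = - L (f 0)) :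
    ∃ v : ℝ → EuclideanSpace ℝ (Fin 4), ContinuousOn v (Set.Icc 0 1) ∧ v 0 = u ∧
      ∀ t ∈ Set.Icc (0:ℝ) 1, v t = L (f t) ∨ v t = - L (f t) := by
  have hLne : ∀ y, inner ℝ (L y) (L y) ≠ (0:ℝ) := by
    intro y; rw [real_inner_self_eq_norm_sq, hL.1 y]; norm_num
  obtain ⟨δ, hδ, hcov⟩ := lebesgue_number_lemma_of_metric (isCompact_Icc (a := (0:ℝ)) (b := 1))
    (c := fun s : ℝ => {t : ℝ | inner ℝ (L (f t)) (L (f s)) ≠ 0})
    (fun s => (isOpen_inner_ne hL (L (f s))).preimage hf)
    (fun t _ => Set.mem_iUnion.2 ⟨t, hLne (f t)⟩)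
  obtain ⟨N, hN⟩ := exists_nat_gt (1 / δ)
  have hNpos : 0 < (N:ℝ) := lt_trans (by positivity) hN
  have hNδ : 1 / (N:ℝ) < δ := by
    rw [div_lt_iff₀ hNpos]; rw [div_lt_iff₀ hδ] at hN; linarith
  have main : ∀ n : ℕ, n ≤ N → ∃ v : ℝ → EuclideanSpace ℝ (Fin 4),
      ContinuousOn v (Set.Icc 0 ((n:ℝ) / N)) ∧ v 0 = u ∧
      ∀ t ∈ Set.Icc (0:ℝ) ((n:ℝ) / N), v t = L (f t) ∨ v t = - L (f t) := by
    intro n
    induction n with
    | zero =>
      intro _
      refine ⟨fun _ => u, continuousOn_const, rfl, ?_⟩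
      intro t ht
      have : t = 0 := by
        simp only [Nat.cast_zero, zero_div, Set.Icc_self, Set.mem_singleton_iff] at ht; exact ht
      rw [this]; exact hu
    | succ n ih =>
      intro hn
      obtain ⟨v, hvc, hv0, hv⟩ := ih (by omega)
      set s : ℝ := (n:ℝ) / N with hs
      set s' : ℝ := ((n + 1 : ℕ):ℝ) / N with hs'
      have hss' : s' = s + 1 / N := by rw [hs, hs']; push_cast; ring
      have hs0 : 0 ≤ s := by positivity
      have hs1 : s ≤ 1 := by
        rw [hs, div_le_one hNpos]; exact_mod_cast (by omega : n ≤ N)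
      obtain ⟨c, hc⟩ := hcov s ⟨hs0, hs1⟩
      set p := L (f c) with hp
      have hsub : ∀ t ∈ Set.Icc s s', inner ℝ (L (f t)) p ≠ 0 := by
        intro t ht
        apply hc
        rw [Metric.mem_ball, Real.dist_eq, abs_of_nonneg (by linarith [ht.1])]
        linarith [ht.2]
      have hw : ContinuousOn (fun t => posDet L p (f t)) (Set.Icc s s') := by
        intro t ht
        apply ContinuousAt.continuousWithinAt
        exact ContinuousAt.comp (f := f) (g := posDet L p)
          (continuousAt_posDet hL p (hsub t ht)) hf.continuousAt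
      obtain ⟨ε, hε, hεs⟩ : ∃ ε : ℝ, (ε = 1 ∨ ε = -1) ∧ v s = ε • posDet L p (f s) := by
        rcases hv s ⟨hs0, le_refl _⟩ with h | h <;> rcases posDet_eq_or L p (f s) with h' | h' <;>
          rw [h, h']
        · exact ⟨1, Or.inl rfl, by simp⟩
        · exact ⟨-1, Or.inr rfl, by simp⟩
        · exact ⟨-1, Or.inr rfl, by simp⟩
        · exact ⟨1, Or.inl rfl, by simp⟩
      refine ⟨fun t => if t ≤ s then v t else ε • posDet L p (f t), ?_, ?_, ?_⟩
      · have hunion : Set.Icc 0 s' = Set.Icc 0 s ∪ Set.Icc s s' := by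
          rw [Set.Icc_union_Icc_eq_Icc hs0]; rw [hss']; linarith [show 0 < 1 / (N:ℝ) by positivity]
        rw [hunion]
        apply ContinuousOn.union_of_isClosed
        · apply hvc.congr
          intro t ht
          simp [ht.2]
        · apply (hw.const_smul ε).congr
          intro t ht
          by_cases h : t ≤ s
          · have : t = s := le_antisymm h ht.1
            subst this
            simp [hεs]
          · simp [h]
        · exact isClosed_Icc
        · exact isClosed_Icc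
      · simp [hs0, hv0]
      · intro t ht
        by_cases h : t ≤ s
        · simp only [h, if_true]; exact hv t ⟨ht.1, h⟩
        · simp only [h, if_false]
          rcases hε with rfl | rfl <;> rcases posDet_eq_or L p (f t) with h' | h' <;> rw [h'] <;> simp
  obtain ⟨v, hvc, hv0, hv⟩ := main N le_rfl
  rw [div_self hNpos.ne'] at hvc hv
  exact ⟨v, hvc, hv0, hv⟩

/-- Lifting of a path through the two-valued map `L`. -/
theorem ContUpToSign.exists_lift (hL : ContUpToSign L) {x y : M} (τ : Path x y)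
    {u : EuclideanSpace ℝ (Fin 4)} (hu : u = L x ∨ u = - L x) :
    ∃ (u' : EuclideanSpace ℝ (Fin 4)) (v : Path u u'), ∀ t, v t = L (τ t) ∨ v t = - L (τ t) := by
  obtain ⟨v, hvc, hv0, hv⟩ := exists_lift_aux hL τ.extend τ.continuous_extend (u := u)
    (by simpa using hu)
  refine ⟨v 1, ⟨⟨fun t => v t, ?_⟩, ?_, ?_⟩, ?_⟩
  · exact continuousOn_iff_continuous_domRestrict.1 hvc
  · simpa using hv0
  · simp
  · intro t
    have := hv t t.2
    rw [Path.extend_apply] at this
    exact this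

theorem Reverses.conj (hL : ContUpToSign L) {x y : M} {γ : Path x x} (h : Reverses L γ)
    (τ : Path x y) : Reverses L (τ.symm.trans (γ.trans τ)) := by
  obtain ⟨v, hv, hv1⟩ := h
  have hv0 : v 0 = L x ∨ v 0 = - L x := by simpa using hv 0
  obtain ⟨u', w, hw⟩ := hL.exists_lift τ hv0
  -- `v` as a path
  let V : Path (v 0) (- v 0) := ⟨v, rfl, hv1⟩
  let W' : Path (- v 0) (- u') := w.map continuous_neg
  let P := w.symm.trans (V.trans W')
  refine ⟨P.toContinuousMap, ?_, ?_⟩
  · intro t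
    change P t = L ((τ.symm.trans (γ.trans τ)) t) ∨ P t = - L ((τ.symm.trans (γ.trans τ)) t)
    simp only [P, Path.trans_apply, Path.symm_apply]
    split_ifs with h1 h2
    · exact hw _
    · exact hv _
    · rcases hw ⟨2 * (2 * (t:ℝ) - 1) - 1, by
        constructor
        · linarith
        · linarith [t.2.2]⟩ with h | h
      · right
        change - w _ = _
        rw [h]
      · left
        change - w _ = _
        rw [h, neg_neg]
  · change P 1 = - P 0
    rw [P.target, P.source]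

end Lift

section Main

variable {M : Type*} [TopologicalSpace M] {L : M → EuclideanSpace ℝ (Fin 4)}
  {D : ∀ {x y : M}, Path x y → ℝ}


end Main

end Crest.Agent.R244
end

-- ▼ part R244/CHDefs
section

/-!
# R244 package B2, definitions : chains, chain equivalence, sampling of paths
-/

set_option autoImplicit false

open Filter Topology

namespace Crest.Agent.R244

variable {M : Type*} [MetricSpace M]

/-- `p` is a chain with steps `≤ ρ` which is constant from index `N` on. -/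
structure IsCh (ρ : ℝ) (N : ℕ) (p : ℕ → M) : Prop where
  step : ∀ i, dist (p i) (p (i + 1)) ≤ ρ
  const : ∀ i, N ≤ i → p i = p N

/-- Adjacent chains: pointwise `ρ`-close, same beginning, same end. -/
structure ChAdj (ρ : ℝ) (p q : ℕ → M) : Prop where
  left : ∃ N, IsCh ρ N p
  right : ∃ N, IsCh ρ N q
  close : ∀ i, dist (p i) (q i) ≤ ρ
  start : p 0 = q 0
  stop : ∃ N, ∀ i, N ≤ i → p i = q i

/-- Equivalence of chains (discrete homotopy rel end points). -/
def ChEq (ρ : ℝ) : (ℕ → M) → (ℕ → M) → Prop := Relation.ReflTransGen (ChAdj ρ)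

/-- Concatenation: follow `p` for `N` steps, then `q`. (Meaningful when `p N = q 0`.) -/
def cat (N : ℕ) (p q : ℕ → M) : ℕ → M := fun i => if i < N then p i else q (i - N)

/-- Reversal of a chain with `N` steps. -/
def rev (N : ℕ) (p : ℕ → M) : ℕ → M := fun i => p (N - i)

/-- The chain `γ(0), γ(1/N), …, γ(1), γ(1), …`. -/
noncomputable def smp {x y : M} (γ : Path x y) (N : ℕ) : ℕ → M := fun i => γ.extend ((i : ℝ) / N)

theorem ChAdj.symm {ρ : ℝ} {p q : ℕ → M} (h : ChAdj ρ p q) : ChAdj ρ q p where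
  left := h.right
  right := h.left
  close i := by rw [dist_comm]; exact h.close i
  start := h.start.symm
  stop := by obtain ⟨N, hN⟩ := h.stop; exact ⟨N, fun i hi => (hN i hi).symm⟩

theorem ChEq.symm {ρ : ℝ} {p q : ℕ → M} (h : ChEq ρ p q) : ChEq ρ q p := by
  induction h with
  | refl => exact Relation.ReflTransGen.refl
  | tail _ h2 ih => exact Relation.ReflTransGen.head h2.symm ih

theorem ChEq.refl {ρ : ℝ} (p : ℕ → M) : ChEq ρ p p := Relation.ReflTransGen.refl

theorem ChEq.trans {ρ : ℝ} {p q s : ℕ → M} (h : ChEq ρ p q) (h' : ChEq ρ q s) : ChEq ρ p s :=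
  Relation.ReflTransGen.trans h h'

theorem ChAdj.chEq {ρ : ℝ} {p q : ℕ → M} (h : ChAdj ρ p q) : ChEq ρ p q :=
  Relation.ReflTransGen.single h

end Crest.Agent.R244
end

-- ▼ part R244/CHLadder
section

/-!
# R244 package B2, part 2 : geodesic chains and the ladder lemma
-/

set_option autoImplicit false
set_option linter.unusedSectionVars false

open Filter Topology Finset

namespace Crest.Agent.R244

variable {M : Type*} [MetricSpace M] {r ρ : ℝ}

/-- length of a chain -/
def len (N : ℕ) (p : ℕ → M) : ℝ := ∑ i ∈ range N, dist (p i) (p (i + 1))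

/-- energy of a chain -/
def nrg (N : ℕ) (p : ℕ → M) : ℝ := ∑ i ∈ range N, dist (p i) (p (i + 1)) ^ 2

/-- geodesic chain: every inner point is the midpoint of its neighbours -/
def IsGeo (r : ℝ) (N : ℕ) (p : ℕ → M) : Prop :=
  ∀ j, 0 < j → j < N → IsMid r (p (j - 1)) (p (j + 1)) (p j)

open Classical in
/-- chosen midpoint -/
noncomputable def md (h : LocalCN M r) (a b : M) : M :=
  if hab : dist a b < r then (h.2 a b hab).choose else a

theorem md_isMid (h : LocalCN M r) {a b : M} (hab : dist a b < r) : IsMid r a b (md h a b) := by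
  unfold md
  rw [dif_pos hab]
  exact (h.2 a b hab).choose_spec

theorem len_nonneg (N : ℕ) (p : ℕ → M) : 0 ≤ len N p :=
  Finset.sum_nonneg fun _ _ => dist_nonneg

theorem IsCh.mono {N N' : ℕ} {p : ℕ → M} (h : IsCh ρ N p) (hN : N ≤ N') : IsCh ρ N' p where
  step := h.step
  const i hi := by rw [h.const i (hN.trans hi), h.const N' hN]

theorem IsCh.len_eq {N N' : ℕ} {p : ℕ → M} (h : IsCh ρ N p) (hN : N ≤ N') :
    len N' p = len N p := by
  obtain ⟨k, rfl⟩ := Nat.exists_eq_add_of_le hN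
  unfold len
  rw [Finset.sum_range_add]
  have : ∑ x ∈ range k, dist (p (N + x)) (p (N + x + 1)) = 0 := by
    apply Finset.sum_eq_zero
    intro i _
    rw [h.const (N + i) (by omega), h.const (N + i + 1) (by omega), dist_self]
  rw [this, add_zero]

theorem IsCh.dist_start_le {N : ℕ} {p : ℕ → M} (h : IsCh ρ N p) (i : ℕ) :
    dist (p 0) (p i) ≤ len N p := by
  have h1 : dist (p 0) (p i) ≤ len i p := dist_le_range_sum_dist p i
  rcases le_total i N with hi | hi
  · refine h1.trans ?_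
    unfold len
    exact Finset.sum_le_sum_of_subset_of_nonneg (Finset.range_mono hi)
      (fun _ _ _ => dist_nonneg)
  · rw [h.len_eq hi] at h1
    exact h1

theorem sum_range_update_two {N j : ℕ} (hj0 : 0 < j) (hjN : j < N) (f g : ℕ → ℝ)
    (hfg : ∀ i, i ≠ j - 1 → i ≠ j → f i = g i) :
    (∑ i ∈ range N, f i) - (∑ i ∈ range N, g i) = (f (j-1) + f j) - (g (j-1) + g j) := by
  have h1 : j - 1 ∈ range N := by rw [Finset.mem_range]; omega
  have h2 : j ∈ (range N).erase (j - 1) := by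
    rw [Finset.mem_erase, Finset.mem_range]; omega
  rw [← Finset.add_sum_erase _ f h1, ← Finset.add_sum_erase _ f h2,
    ← Finset.add_sum_erase _ g h1, ← Finset.add_sum_erase _ g h2]
  have : ∑ x ∈ ((range N).erase (j - 1)).erase j, f x
      = ∑ x ∈ ((range N).erase (j - 1)).erase j, g x := by
    apply Finset.sum_congr rfl
    intro x hx
    rw [Finset.mem_erase, Finset.mem_erase] at hx
    exact hfg x hx.2.1 hx.1
  rw [this]; ring

/-- one-site relaxation -/
noncomputable def upd (h : LocalCN M r) (j : ℕ) (p : ℕ → M) : ℕ → M :=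
  Function.update p j (md h (p (j - 1)) (p (j + 1)))

theorem upd_same (h : LocalCN M r) (j : ℕ) (p : ℕ → M) :
    upd h j p j = md h (p (j - 1)) (p (j + 1)) := by
  unfold upd; simp

theorem upd_ne (h : LocalCN M r) {j i : ℕ} (p : ℕ → M) (hij : i ≠ j) :
    upd h j p i = p i := by
  unfold upd; simp [hij]

theorem IsCh.dist_two {N : ℕ} {p : ℕ → M} (h : IsCh ρ N p) {j : ℕ} (hj : 0 < j) :
    dist (p (j - 1)) (p (j + 1)) ≤ 2 * ρ := by
  have h1 := h.step (j - 1)
  have h2 := h.step j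
  rw [show j - 1 + 1 = j by omega] at h1
  linarith [dist_triangle (p (j-1)) (p j) (p (j+1))]

section upd

variable (h : LocalCN M r) (hρ0 : 0 ≤ ρ) (hρ : 3 * ρ < r) {N : ℕ} {p : ℕ → M}
  (hp : IsCh ρ N p) {j : ℕ} (hj0 : 0 < j) (hjN : j < N)

include hρ0 hρ hp hj0 hjN

theorem upd_isMid : IsMid r (p (j - 1)) (p (j + 1)) (upd h j p j) := by
  rw [upd_same]
  exact md_isMid h (lt_of_le_of_lt (hp.dist_two hj0) (by linarith))

theorem upd_dist_le (i : ℕ) : dist (p i) (upd h j p i) ≤ ρ := by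
  by_cases hij : i = j
  · subst hij
    have h1 := upd_isMid h hρ0 hρ hp hj0 hjN
    have s1 := hp.step (i - 1)
    rw [show i - 1 + 1 = i by omega] at s1
    have s2 := hp.step i
    have h2 := h1 (p i) (by rw [dist_comm]; linarith) (by linarith)
    have h3 : dist (p i) (upd h i p i) ^ 2 ≤ ρ ^ 2 := by
      rw [dist_comm (p i) (p (i-1))] at h2
      have a1 : dist (p (i-1)) (p i) ^ 2 ≤ ρ ^ 2 := pow_le_pow_left₀ dist_nonneg s1 2
      have a2 : dist (p i) (p (i+1)) ^ 2 ≤ ρ ^ 2 := pow_le_pow_left₀ dist_nonneg s2 2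
      nlinarith [sq_nonneg (dist (p (i-1)) (p (i+1)))]
    exact le_of_sq_le_sq h3 hρ0
  · rw [upd_ne h p hij, dist_self]; exact hρ0

theorem upd_step_left : dist (upd h j p (j-1)) (upd h j p j) = dist (p (j-1)) (p (j+1)) / 2 := by
  rw [upd_ne h p (by omega)]
  exact (upd_isMid h hρ0 hρ hp hj0 hjN).dist_left
    (lt_of_le_of_lt (hp.dist_two hj0) (by linarith))

theorem upd_step_right : dist (upd h j p j) (upd h j p (j+1)) = dist (p (j-1)) (p (j+1)) / 2 := by
  rw [upd_ne h p (show j + 1 ≠ j by omega)]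
  exact (upd_isMid h hρ0 hρ hp hj0 hjN).dist_right
    (lt_of_le_of_lt (hp.dist_two hj0) (by linarith))

theorem upd_isCh : IsCh ρ N (upd h j p) where
  step i := by
    by_cases h1 : i = j - 1
    · subst h1
      have e := upd_step_left h hρ0 hρ hp hj0 hjN
      rw [show j - 1 + 1 = j by omega, e]
      linarith [hp.dist_two hj0]
    · by_cases h2 : i = j
      · subst h2
        rw [upd_step_right h hρ0 hρ hp hj0 hjN]
        linarith [hp.dist_two hj0]
      · rw [upd_ne h p h2, upd_ne h p (by omega)]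
        exact hp.step i
  const i hi := by
    rw [upd_ne h p (by omega), upd_ne h p (by omega)]
    exact hp.const i hi

theorem upd_len : len N (upd h j p) ≤ len N p := by
  have h1 := sum_range_update_two hj0 hjN
    (fun i => dist (upd h j p i) (upd h j p (i+1))) (fun i => dist (p i) (p (i+1)))
    (fun i hi1 hi2 => by rw [upd_ne h p hi2, upd_ne h p (by omega)])
  rw [show j - 1 + 1 = j by omega, upd_step_left h hρ0 hρ hp hj0 hjN,
    upd_step_right h hρ0 hρ hp hj0 hjN] at h1
  have h2 := dist_triangle (p (j-1)) (p j) (p (j+1))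
  unfold len
  linarith

theorem upd_nrg : nrg N (upd h j p) ≤ nrg N p - 2 * dist (p j) (upd h j p j) ^ 2 := by
  have h1 := sum_range_update_two hj0 hjN
    (fun i => dist (upd h j p i) (upd h j p (i+1)) ^ 2) (fun i => dist (p i) (p (i+1)) ^ 2)
    (fun i hi1 hi2 => by rw [upd_ne h p hi2, upd_ne h p (by omega)])
  rw [show j - 1 + 1 = j by omega, upd_step_left h hρ0 hρ hp hj0 hjN,
    upd_step_right h hρ0 hρ hp hj0 hjN] at h1
  have s1 := hp.step (j - 1)
  rw [show j - 1 + 1 = j by omega] at s1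
  have s2 := hp.step j
  have h2 := upd_isMid h hρ0 hρ hp hj0 hjN (p j) (by rw [dist_comm]; linarith) (by linarith)
  rw [dist_comm (p j) (p (j-1))] at h2
  unfold nrg
  nlinarith

theorem upd_zero : upd h j p 0 = p 0 := upd_ne h p (by omega)

theorem upd_last : upd h j p N = p N := upd_ne h p (by omega)

theorem upd_chAdj : ChAdj ρ p (upd h j p) where
  left := ⟨N, hp⟩
  right := ⟨N, upd_isCh h hρ0 hρ hp hj0 hjN⟩
  close := upd_dist_le h hρ0 hρ hp hj0 hjN
  start := (upd_zero h hρ0 hρ hp hj0 hjN).symm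
  stop := ⟨N, fun i hi => (upd_ne h p (by omega)).symm⟩

theorem upd_close {q : ℕ → M} (hq : IsCh ρ N q) (hc : ∀ i, dist (p i) (q i) ≤ ρ) (i : ℕ) :
    dist (upd h j p i) (upd h j q i) ≤ ρ := by
  by_cases hij : i = j
  · subst hij
    have h1 := upd_isMid h hρ0 hρ hp hj0 hjN
    have h2 := upd_isMid h hρ0 hρ hq hj0 hjN
    have d1 := hp.dist_two hj0
    have d2 := hq.dist_two hj0
    have c1 := hc (i - 1)
    have c2 := hc (i + 1)
    have t1 : dist (p (i-1)) (q (i+1)) < r := by
      linarith [dist_triangle (p (i-1)) (p (i+1)) (q (i+1))]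
    have t2 : dist (p (i+1)) (q (i-1)) < r := by
      have := dist_triangle (p (i+1)) (p (i-1)) (q (i-1))
      rw [dist_comm (p (i+1)) (p (i-1))] at this
      linarith
    have h3 := mid_dist_sq h h1 h2 (by linarith) (by linarith) (by linarith) (by linarith) t1 t2
    have a1 : dist (p (i-1)) (q (i-1)) ^ 2 ≤ ρ ^ 2 := pow_le_pow_left₀ dist_nonneg c1 2
    have a2 : dist (p (i+1)) (q (i+1)) ^ 2 ≤ ρ ^ 2 := pow_le_pow_left₀ dist_nonneg c2 2
    have h4 : dist (upd h i p i) (upd h i q i) ^ 2 ≤ ρ ^ 2 := by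
      nlinarith [sq_nonneg (dist (p (i-1)) (p (i+1)) - dist (q (i-1)) (q (i+1)))]
    exact le_of_sq_le_sq h4 hρ0
  · rw [upd_ne h p hij, upd_ne h q hij]; exact hc i

end upd

/-! ### compactness -/

theorem isClosed_isCh (N : ℕ) : IsClosed {p : ℕ → M | IsCh ρ N p} := by
  have : {p : ℕ → M | IsCh ρ N p} = (⋂ i, {p : ℕ → M | dist (p i) (p (i+1)) ≤ ρ}) ∩
      (⋂ i, {p : ℕ → M | N ≤ i → p i = p N}) := by
    ext p
    simp only [Set.mem_ofPred_eq, Set.mem_inter_iff, Set.mem_iInter]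
    exact ⟨fun h => ⟨h.step, h.const⟩, fun h => ⟨h.1, h.2⟩⟩
  rw [this]
  refine IsClosed.inter (isClosed_iInter fun i => ?_) (isClosed_iInter fun i => ?_)
  · exact isClosed_le ((continuous_apply i).dist (continuous_apply (i+1))) continuous_const
  · by_cases hi : N ≤ i
    · have : {p : ℕ → M | N ≤ i → p i = p N} = {p : ℕ → M | p i = p N} := by
        ext p; simp [hi]
      rw [this]
      exact isClosed_eq (continuous_apply i) (continuous_apply N)
    · have : {p : ℕ → M | N ≤ i → p i = p N} = Set.univ := by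
        ext p; simp [hi]
      rw [this]; exact isClosed_univ

/-- The `N`-chains with given ends in a given equivalence class form a closed set. -/
theorem isClosed_class (hρ : 0 < ρ) (N : ℕ) (p₀ : ℕ → M) (x y : M) :
    IsClosed {p : ℕ → M | IsCh ρ N p ∧ p 0 = x ∧ p N = y ∧ ChEq ρ p₀ p} := by
  rw [← isSeqClosed_iff_isClosed]
  intro u p hu hlim
  have hcl : IsClosed {p : ℕ → M | IsCh ρ N p ∧ p 0 = x ∧ p N = y} := by
    refine IsClosed.inter (isClosed_isCh N) (IsClosed.inter ?_ ?_)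
    · exact isClosed_eq (continuous_apply 0) continuous_const
    · exact isClosed_eq (continuous_apply N) continuous_const
  have hp : IsCh ρ N p ∧ p 0 = x ∧ p N = y :=
    hcl.isSeqClosed (fun n => ⟨(hu n).1, (hu n).2.1, (hu n).2.2.1⟩) hlim
  have hev : ∀ᶠ n in atTop, ∀ i ∈ range (N + 1), dist (u n i) (p i) < ρ := by
    rw [Filter.eventually_all_finset]
    intro i _
    have := (tendsto_pi_nhds.1 hlim i)
    exact (tendsto_iff_dist_tendsto_zero.1 this).eventually (gt_mem_nhds hρ)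
  obtain ⟨n, hn⟩ := hev.exists
  refine ⟨hp.1, hp.2.1, hp.2.2, (hu n).2.2.2.trans (ChAdj.chEq ?_)⟩
  refine ⟨⟨N, (hu n).1⟩, ⟨N, hp.1⟩, fun i => ?_, ?_, ⟨N, fun i hi => ?_⟩⟩
  · rcases le_total i N with hi | hi
    · exact (hn i (by rw [Finset.mem_range]; omega)).le
    · rw [(hu n).1.const i hi, hp.1.const i hi]
      exact (hn N (by simp)).le
  · rw [(hu n).2.1, hp.2.1]
  · rw [(hu n).1.const i hi, hp.1.const i hi, (hu n).2.2.1, hp.2.2]

/-- **Ladder lemma.** -/
theorem ladder [CompactSpace M] (h : LocalCN M r) (hρ0 : 0 < ρ) (hρ : 3 * ρ < r) (N K : ℕ)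
    (R : ℕ → ℕ → M) (hR : ∀ k ≤ K, IsCh ρ N (R k))
    (hA : ∀ k < K, ∀ i, dist (R k i) (R (k + 1) i) ≤ ρ) :
    ∃ R' : ℕ → ℕ → M, (∀ k ≤ K, IsCh ρ N (R' k) ∧ R' k 0 = R k 0 ∧ R' k N = R k N ∧
      len N (R' k) ≤ len N (R k) ∧ IsGeo r N (R' k)) ∧
      (∀ k < K, ∀ i, dist (R' k i) (R' (k + 1) i) ≤ ρ) ∧ ChEq ρ (R 0) (R' 0) := by
  classical
  set L : Set (ℕ → ℕ → M) := {S | (∀ k ≤ K, IsCh ρ N (S k) ∧ S k 0 = R k 0 ∧ S k N = R k N ∧
      len N (S k) ≤ len N (R k)) ∧ (∀ k < K, ∀ i, dist (S k i) (S (k + 1) i) ≤ ρ) ∧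
      (IsCh ρ N (S 0) ∧ S 0 0 = R 0 0 ∧ S 0 N = R 0 N ∧ ChEq ρ (R 0) (S 0))} with hL
  have happ : ∀ k i, Continuous fun S : ℕ → ℕ → M => S k i := fun k i => by fun_prop
  have hlen : ∀ k, Continuous fun S : ℕ → ℕ → M => len N (S k) := fun k => by
    unfold len
    exact continuous_finsetSum _ fun i _ => (happ k i).dist (happ k (i+1))
  have hcl : IsClosed L := by
    have e : L = (⋂ k, ⋂ (_ : k ≤ K), {S : ℕ → ℕ → M | IsCh ρ N (S k) ∧ S k 0 = R k 0 ∧
        S k N = R k N ∧ len N (S k) ≤ len N (R k)}) ∩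
        ((⋂ k, ⋂ (_ : k < K), ⋂ i, {S : ℕ → ℕ → M | dist (S k i) (S (k + 1) i) ≤ ρ}) ∩
        {S : ℕ → ℕ → M | IsCh ρ N (S 0) ∧ S 0 0 = R 0 0 ∧ S 0 N = R 0 N ∧ ChEq ρ (R 0) (S 0)}) := by
      ext S
      simp [hL, Set.mem_iInter]
    rw [e]
    refine IsClosed.inter ?_ (IsClosed.inter ?_ ?_)
    · refine isClosed_iInter fun k => isClosed_iInter fun _ => ?_
      refine IsClosed.inter ((isClosed_isCh N).preimage (continuous_apply k))
        (IsClosed.inter ?_ (IsClosed.inter ?_ ?_))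
      · exact isClosed_eq (happ k 0) continuous_const
      · exact isClosed_eq (happ k N) continuous_const
      · exact isClosed_le (hlen k) continuous_const
    · refine isClosed_iInter fun k => isClosed_iInter fun _ => isClosed_iInter fun i => ?_
      exact isClosed_le ((happ k i).dist (happ (k+1) i)) continuous_const
    · exact (isClosed_class hρ0 N (R 0) (R 0 0) (R 0 N)).preimage
        (f := fun S : ℕ → ℕ → M => S 0) (continuous_apply 0)
  have hne : L.Nonempty :=
    ⟨R, fun k hk => ⟨hR k hk, rfl, rfl, le_rfl⟩, hA, hR 0 (Nat.zero_le _), rfl, rfl, ChEq.refl _⟩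
  have hcont : Continuous fun S : ℕ → ℕ → M => ∑ k ∈ range (K + 1), nrg N (S k) := by
    refine continuous_finsetSum _ fun k _ => ?_
    unfold nrg
    exact continuous_finsetSum _ fun i _ => ((happ k i).dist (happ k (i+1))).pow 2
  obtain ⟨S, hS, hmin⟩ := hcl.isCompact.exists_isMinOn hne hcont.continuousOn
  obtain ⟨h1, h2, h3⟩ := hS
  refine ⟨S, fun k hk => ?_, h2, h3.2.2.2⟩
  obtain ⟨c1, c2, c3, c4⟩ := h1 k hk
  refine ⟨c1, c2, c3, c4, fun j hj0 hjN => ?_⟩
  -- the relaxed ladder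
  have hmem : (fun k => upd h j (S k)) ∈ L := by
    refine ⟨fun k hk => ?_, fun k hk i => ?_, ?_⟩
    · obtain ⟨c1, c2, c3, c4⟩ := h1 k hk
      refine ⟨upd_isCh h hρ0.le hρ c1 hj0 hjN, ?_, ?_, ?_⟩
      · simp only; rw [upd_zero h hρ0.le hρ c1 hj0 hjN, c2]
      · simp only; rw [upd_last h hρ0.le hρ c1 hj0 hjN, c3]
      · exact (upd_len h hρ0.le hρ c1 hj0 hjN).trans c4
    · exact upd_close h hρ0.le hρ (h1 k hk.le).1 hj0 hjN (h1 (k+1) hk).1 (h2 k hk) i
    · obtain ⟨c1, c2, c3, c4⟩ := h3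
      refine ⟨upd_isCh h hρ0.le hρ c1 hj0 hjN, ?_, ?_, ?_⟩
      · simp only; rw [upd_zero h hρ0.le hρ c1 hj0 hjN, c2]
      · simp only; rw [upd_last h hρ0.le hρ c1 hj0 hjN, c3]
      · exact c4.trans (upd_chAdj h hρ0.le hρ c1 hj0 hjN).chEq
  have hle := hmin hmem
  simp only [Set.mem_ofPred_eq] at hle
  have hsum : ∑ k ∈ range (K + 1), nrg N (upd h j (S k)) ≤
      ∑ k ∈ range (K + 1), nrg N (S k) -
        ∑ k ∈ range (K + 1), 2 * dist (S k j) (upd h j (S k) j) ^ 2 := by
    rw [← Finset.sum_sub_distrib]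
    refine Finset.sum_le_sum fun k hk => ?_
    exact upd_nrg h hρ0.le hρ (h1 k (by rw [Finset.mem_range] at hk; omega)).1 hj0 hjN
  have hz : 2 * dist (S k j) (upd h j (S k) j) ^ 2 ≤
      ∑ k ∈ range (K + 1), 2 * dist (S k j) (upd h j (S k) j) ^ 2 :=
    Finset.single_le_sum (f := fun k => 2 * dist (S k j) (upd h j (S k) j) ^ 2)
      (fun k _ => by positivity) (by rw [Finset.mem_range]; omega)
  have hz0 : dist (S k j) (upd h j (S k) j) = 0 := by
    have : dist (S k j) (upd h j (S k) j) ^ 2 ≤ 0 := by linarith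
    exact pow_eq_zero_iff (n := 2) (by norm_num) |>.1 (le_antisymm this (sq_nonneg _))
  have heq := dist_eq_zero.1 hz0
  rw [heq]
  exact upd_isMid h hρ0.le hρ c1 hj0 hjN

end Crest.Agent.R244
end

-- ▼ part R244/CHCat
section

/-!
# R244 package B2, part 3 : concatenation, reversal, ladders from equivalences, the length `DC`
-/

set_option autoImplicit false
set_option linter.unusedSectionVars false
set_option linter.unusedVariables false

open Filter Topology Finset

namespace Crest.Agent.R244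

variable {M : Type*} [MetricSpace M] {r ρ : ℝ}

/-! ### discrete convexity -/

theorem discrete_convex {N : ℕ} {f : ℕ → ℝ}
    (hf : ∀ j, 0 < j → j < N → f j ≤ (f (j - 1) + f (j + 1)) / 2) {j : ℕ} (hj : j ≤ N) :
    (N : ℝ) * f j ≤ ((N : ℝ) - j) * f 0 + j * f N := by
  -- slopes are monotone
  have hs : ∀ i j, i ≤ j → j < N → f (i + 1) - f i ≤ f (j + 1) - f j := by
    intro i j hij
    induction j, hij using Nat.le_induction with
    | base => intro _; exact le_rfl
    | succ k hk ih =>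
      intro hk1
      have h1 := ih (by omega)
      have h2 := hf (k + 1) (by omega) hk1
      rw [show k + 1 - 1 = k by omega] at h2
      linarith
  rcases Nat.eq_zero_or_pos j with rfl | hj0
  · simp
  rcases eq_or_lt_of_le hj with rfl | hjN
  · simp
  -- f j - f 0 ≤ j * slope_{j-1} ≤ j * slope_j
  have h1 : ∀ i ≤ j, f i - f 0 ≤ i * (f (j + 1) - f j) := by
    intro i hi
    induction i with
    | zero => simp
    | succ i ih =>
      have := ih (by omega)
      have h2 := hs i j (by omega) hjN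
      push_cast
      linarith
  have h2 : ∀ i, j + i ≤ N → i * (f (j + 1) - f j) ≤ f (j + i) - f j := by
    intro i hi
    induction i with
    | zero => simp
    | succ i ih =>
      have := ih (by omega)
      have h2 := hs j (j + i) (by omega) (by omega)
      push_cast
      rw [show j + (i + 1) = j + i + 1 by omega]
      linarith
  have a1 := h1 j le_rfl
  have a2 := h2 (N - j) (by omega)
  rw [show j + (N - j) = N by omega] at a2
  have e : ((N - j : ℕ) : ℝ) = (N : ℝ) - j := by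
    rw [Nat.cast_sub hj]
  rw [e] at a2
  have hNj : (0 : ℝ) < (N : ℝ) - j := by
    have : (j : ℝ) < N := by exact_mod_cast hjN
    linarith
  have hjp : (0 : ℝ) < j := by exact_mod_cast hj0
  nlinarith

/-! ### geodesic chains -/

theorem IsGeo.step_eq {N : ℕ} {p : ℕ → M} (hg : IsGeo r N p) (hp : IsCh ρ N p)
    (hρ : 3 * ρ < r) (hρ0 : 0 ≤ ρ) {i : ℕ} (hi : i < N) :
    dist (p i) (p (i + 1)) = dist (p 0) (p 1) := by
  induction i with
  | zero => rfl
  | succ i ih =>
    have h1 := hg (i + 1) (by omega) hi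
    have hd := hp.dist_two (j := i + 1) (by omega)
    rw [show i + 1 - 1 = i by omega] at h1 hd
    have hlt : dist (p i) (p (i + 1 + 1)) < r := by linarith
    rw [h1.dist_right hlt, ← h1.dist_left hlt]
    exact ih (by omega)

theorem IsGeo.len_eq {N : ℕ} {p : ℕ → M} (hg : IsGeo r N p) (hp : IsCh ρ N p)
    (hρ : 3 * ρ < r) (hρ0 : 0 ≤ ρ) : len N p = N * dist (p 0) (p 1) := by
  unfold len
  rw [Finset.sum_congr rfl (fun i hi => hg.step_eq hp hρ hρ0 (Finset.mem_range.1 hi))]
  simp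

theorem IsGeo.nrg_eq {N : ℕ} {p : ℕ → M} (hg : IsGeo r N p) (hp : IsCh ρ N p)
    (hρ : 3 * ρ < r) (hρ0 : 0 ≤ ρ) : N * nrg N p = len N p ^ 2 := by
  rw [hg.len_eq hp hρ hρ0]
  unfold nrg
  rw [Finset.sum_congr rfl (fun i hi => by rw [hg.step_eq hp hρ hρ0 (Finset.mem_range.1 hi)])]
  simp; ring

theorem IsGeo.unique (h : LocalCN M r) {N : ℕ} {p q : ℕ → M} (hg : IsGeo r N p)
    (hg' : IsGeo r N q) (hp : IsCh ρ N p) (hq : IsCh ρ N q) (hρ : 3 * ρ < r) (hρ0 : 0 ≤ ρ)
    (hc : ∀ i, dist (p i) (q i) ≤ ρ) (h0 : p 0 = q 0) (hN : p N = q N) : p = q := by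
  have key : ∀ j, j ≤ N → dist (p j) (q j) = 0 := by
    intro j hj
    rcases Nat.eq_zero_or_pos N with hN0 | hNpos
    · have : j = 0 := by omega
      subst this; rw [h0, dist_self]
    have h1 := discrete_convex (N := N) (f := fun i => dist (p i) (q i) ^ 2) ?_ hj
    · rw [h0, hN, dist_self, dist_self] at h1
      have hNp : (0 : ℝ) < N := by exact_mod_cast hNpos
      have h2 : dist (p j) (q j) ^ 2 ≤ 0 := by
        have : (N : ℝ) * dist (p j) (q j) ^ 2 ≤ 0 := by nlinarith
        by_contra hcon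
        push Not at hcon
        nlinarith [mul_pos hNp hcon]
      exact pow_eq_zero_iff (n := 2) (by norm_num) |>.1 (le_antisymm h2 (sq_nonneg _))
    · intro i hi0 hiN
      have m1 := hg i hi0 hiN
      have m2 := hg' i hi0 hiN
      have d1 := hp.dist_two hi0
      have d2 := hq.dist_two hi0
      have c1 := hc (i - 1)
      have c2 := hc (i + 1)
      have t1 : dist (p (i-1)) (q (i+1)) < r := by
        linarith [dist_triangle (p (i-1)) (p (i+1)) (q (i+1))]
      have t2 : dist (p (i+1)) (q (i-1)) < r := by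
        have := dist_triangle (p (i+1)) (p (i-1)) (q (i-1))
        rw [dist_comm (p (i+1)) (p (i-1))] at this
        linarith
      have h3 := mid_dist_sq h m1 m2 (by linarith) (by linarith) (by linarith) (by linarith) t1 t2
      nlinarith [sq_nonneg (dist (p (i-1)) (p (i+1)) - dist (q (i-1)) (q (i+1)))]
  funext i
  rcases le_total i N with hi | hi
  · exact dist_eq_zero.1 (key i hi)
  · rw [hp.const i hi, hq.const i hi, hN]

/-! ### concatenation -/

theorem cat_of_lt {N i : ℕ} (p q : ℕ → M) (hi : i < N) : cat N p q i = p i := by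
  unfold cat; rw [if_pos hi]

theorem cat_of_ge {N i : ℕ} (p q : ℕ → M) (hi : N ≤ i) : cat N p q i = q (i - N) := by
  unfold cat; rw [if_neg (by omega)]

theorem cat_zero {N : ℕ} {p q : ℕ → M} (hpq : p N = q 0) : cat N p q 0 = p 0 := by
  rcases Nat.eq_zero_or_pos N with h | h
  · subst h; rw [cat_of_ge _ _ le_rfl]; simpa using hpq.symm
  · rw [cat_of_lt _ _ h]

theorem isCh_cat {N N' : ℕ} {p q : ℕ → M} (hp : IsCh ρ N p) (hq : IsCh ρ N' q)
    (hpq : p N = q 0) : IsCh ρ (N + N') (cat N p q) where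
  step i := by
    rcases lt_trichotomy (i + 1) N with h1 | h1 | h1
    · rw [cat_of_lt _ _ h1, cat_of_lt _ _ (by omega)]; exact hp.step i
    · rw [cat_of_lt _ _ (by omega), cat_of_ge _ _ (by omega), h1, Nat.sub_self, ← hpq, ← h1]
      exact hp.step i
    · rw [cat_of_ge _ _ (by omega), cat_of_ge _ _ (by omega),
        show i + 1 - N = i - N + 1 by omega]
      exact hq.step _
  const i hi := by
    rw [cat_of_ge _ _ (by omega), cat_of_ge _ _ (by omega), show N + N' - N = N' by omega]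
    exact hq.const _ (by omega)

theorem IsCh.nonneg {N : ℕ} {p : ℕ → M} (hp : IsCh ρ N p) : 0 ≤ ρ :=
  dist_nonneg.trans (hp.step 0)

theorem cat_shift {N N₂ : ℕ} {p q : ℕ → M} (hp : IsCh ρ N p) (hq : IsCh ρ N₂ q)
    (hpq : p N = q 0) : ChAdj ρ (cat N p q) (cat (N + 1) p q) where
  left := ⟨_, isCh_cat hp hq hpq⟩
  right := ⟨_, isCh_cat (hp.mono (Nat.le_succ N)) hq (by rw [hp.const _ (Nat.le_succ N), hpq])⟩
  close i := by
    rcases lt_trichotomy i N with h1 | h1 | h1
    · rw [cat_of_lt _ _ h1, cat_of_lt _ _ (by omega), dist_self]; exact hp.nonneg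
    · subst h1
      rw [cat_of_ge _ _ le_rfl, cat_of_lt _ _ (by omega), Nat.sub_self, ← hpq, dist_self]
      exact hp.nonneg
    · rw [cat_of_ge _ _ (by omega), cat_of_ge _ _ (by omega), dist_comm]
      have := hq.step (i - (N + 1))
      rwa [show i - (N + 1) + 1 = i - N by omega] at this
  start := by
    rw [cat_zero hpq, cat_zero (by rw [hp.const _ (Nat.le_succ N), hpq])]
  stop := ⟨N + 1 + N₂, fun i hi => by
    rw [cat_of_ge _ _ (by omega), cat_of_ge _ _ (by omega), hq.const _ (by omega),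
      hq.const (i - (N+1)) (by omega)]⟩

theorem cat_shift_le {N N' N₂ : ℕ} {p q : ℕ → M} (hp : IsCh ρ N p) (hq : IsCh ρ N₂ q)
    (hpq : p N = q 0) (hN : N ≤ N') : ChEq ρ (cat N p q) (cat N' p q) := by
  induction N', hN using Nat.le_induction with
  | base => exact ChEq.refl _
  | succ k hk ih =>
    exact ih.trans (cat_shift (hp.mono hk) hq (by rw [hp.const k hk, hpq])).chEq

theorem cat_shift_any {N N' N₂ : ℕ} {p q : ℕ → M} (hp : IsCh ρ N p) (hp' : IsCh ρ N' p)
    (hq : IsCh ρ N₂ q) (hpq : p N = q 0) : ChEq ρ (cat N p q) (cat N' p q) := by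
  rcases le_total N N' with h | h
  · exact cat_shift_le hp hq hpq h
  · refine (cat_shift_le hp' hq ?_ h).symm
    rw [← hpq, hp'.const N h]

theorem ChAdj.end_eq {p q : ℕ → M} (h : ChAdj ρ p q) {N N' : ℕ} (hp : IsCh ρ N p)
    (hq : IsCh ρ N' q) : p N = q N' := by
  obtain ⟨K, hK⟩ := h.stop
  have := hK (max K (max N N')) (le_max_left _ _)
  rw [hp.const _ (by omega), hq.const _ (by omega)] at this
  exact this

theorem cat_adj_left {N N' N₂ : ℕ} {p p' q : ℕ → M} (h : ChAdj ρ p p') (hp : IsCh ρ N p)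
    (hp' : IsCh ρ N' p') (hq : IsCh ρ N₂ q) (hpq : p N = q 0) :
    ChEq ρ (cat N p q) (cat N' p' q) := by
  set K := max N N' with hK
  have e1 : p K = q 0 := by rw [hp.const K (le_max_left _ _), hpq]
  have e2 : p' K = q 0 := by
    rw [hp'.const K (le_max_right _ _), ← h.end_eq hp hp', hpq]
  refine (cat_shift_le hp hq hpq (le_max_left N N')).trans
    (ChEq.trans (ChAdj.chEq ?_) (cat_shift_any (N := K) (hp'.mono (le_max_right _ _)) hp' hq e2))
  refine ⟨⟨_, isCh_cat (hp.mono (le_max_left _ _)) hq e1⟩,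
    ⟨_, isCh_cat (hp'.mono (le_max_right _ _)) hq e2⟩, fun i => ?_, ?_, ⟨K, fun i hi => ?_⟩⟩
  · rcases lt_or_ge i K with hi | hi
    · rw [cat_of_lt _ _ hi, cat_of_lt _ _ hi]; exact h.close i
    · rw [cat_of_ge _ _ hi, cat_of_ge _ _ hi, dist_self]; exact hp.nonneg
  · rw [cat_zero e1, cat_zero e2, h.start]
  · rw [cat_of_ge _ _ hi, cat_of_ge _ _ hi]

theorem cat_adj_right {N N₂ N₂' : ℕ} {p q q' : ℕ → M} (hp : IsCh ρ N p) (h : ChAdj ρ q q')
    (hq : IsCh ρ N₂ q) (hq' : IsCh ρ N₂' q') (hpq : p N = q 0) :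
    ChAdj ρ (cat N p q) (cat N p q') := by
  have e2 : p N = q' 0 := by rw [hpq, h.start]
  refine ⟨⟨_, isCh_cat hp hq hpq⟩, ⟨_, isCh_cat hp hq' e2⟩, fun i => ?_, ?_, ?_⟩
  · rcases lt_or_ge i N with hi | hi
    · rw [cat_of_lt _ _ hi, cat_of_lt _ _ hi, dist_self]; exact hp.nonneg
    · rw [cat_of_ge _ _ hi, cat_of_ge _ _ hi]; exact h.close _
  · rw [cat_zero hpq, cat_zero e2]
  · obtain ⟨K, hK⟩ := h.stop
    exact ⟨N + K, fun i hi => by
      rw [cat_of_ge _ _ (by omega), cat_of_ge _ _ (by omega)]; exact hK _ (by omega)⟩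


theorem ChEq.start {p q : ℕ → M} (h : ChEq ρ p q) : p 0 = q 0 := by
  induction h with
  | refl => rfl
  | tail _ h2 ih => rw [ih, h2.start]

theorem ChEq.stop {p q : ℕ → M} (h : ChEq ρ p q) : ∃ N, ∀ i, N ≤ i → p i = q i := by
  induction h with
  | refl => exact ⟨0, fun _ _ => rfl⟩
  | tail _ h2 ih =>
    obtain ⟨N, hN⟩ := ih
    obtain ⟨N', hN'⟩ := h2.stop
    exact ⟨max N N', fun i hi => by rw [hN i (by omega), hN' i (by omega)]⟩

theorem ChEq.end_eq {p q : ℕ → M} (h : ChEq ρ p q) {N N' : ℕ} (hp : IsCh ρ N p)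
    (hq : IsCh ρ N' q) : p N = q N' := by
  obtain ⟨K, hK⟩ := h.stop
  have := hK (max K (max N N')) (le_max_left _ _)
  rw [hp.const _ (by omega), hq.const _ (by omega)] at this
  exact this

theorem cat_congr_left {N N' N₂ : ℕ} {p p' q : ℕ → M} (h : ChEq ρ p p') (hp : IsCh ρ N p)
    (hp' : IsCh ρ N' p') (hq : IsCh ρ N₂ q) (hpq : p N = q 0) :
    ChEq ρ (cat N p q) (cat N' p' q) := by
  induction h generalizing N' with
  | refl => exact cat_shift_any hp hp' hq hpq
  | @tail b c h1 h2 ih =>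
    obtain ⟨K, hK⟩ := h2.left
    refine (ih hK).trans (cat_adj_left h2 hK hp' hq ?_)
    rw [← hpq]; exact (ChEq.end_eq h1 hp hK).symm

theorem cat_congr_right {N N₂ : ℕ} {p q q' : ℕ → M} (h : ChEq ρ q q') (hp : IsCh ρ N p)
    (hq : IsCh ρ N₂ q) (hpq : p N = q 0) :
    ChEq ρ (cat N p q) (cat N p q') := by
  induction h with
  | refl => exact ChEq.refl _
  | @tail b c h1 h2 ih =>
    obtain ⟨K, hK⟩ := h2.left
    obtain ⟨K', hK'⟩ := h2.right
    refine ih.trans (cat_adj_right hp h2 hK hK' ?_).chEq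
    rw [hpq]; exact ChEq.start h1

theorem cat_congr {N N' N₂ : ℕ} {p p' q q' : ℕ → M} (h : ChEq ρ p p') (h' : ChEq ρ q q')
    (hp : IsCh ρ N p) (hp' : IsCh ρ N' p') (hq : IsCh ρ N₂ q) (hpq : p N = q 0) :
    ChEq ρ (cat N p q) (cat N' p' q') :=
  (cat_congr_left h hp hp' hq hpq).trans
    (cat_congr_right h' hp' hq (by rw [← ChEq.end_eq h hp hp', hpq]))

theorem len_cat {N N' : ℕ} {p q : ℕ → M} (hpq : p N = q 0) :
    len (N + N') (cat N p q) = len N p + len N' q := by
  unfold len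
  rw [Finset.sum_range_add]
  congr 1
  · apply Finset.sum_congr rfl
    intro i hi
    rw [Finset.mem_range] at hi
    rw [cat_of_lt _ _ hi]
    rcases lt_or_ge (i + 1) N with h | h
    · rw [cat_of_lt _ _ h]
    · rw [cat_of_ge _ _ h, show i + 1 - N = 0 by omega, ← hpq, show i + 1 = N by omega]
  · apply Finset.sum_congr rfl
    intro i _
    rw [cat_of_ge _ _ (by omega), cat_of_ge _ _ (by omega), show N + i - N = i by omega,
      show N + i + 1 - N = i + 1 by omega]

/-! ### reversal -/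

theorem isCh_rev {N : ℕ} {p : ℕ → M} (hp : IsCh ρ N p) : IsCh ρ N (rev N p) where
  step i := by
    unfold rev
    rcases lt_or_ge i N with hi | hi
    · have := hp.step (N - (i + 1))
      rw [show N - (i + 1) + 1 = N - i by omega] at this
      rwa [dist_comm]
    · rw [show N - i = 0 by omega, show N - (i + 1) = 0 by omega, dist_self]
      exact hp.nonneg
  const i hi := by
    unfold rev
    rw [show N - i = 0 by omega, show N - N = 0 by omega]

theorem rev_shift {N : ℕ} {p : ℕ → M} (hp : IsCh ρ N p) : ChAdj ρ (rev N p) (rev (N + 1) p) where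
  left := ⟨_, isCh_rev hp⟩
  right := ⟨_, isCh_rev (hp.mono (Nat.le_succ N))⟩
  close i := by
    unfold rev
    rcases le_or_gt i N with hi | hi
    · rw [show N + 1 - i = N - i + 1 by omega]; exact hp.step _
    · rw [show N + 1 - i = 0 by omega, show N - i = 0 by omega, dist_self]; exact hp.nonneg
  start := by
    unfold rev
    simp only [Nat.sub_zero]
    rw [hp.const (N + 1) (Nat.le_succ N)]
  stop := ⟨N + 1, fun i hi => by
    unfold rev; rw [show N - i = 0 by omega, show N + 1 - i = 0 by omega]⟩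

theorem rev_shift_le {N N' : ℕ} {p : ℕ → M} (hp : IsCh ρ N p) (hN : N ≤ N') :
    ChEq ρ (rev N p) (rev N' p) := by
  induction N', hN using Nat.le_induction with
  | base => exact ChEq.refl _
  | succ k hk ih => exact ih.trans (rev_shift (hp.mono hk)).chEq

theorem rev_adj {N N' : ℕ} {p q : ℕ → M} (h : ChAdj ρ p q) (hp : IsCh ρ N p)
    (hq : IsCh ρ N' q) : ChEq ρ (rev N p) (rev N' q) := by
  set K := max N N' with hK
  refine (rev_shift_le hp (le_max_left N N')).trans (ChEq.trans (ChAdj.chEq ?_)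
    (rev_shift_le hq (le_max_right N N')).symm)
  refine ⟨⟨_, isCh_rev (hp.mono (le_max_left _ _))⟩, ⟨_, isCh_rev (hq.mono (le_max_right _ _))⟩,
    fun i => h.close _, ?_, ⟨K, fun i hi => ?_⟩⟩
  · unfold rev
    simp only [Nat.sub_zero]
    rw [hp.const _ (le_max_left _ _), hq.const _ (le_max_right _ _)]
    exact h.end_eq hp hq
  · unfold rev
    rw [show max N N' - i = 0 by omega]; exact h.start

theorem rev_congr {N N' : ℕ} {p q : ℕ → M} (h : ChEq ρ p q) (hp : IsCh ρ N p)
    (hq : IsCh ρ N' q) : ChEq ρ (rev N p) (rev N' q) := by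
  induction h generalizing N' with
  | refl =>
    rcases le_total N N' with h | h
    · exact rev_shift_le hp h
    · exact (rev_shift_le hq h).symm
  | @tail b c h1 h2 ih =>
    obtain ⟨K, hK⟩ := h2.left
    exact (ih hK).trans (rev_adj h2 hK hq)

theorem len_rev {N : ℕ} {p : ℕ → M} : len N (rev N p) = len N p := by
  unfold len rev
  rw [← Finset.sum_range_reflect]
  apply Finset.sum_congr rfl
  intro i hi
  rw [Finset.mem_range] at hi
  rw [dist_comm, show N - (N - 1 - i + 1) = i by omega, show N - (N - 1 - i) = i + 1 by omega]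

theorem rev_rev_eq {N : ℕ} {p : ℕ → M} (hp : IsCh ρ N p) : rev N (rev N p) = p := by
  funext i
  unfold rev
  rcases le_or_gt i N with hi | hi
  · rw [show N - (N - i) = i by omega]
  · rw [show N - (N - i) = N by omega, hp.const i hi.le]

/-! ### ladders from equivalences -/

theorem ChEq.exists_ladder {p q : ℕ → M} (h : ChEq ρ p q) (hq : ∃ N, IsCh ρ N q) :
    ∃ N₀, ∀ N ≥ N₀, ∃ (K : ℕ) (R : ℕ → ℕ → M), R 0 = p ∧ R K = q ∧
      (∀ k ≤ K, IsCh ρ N (R k) ∧ R k 0 = q 0 ∧ R k N = q N) ∧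
      (∀ k < K, ∀ i, dist (R k i) (R (k + 1) i) ≤ ρ) := by
  induction h using Relation.ReflTransGen.head_induction_on with
  | refl =>
    obtain ⟨N₀, hN₀⟩ := hq
    refine ⟨N₀, fun N hN => ⟨0, fun _ => q, rfl, rfl, fun k _ => ⟨hN₀.mono hN, rfl, rfl⟩,
      fun k hk => absurd hk (Nat.not_lt_zero k)⟩⟩
  | @head a c h1 h2 ih =>
    obtain ⟨N₁, hN₁⟩ := ih
    obtain ⟨N₂, hN₂⟩ := h1.left
    obtain ⟨N₃, hN₃⟩ := h1.stop
    refine ⟨max N₁ (max N₂ N₃), fun N hN => ?_⟩
    obtain ⟨K, R, hR0, hRK, hR, hA⟩ := hN₁ N (by omega)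
    refine ⟨K + 1, fun k => Nat.casesOn k a R, rfl, hRK, fun k hk => ?_, fun k hk i => ?_⟩
    · cases k with
      | zero =>
        have e := hR 0 (Nat.zero_le _)
        rw [hR0] at e
        exact ⟨hN₂.mono (by omega), by
          show a 0 = q 0
          rw [h1.start, e.2.1], by
          show a N = q N
          rw [hN₃ N (by omega), e.2.2]⟩
      | succ k => exact hR k (by omega)
    · cases k with
      | zero =>
        show dist (a i) (R 0 i) ≤ ρ
        rw [hR0]; exact h1.close i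
      | succ k => exact hA k (by omega) i

/-! ### the length of a class -/

/-- infimum of the lengths of the chains in the class of `p` -/
noncomputable def DC (ρ : ℝ) (p : ℕ → M) : ℝ :=
  sInf {l | ∃ N q, IsCh ρ N q ∧ ChEq ρ p q ∧ l = len N q}

theorem DC_le {p q : ℕ → M} {N : ℕ} (hq : IsCh ρ N q) (h : ChEq ρ p q) : DC ρ p ≤ len N q :=
  csInf_le ⟨0, fun l hl => by obtain ⟨N, q, _, _, rfl⟩ := hl; exact len_nonneg N q⟩
    ⟨N, q, hq, h, rfl⟩

theorem DC_nonneg (p : ℕ → M) : 0 ≤ DC ρ p :=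
  Real.sInf_nonneg fun l hl => by obtain ⟨N, q, _, _, rfl⟩ := hl; exact len_nonneg N q

theorem exists_len_lt {p : ℕ → M} (hp : ∃ N, IsCh ρ N p) {ε : ℝ} (hε : 0 < ε) :
    ∃ N q, IsCh ρ N q ∧ ChEq ρ p q ∧ len N q < DC ρ p + ε := by
  obtain ⟨N, hN⟩ := hp
  obtain ⟨l, ⟨N', q, h1, h2, rfl⟩, h4⟩ := exists_lt_of_csInf_lt
    (s := {l | ∃ N q, IsCh ρ N q ∧ ChEq ρ p q ∧ l = len N q})
    ⟨len N p, N, p, hN, ChEq.refl _, rfl⟩ (b := DC ρ p + ε) (by unfold DC; linarith)
  exact ⟨N', q, h1, h2, h4⟩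

theorem DC_congr {p q : ℕ → M} (h : ChEq ρ p q) : DC ρ p = DC ρ q := by
  unfold DC
  congr 1
  ext l
  constructor
  · rintro ⟨N, s, h1, h2, h3⟩; exact ⟨N, s, h1, h.symm.trans h2, h3⟩
  · rintro ⟨N, s, h1, h2, h3⟩; exact ⟨N, s, h1, h.trans h2, h3⟩

theorem DC_cat_le {p q : ℕ → M} {N N' : ℕ} (hp : IsCh ρ N p) (hq : IsCh ρ N' q)
    (hpq : p N = q 0) : DC ρ (cat N p q) ≤ DC ρ p + DC ρ q := by
  refine le_of_forall_pos_le_add fun ε hε => ?_
  obtain ⟨N₁, p₁, h1, h2, h3⟩ := exists_len_lt ⟨N, hp⟩ (half_pos hε)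
  obtain ⟨N₂, q₁, h4, h5, h6⟩ := exists_len_lt ⟨N', hq⟩ (half_pos hε)
  have e1 : p₁ N₁ = q₁ 0 := by
    rw [← ChEq.end_eq h2 hp h1, ← ChEq.start h5, hpq]
  have := DC_le (isCh_cat h1 h4 e1) (cat_congr h2 h5 hp h1 hq hpq)
  rw [len_cat e1] at this
  linarith

theorem DC_rev_le {p : ℕ → M} {N : ℕ} (hp : IsCh ρ N p) : DC ρ (rev N p) ≤ DC ρ p := by
  refine le_of_forall_pos_le_add fun ε hε => ?_
  obtain ⟨N₁, p₁, h1, h2, h3⟩ := exists_len_lt ⟨N, hp⟩ hε
  have := DC_le (isCh_rev h1) (rev_congr h2 hp h1)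
  rw [len_rev] at this
  linarith

theorem DC_rev {p : ℕ → M} {N : ℕ} (hp : IsCh ρ N p) : DC ρ (rev N p) = DC ρ p := by
  refine le_antisymm (DC_rev_le hp) ?_
  have := DC_rev_le (isCh_rev hp)
  rwa [rev_rev_eq hp] at this

theorem DC_const (hρ : 0 ≤ ρ) (x : M) : DC ρ (fun _ => x) = 0 := by
  refine le_antisymm ?_ (DC_nonneg _)
  have hc : IsCh ρ 0 (fun _ : ℕ => x) := ⟨fun i => by simpa using hρ, fun i _ => rfl⟩
  have := DC_le hc (ChEq.refl _)
  simpa [len] using this

end Crest.Agent.R244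
end

-- ▼ part R244/CHGlobal
section

/-!
# R244 package B2, part 4 : local and global CN inequality for the length of classes
-/

set_option autoImplicit false
set_option linter.unusedSectionVars false

open Filter Topology Finset

namespace Crest.Agent.R244

variable {M : Type*} [MetricSpace M] {r ρ : ℝ}

/-- the one-step chain `y, z, z, …` -/
def stp (y z : M) : ℕ → M := fun i => if i = 0 then y else z

theorem stp_zero (y z : M) : stp y z 0 = y := rfl

theorem stp_pos (y z : M) {i : ℕ} (hi : 0 < i) : stp y z i = z := by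
  unfold stp; rw [if_neg (by omega)]

theorem isCh_stp {y z : M} (hyz : dist y z ≤ ρ) : IsCh ρ 1 (stp y z) where
  step i := by
    rcases Nat.eq_zero_or_pos i with rfl | hi
    · rw [stp_zero, stp_pos _ _ (by omega)]; exact hyz
    · rw [stp_pos _ _ hi, stp_pos _ _ (by omega), dist_self]; exact dist_nonneg.trans hyz
  const i hi := by rw [stp_pos _ _ (by omega), stp_pos _ _ (by omega)]

theorem sq_le_of_forall_eps {A B C X : ℝ}
    (h : ∀ ε > 0, X ^ 2 ≤ (A + ε) ^ 2 / 2 + (B + ε) ^ 2 / 2 - C) :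
    X ^ 2 ≤ A ^ 2 / 2 + B ^ 2 / 2 - C := by
  have ht : Tendsto (fun ε : ℝ => (A + ε) ^ 2 / 2 + (B + ε) ^ 2 / 2 - C) (𝓝[>] 0)
      (𝓝 ((A + 0) ^ 2 / 2 + (B + 0) ^ 2 / 2 - C)) := by
    apply Tendsto.mono_left _ nhdsWithin_le_nhds
    apply Continuous.tendsto
    fun_prop
  rw [add_zero, add_zero] at ht
  exact ge_of_tendsto ht (by filter_upwards [self_mem_nhdsWithin] with ε hε using h ε hε)

/-- **Local CN inequality** for the length of classes. -/
theorem DC_local_CN [CompactSpace M] (h : LocalCN M r) (hρ0 : 0 < ρ) (hρ : 3 * ρ < r)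
    {N : ℕ} {p : ℕ → M} (hp : IsCh ρ N p) {y z m : M} (hy : p N = y) (hyz : dist y z ≤ ρ)
    (hm : IsMid r y z m) :
    DC ρ (cat N p (stp y m)) ^ 2 ≤
      DC ρ p ^ 2 / 2 + DC ρ (cat N p (stp y z)) ^ 2 / 2 - dist y z ^ 2 / 4 := by
  subst hy
  set y := p N with hy
  have hyr : dist y z < r := by linarith
  have hym : dist y m ≤ ρ := by
    rw [hm.dist_left hyr]; linarith
  have hmz : dist m z = dist y z / 2 := hm.dist_right hyr
  refine sq_le_of_forall_eps fun ε hε => ?_
  -- competitors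
  obtain ⟨N₁, P₀, hP1, hP2, hP3⟩ := exists_len_lt ⟨N, hp⟩ hε
  have hpz : IsCh ρ (N + 1) (cat N p (stp y z)) := isCh_cat hp (isCh_stp hyz) rfl
  obtain ⟨N₂, Q₀, hQ1, hQ2, hQ3⟩ := exists_len_lt ⟨_, hpz⟩ hε
  have hPy : P₀ N₁ = y := (ChEq.end_eq hP2 hp hP1).symm
  have hP0z : IsCh ρ (N₁ + 1) (cat N₁ P₀ (stp y z)) := isCh_cat hP1 (isCh_stp hyz) hPy
  have hPQ : ChEq ρ (cat N₁ P₀ (stp y z)) Q₀ :=
    (cat_congr_left hP2 hp hP1 (isCh_stp hyz) rfl).symm.trans hQ2
  obtain ⟨N₀, hN₀⟩ := hPQ.exists_ladder ⟨_, hQ1⟩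
  set n := max N₀ (max (N₁ + 1) N₂) with hn
  have hn0 : N₀ ≤ n := le_max_left _ _
  have hn1 : N₁ + 1 ≤ n := le_trans (le_max_left _ _) (le_max_right _ _)
  have hn2 : N₂ ≤ n := le_trans (le_max_right _ _) (le_max_right _ _)
  obtain ⟨K, R, hR0, hRK, hR, hA⟩ := hN₀ n hn0
  -- end points
  have hQ0 : Q₀ 0 = p 0 :=
    (ChEq.start hQ2).symm.trans (cat_zero (show p N = stp y z 0 from rfl))
  have hQn : Q₀ n = z := by
    rw [hQ1.const n hn2, ← ChEq.end_eq hQ2 hpz hQ1, cat_of_ge _ _ (by omega),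
      stp_pos _ _ (by omega)]
  have hP00 : P₀ 0 = p 0 := (ChEq.start hP2).symm
  have hP0n : P₀ n = y := by rw [hP1.const n (by omega), hPy]
  -- the full ladder
  obtain ⟨S, hS, hSA, hS0⟩ := ladder h hρ0 hρ n (K + 1) (fun k => Nat.casesOn k P₀ R)
    (fun k hk => by
      cases k with
      | zero => exact hP1.mono (by omega)
      | succ k => exact (hR k (by omega)).1)
    (fun k hk i => by
      cases k with
      | zero =>
        show dist (P₀ i) (R 0 i) ≤ ρ
        rw [hR0]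
        rcases lt_or_ge i N₁ with hi | hi
        · rw [cat_of_lt _ _ hi, dist_self]; exact hρ0.le
        · rw [cat_of_ge _ _ hi, hP1.const i hi, hPy]
          rcases Nat.eq_zero_or_pos (i - N₁) with hi' | hi'
          · rw [hi', stp_zero, dist_self]; exact hρ0.le
          · rw [stp_pos _ _ hi']; exact hyz
      | succ k => exact hA k (by omega) i)
  obtain ⟨hSc, hSs, hSe, hSl, hSg⟩ := hS 0 (by omega)
  -- all `S (k+1)` coincide
  have hSk : ∀ k ≤ K, S (k + 1) 0 = p 0 ∧ S (k + 1) n = z := by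
    intro k hk
    have h1 := (hS (k + 1) (by omega)).2.1
    have h2 := (hS (k + 1) (by omega)).2.2.1
    have h3 := hR k hk
    refine ⟨?_, ?_⟩
    · rw [h1]; show R k 0 = p 0; rw [h3.2.1, hQ0]
    · rw [h2]; show R k n = z; rw [h3.2.2, hQn]
  have hall : ∀ k ≤ K, S (k + 1) = S 1 := by
    intro k hk
    induction k with
    | zero => rfl
    | succ k ih =>
      rw [← ih (by omega)]
      have a1 := hS (k + 1 + 1) (by omega)
      have a2 := hS (k + 1) (by omega)
      have e1 := hSk (k + 1) hk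
      have e2 := hSk k (by omega)
      exact (IsGeo.unique h a2.2.2.2.2 a1.2.2.2.2 a2.1 a1.1 hρ hρ0.le (hSA (k + 1) (by omega))
        (by rw [e1.1, e2.1]) (by rw [e1.2, e2.2])).symm
  -- names
  set P := S 0 with hPdef
  set Q := S 1 with hQdef
  have hQc : IsCh ρ n Q := (hS 1 (by omega)).1
  have hQg : IsGeo r n Q := (hS 1 (by omega)).2.2.2.2
  have hQl : len n Q ≤ len N₂ Q₀ := by
    rw [← hall K le_rfl]
    have h1 := (hS (K + 1) (by omega)).2.2.2.1
    refine h1.trans (le_of_eq ?_)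
    show len n (R K) = _
    rw [hRK, hQ1.len_eq hn2]
  have hPl : len n P ≤ len N₁ P₀ := by
    refine hSl.trans (le_of_eq ?_)
    show len n P₀ = _
    rw [hP1.len_eq (by omega)]
  have hPstart : P 0 = p 0 := by rw [hSs]; exact hP00
  have hPend : P n = y := by rw [hSe]; exact hP0n
  have hQstart : Q 0 = p 0 := (hSk 0 (by omega)).1
  have hQend : Q n = z := (hSk 0 (by omega)).2
  have hPQc : ∀ i, dist (P i) (Q i) ≤ ρ := hSA 0 (by omega)
  -- the midpoint chain
  set m' : ℕ → M := fun i => md h (P i) (Q i) with hm'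
  have hmid : ∀ i, IsMid r (P i) (Q i) (m' i) := fun i =>
    md_isMid h (by linarith [hPQc i])
  have hcross : ∀ i, dist (P i) (Q (i+1)) < r ∧ dist (P (i+1)) (Q i) < r := by
    intro i
    have a1 := hSc.step i
    have a2 := hQc.step i
    have a3 := hPQc i
    constructor
    · linarith [dist_triangle (P i) (Q i) (Q (i+1))]
    · have := dist_triangle (P (i+1)) (P i) (Q i)
      rw [dist_comm (P (i+1)) (P i)] at this
      linarith
  have hsq : ∀ i, dist (m' i) (m' (i+1)) ^ 2 ≤ dist (P i) (P (i+1)) ^ 2 / 2 +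
      dist (Q i) (Q (i+1)) ^ 2 / 2 - (dist (P (i+1)) (Q (i+1)) - dist (P i) (Q i)) ^ 2 / 4 := by
    intro i
    have a1 := hSc.step i
    have a2 := hQc.step i
    have a3 := hPQc i
    have a4 := hPQc (i+1)
    have := mid_dist_sq h (hmid i) (hmid (i+1)) (by linarith) (by linarith) (by linarith)
      (by linarith) (hcross i).1 (by rw [dist_comm]; exact (hcross i).2)
    have e : (dist (P i) (Q i) - dist (P (i+1)) (Q (i+1))) ^ 2 =
      (dist (P (i+1)) (Q (i+1)) - dist (P i) (Q i)) ^ 2 := by ring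
    rw [e] at this
    exact this
  have hm0 : m' 0 = p 0 := by
    have h1 := (hmid 0).dist_left (by linarith [hPQc 0])
    rw [hPstart, hQstart, dist_self] at h1
    have : dist (p 0) (m' 0) = 0 := by linarith
    exact (dist_eq_zero.1 this).symm
  have hmn : m' n = m := by
    have h1 := hmid n
    rw [hPend, hQend] at h1
    exact h1.unique hm hyr
  have hm'c : IsCh ρ n m' := by
    refine ⟨fun i => ?_, fun i hi => ?_⟩
    · have a1 : dist (P i) (P (i+1)) ^ 2 ≤ ρ ^ 2 := pow_le_pow_left₀ dist_nonneg (hSc.step i) 2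
      have a2 : dist (Q i) (Q (i+1)) ^ 2 ≤ ρ ^ 2 := pow_le_pow_left₀ dist_nonneg (hQc.step i) 2
      have h4 : dist (m' i) (m' (i+1)) ^ 2 ≤ ρ ^ 2 := by
        nlinarith [hsq i, sq_nonneg (dist (P (i+1)) (Q (i+1)) - dist (P i) (Q i))]
      exact le_of_sq_le_sq h4 hρ0.le
    · simp only [hm']
      rw [hSc.const i hi, hQc.const i hi]
  -- its class
  have hclass : ChEq ρ (cat N p (stp y m)) m' := by
    have e1 : ChEq ρ p P := hP2.trans hS0
    refine (cat_congr_left e1 hp hSc (isCh_stp hym) rfl).trans (ChAdj.chEq ?_)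
    refine ⟨⟨_, isCh_cat hSc (isCh_stp hym) hPend⟩, ⟨n, hm'c⟩, fun i => ?_, ?_,
      ⟨n + 1, fun i hi => ?_⟩⟩
    · rcases lt_or_ge i n with hi | hi
      · rw [cat_of_lt _ _ hi, (hmid i).dist_left (by linarith [hPQc i])]
        linarith [hPQc i]
      · rw [cat_of_ge _ _ hi, hm'c.const i hi, hmn]
        rcases Nat.eq_zero_or_pos (i - n) with hi' | hi'
        · rw [hi', stp_zero]; exact hym
        · rw [stp_pos _ _ hi', dist_self]; exact hρ0.le
    · rw [cat_zero hPend, hPstart, hm0]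
    · rw [cat_of_ge _ _ (by omega), stp_pos _ _ (by omega), hm'c.const i (by omega), hmn]
  -- energy estimate
  have hE : nrg n m' ≤ nrg n P / 2 + nrg n Q / 2 -
      (∑ i ∈ range n, (dist (P (i+1)) (Q (i+1)) - dist (P i) (Q i)) ^ 2) / 4 := by
    unfold nrg
    rw [Finset.sum_div, Finset.sum_div, Finset.sum_div, ← Finset.sum_add_distrib,
      ← Finset.sum_sub_distrib]
    exact Finset.sum_le_sum fun i _ => hsq i
  have hCS : dist y z ^ 2 ≤
      n * ∑ i ∈ range n, (dist (P (i+1)) (Q (i+1)) - dist (P i) (Q i)) ^ 2 := by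
    have h1 := sq_sum_le_card_mul_sum_sq (s := range n)
      (f := fun i => dist (P (i+1)) (Q (i+1)) - dist (P i) (Q i))
    rw [Finset.sum_range_sub (fun i => dist (P i) (Q i)), Finset.card_range, hPend, hQend,
      hPstart, hQstart, dist_self, sub_zero] at h1
    exact h1
  have hCS2 : len n m' ^ 2 ≤ n * nrg n m' := by
    have h1 := sq_sum_le_card_mul_sum_sq (s := range n)
      (f := fun i => dist (m' i) (m' (i+1)))
    rw [Finset.card_range] at h1
    exact h1
  have hPE := hSg.nrg_eq hSc hρ hρ0.le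
  have hQE := hQg.nrg_eq hQc hρ hρ0.le
  have hD1 : DC ρ (cat N p (stp y m)) ≤ len n m' := DC_le hm'c hclass
  have hD2 : DC ρ (cat N p (stp y m)) ^ 2 ≤ len n m' ^ 2 :=
    pow_le_pow_left₀ (DC_nonneg _) hD1 2
  have hP5 : len n P ^ 2 ≤ (DC ρ p + ε) ^ 2 :=
    pow_le_pow_left₀ (len_nonneg _ _) (hPl.trans hP3.le) 2
  have hQ5 : len n Q ^ 2 ≤ (DC ρ (cat N p (stp y z)) + ε) ^ 2 :=
    pow_le_pow_left₀ (len_nonneg _ _) (hQl.trans hQ3.le) 2
  have hn' : (0 : ℝ) ≤ n := Nat.cast_nonneg n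
  have hE' := mul_le_mul_of_nonneg_left hE hn'
  nlinarith

/-- truncation of a chain -/
def trunc (j : ℕ) (p : ℕ → M) : ℕ → M := fun i => p (min i j)

theorem isCh_trunc {N : ℕ} {p : ℕ → M} (hp : IsCh ρ N p) (j : ℕ) : IsCh ρ j (trunc j p) where
  step i := by
    unfold trunc
    rcases lt_or_ge i j with hi | hi
    · rw [min_eq_left hi.le, min_eq_left (by omega)]; exact hp.step i
    · rw [min_eq_right hi, min_eq_right (by omega), dist_self]; exact hp.nonneg
  const i hi := by
    unfold trunc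
    rw [min_eq_right hi, min_self]

theorem IsCh.step_le_of_geo {N : ℕ} {p : ℕ → M} (hp : IsCh ρ N p) (hg : IsGeo r N p)
    (hρ : 3 * ρ < r) (hρ0 : 0 ≤ ρ) {s : ℝ} (hs : dist (p 0) (p 1) ≤ s) (hs0 : 0 ≤ s) :
    IsCh s N p where
  step i := by
    rcases lt_or_ge i N with hi | hi
    · rw [hg.step_eq hp hρ hρ0 hi]; exact hs
    · rw [hp.const i hi, hp.const (i+1) (by omega), dist_self]; exact hs0
  const := hp.const

/-- **Global CN inequality** with an explicit midpoint chain. -/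
theorem exists_midchain [CompactSpace M] (h : LocalCN M r) (hρ0 : 0 < ρ) (hρ : 3 * ρ < r)
    {Na : ℕ} {a : ℕ → M} (ha : IsCh ρ Na a) {δ : ℝ} (hδ : 0 < δ) :
    ∃ (n : ℕ) (w : ℕ → M), IsCh δ n w ∧ IsCh ρ n w ∧ w 0 = a 0 ∧
      ∀ (Nb : ℕ) (b : ℕ → M), IsCh ρ Nb b → b Nb = a 0 →
        DC ρ (cat Nb b w) ^ 2 ≤
          DC ρ b ^ 2 / 2 + DC ρ (cat Nb b a) ^ 2 / 2 - DC ρ a ^ 2 / 4 := by
  set l := len Na a with hl
  have hl0 : 0 ≤ l := len_nonneg _ _
  set μ := min δ (ρ / 2) with hμ
  have hμ0 : 0 < μ := lt_min hδ (by linarith)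
  obtain ⟨n₀, hn₀⟩ := exists_nat_gt (l / μ)
  set n := max n₀ (max Na 1) with hn
  have hnNa : Na ≤ n := le_trans (le_max_left _ _) (le_max_right _ _)
  have hn1 : 1 ≤ n := le_trans (le_max_right _ _) (le_max_right _ _)
  have hnn : (n₀ : ℝ) ≤ n := by exact_mod_cast le_max_left _ _
  have hnl : l < n * μ := by
    rw [div_lt_iff₀ hμ0] at hn₀
    nlinarith
  obtain ⟨R, hR, -, hR0⟩ := ladder h hρ0 hρ (2 * n) 0 (fun _ => a)
    (fun k _ => ha.mono (by omega)) (fun k hk => absurd hk (Nat.not_lt_zero k))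
  obtain ⟨hP, hPs, hPe, hPl, hPg⟩ := hR 0 le_rfl
  set P := R 0 with hPdef
  set s := dist (P 0) (P 1) with hs
  have hs0 : 0 ≤ s := dist_nonneg
  have hlenP : len (2 * n) P = (2 * n : ℕ) * s := hPg.len_eq hP hρ hρ0.le
  have hlenP' : len (2 * n) P ≤ l := by
    refine hPl.trans (le_of_eq ?_)
    exact ha.len_eq (by omega)
  have hnp : (0 : ℝ) < n := by exact_mod_cast hn1
  have hsμ : s ≤ μ := by
    rw [hlenP] at hlenP'
    push_cast at hlenP'
    by_contra hcon
    push Not at hcon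
    nlinarith [mul_lt_mul_of_pos_left hcon hnp]
  have hPδ : IsCh δ (2 * n) P :=
    hP.step_le_of_geo hPg hρ hρ0.le (hsμ.trans (min_le_left _ _)) hδ.le
  refine ⟨n, trunc n P, isCh_trunc hPδ n, isCh_trunc hP n, by
    unfold trunc; rw [Nat.zero_min]; exact hPs, fun Nb b hb hba => ?_⟩
  set F : ℕ → ℝ := fun j => DC ρ (cat Nb b (trunc j P)) ^ 2 with hF
  have hP0 : P 0 = a 0 := hPs
  have hbt : ∀ j, b Nb = trunc j P 0 := fun j => by
    unfold trunc; rw [Nat.zero_min, hba, hP0]
  have hstep : ∀ j, 0 < j → j < 2 * n → F j ≤ (F (j - 1) + F (j + 1)) / 2 - s ^ 2 := by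
    intro j hj0 hjn
    have hm := hPg j hj0 hjn
    have hd2 := hP.dist_two hj0
    have hlt : dist (P (j - 1)) (P (j + 1)) < r := by linarith
    have hd : dist (P (j - 1)) (P (j + 1)) = 2 * s := by
      have h1 := hm.dist_left hlt
      have h2 := hPg.step_eq hP hρ hρ0.le (i := j - 1) (by omega)
      rw [show j - 1 + 1 = j by omega] at h2
      rw [h2] at h1
      linarith
    have hdρ : dist (P (j - 1)) (P (j + 1)) ≤ ρ := by
      rw [hd]
      have := hsμ.trans (min_le_right _ _)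
      linarith
    have hpc : IsCh ρ (Nb + (j - 1)) (cat Nb b (trunc (j - 1) P)) :=
      isCh_cat hb (isCh_trunc hP (j - 1)) (hbt _)
    have hpe : cat Nb b (trunc (j - 1) P) (Nb + (j - 1)) = P (j - 1) := by
      rw [cat_of_ge _ _ (by omega)]
      unfold trunc
      rw [show Nb + (j - 1) - Nb = j - 1 by omega, min_self]
    have key := DC_local_CN h hρ0 hρ hpc hpe hdρ hm
    have e1 : cat (Nb + (j - 1)) (cat Nb b (trunc (j - 1) P)) (stp (P (j - 1)) (P j)) =
        cat Nb b (trunc j P) := by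
      funext i
      rcases lt_or_ge i (Nb + (j - 1)) with hi | hi
      · rw [cat_of_lt _ _ hi]
        rcases lt_or_ge i Nb with hi' | hi'
        · rw [cat_of_lt _ _ hi', cat_of_lt _ _ hi']
        · rw [cat_of_ge _ _ hi', cat_of_ge _ _ hi']
          unfold trunc
          rw [min_eq_left (by omega), min_eq_left (by omega)]
      · rw [cat_of_ge _ _ hi, cat_of_ge (N := Nb) b _ (by omega)]
        unfold trunc
        rcases Nat.eq_zero_or_pos (i - (Nb + (j - 1))) with hi' | hi'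
        · rw [hi', stp_zero, show min (i - Nb) j = j - 1 by omega]
        · rw [stp_pos _ _ hi', show min (i - Nb) j = j by omega]
    have e2 : ChEq ρ (cat (Nb + (j - 1)) (cat Nb b (trunc (j - 1) P))
        (stp (P (j - 1)) (P (j + 1)))) (cat Nb b (trunc (j + 1) P)) := by
      refine ChAdj.chEq ⟨⟨_, isCh_cat hpc (isCh_stp hdρ) hpe⟩,
        ⟨_, isCh_cat hb (isCh_trunc hP _) (hbt _)⟩, fun i => ?_, ?_,
        ⟨Nb + (j + 1), fun i hi => ?_⟩⟩
      · rcases lt_or_ge i (Nb + (j - 1)) with hi | hi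
        · rw [cat_of_lt _ _ hi]
          rcases lt_or_ge i Nb with hi' | hi'
          · rw [cat_of_lt _ _ hi', cat_of_lt _ _ hi', dist_self]; exact hρ0.le
          · rw [cat_of_ge _ _ hi', cat_of_ge _ _ hi']
            unfold trunc
            rw [min_eq_left (by omega), min_eq_left (by omega), dist_self]; exact hρ0.le
        · rw [cat_of_ge _ _ hi, cat_of_ge (N := Nb) b _ (by omega)]
          unfold trunc
          rcases Nat.eq_zero_or_pos (i - (Nb + (j - 1))) with hi' | hi'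
          · rw [hi', stp_zero, show min (i - Nb) (j + 1) = j - 1 by omega, dist_self]
            exact hρ0.le
          · rw [stp_pos _ _ hi']
            rcases lt_or_ge (i - Nb) (j + 1) with hi2 | hi2
            · rw [show min (i - Nb) (j + 1) = j by omega, dist_comm]
              exact hP.step j
            · rw [min_eq_right hi2, dist_self]; exact hρ0.le
      · rw [cat_zero (by rw [hpe]; rfl), cat_zero (hbt _), cat_zero (hbt _)]
      · rw [cat_of_ge _ _ (by omega), cat_of_ge (N := Nb) b _ (by omega),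
          stp_pos _ _ (by omega)]
        unfold trunc
        rw [min_eq_right (by omega)]
    rw [e1, DC_congr e2, hd] at key
    simp only [hF]
    nlinarith
  have hconv := discrete_convex (N := 2 * n) (f := fun j => F j - s ^ 2 * (j : ℝ) ^ 2) (j := n)
    (by
      intro j hj0 hjn
      have h1 := hstep j hj0 hjn
      have h2 : ((j - 1 : ℕ) : ℝ) = (j : ℝ) - 1 := by
        rw [Nat.cast_sub (by omega)]; simp
      rw [h2]
      push_cast
      nlinarith)
    (by omega)
  push_cast at hconv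
  have hF0 : F 0 = DC ρ b ^ 2 := by
    have : cat Nb b (trunc 0 P) = b := by
      funext i
      rcases lt_or_ge i Nb with hi | hi
      · rw [cat_of_lt _ _ hi]
      · rw [cat_of_ge _ _ hi]
        unfold trunc
        rw [Nat.min_zero, hb.const i hi, hba, hP0]
    simp only [hF, this]
  have hFN : F (2 * n) = DC ρ (cat Nb b a) ^ 2 := by
    have : trunc (2 * n) P = P := by
      funext i
      unfold trunc
      rcases le_total i (2 * n) with hi | hi
      · rw [min_eq_left hi]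
      · rw [min_eq_right hi, hP.const i hi]
    simp only [hF, this]
    rw [DC_congr (cat_congr_right hR0 hb ha hba)]
  have hDa : DC ρ a ^ 2 ≤ (2 * n * s) ^ 2 := by
    have h1 : DC ρ a ≤ len (2 * n) P := DC_le hP hR0
    rw [hlenP] at h1
    push_cast at h1
    exact pow_le_pow_left₀ (DC_nonneg _) h1 2
  rw [hF0, hFN] at hconv
  have hfin : F n ≤ DC ρ b ^ 2 / 2 + DC ρ (cat Nb b a) ^ 2 / 2 - DC ρ a ^ 2 / 4 := by
    by_contra hcon
    push Not at hcon
    nlinarith [mul_lt_mul_of_pos_left hcon hnp, mul_le_mul_of_nonneg_left hDa hnp.le]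
  exact hfin

end Crest.Agent.R244
end

-- ▼ part R244/CHPath
section

/-!
# R244 package B2, part 5 : sampling of continuous paths (C1-C5)
-/

set_option autoImplicit false

open Filter Topology unitInterval

namespace Crest.Agent.R244

variable {M : Type*} [MetricSpace M]

/-- the value of a homotopy at real parameters -/
noncomputable def hext {x y : M} {γ γ' : Path x y} (H : γ.Homotopy γ') (s t : ℝ) : M :=
  H (Set.projIcc 0 1 zero_le_one s, Set.projIcc 0 1 zero_le_one t)

theorem hext_zero {x y : M} {γ γ' : Path x y} (H : γ.Homotopy γ') (t : ℝ) :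
    hext H 0 t = γ.extend t := by
  unfold hext
  rw [Set.projIcc_left]
  exact H.apply_zero _

theorem hext_one {x y : M} {γ γ' : Path x y} (H : γ.Homotopy γ') (t : ℝ) :
    hext H 1 t = γ'.extend t := by
  unfold hext
  rw [Set.projIcc_right]
  exact H.apply_one _

theorem hext_source {x y : M} {γ γ' : Path x y} (H : γ.Homotopy γ') (s : ℝ) {t : ℝ}
    (ht : t ≤ 0) : hext H s t = x := by
  unfold hext
  rw [Set.projIcc_of_le_left _ ht]
  exact H.source _

theorem hext_target {x y : M} {γ γ' : Path x y} (H : γ.Homotopy γ') (s : ℝ) {t : ℝ}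
    (ht : 1 ≤ t) : hext H s t = y := by
  unfold hext
  rw [Set.projIcc_of_right_le _ ht]
  exact H.target _

theorem hext_modulus {x y : M} {γ γ' : Path x y} (H : γ.Homotopy γ') {ρ : ℝ} (hρ : 0 < ρ) :
    ∃ η > 0, ∀ s t s' t' : ℝ, |s - s'| ≤ η → |t - t'| ≤ η →
      dist (hext H s t) (hext H s' t') ≤ ρ := by
  have hu : UniformContinuous (fun p : I × I => H p) :=
    CompactSpace.uniformContinuous_of_continuous H.continuous
  obtain ⟨δ, hδ, h⟩ := Metric.uniformContinuous_iff.1 hu ρ hρ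
  refine ⟨δ / 2, half_pos hδ, fun s t s' t' hs ht => ?_⟩
  apply le_of_lt
  apply h
  rw [Prod.dist_eq]
  have hl := LipschitzWith.projIcc (a := (0:ℝ)) (b := 1) zero_le_one
  have h1 := hl.dist_le_mul s s'
  have h2 := hl.dist_le_mul t t'
  rw [Real.dist_eq] at h1 h2
  simp only [NNReal.coe_one, one_mul] at h1 h2
  apply max_lt
  · exact lt_of_le_of_lt (h1.trans hs) (by linarith)
  · exact lt_of_le_of_lt (h2.trans ht) (by linarith)

/-- clipped sampling times -/
noncomputable def tm (N : ℕ) (i : ℕ) : ℝ := min ((i : ℝ) / N) 1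

theorem tm_zero (N : ℕ) : tm N 0 = 0 := by unfold tm; simp

theorem tm_nonneg (N i : ℕ) : 0 ≤ tm N i := by unfold tm; positivity

theorem tm_le_one (N i : ℕ) : tm N i ≤ 1 := min_le_right _ _

theorem tm_of_ge {N i : ℕ} (hN : 0 < N) (hi : N ≤ i) : tm N i = 1 := by
  unfold tm
  apply min_eq_right
  rw [le_div_iff₀ (by exact_mod_cast hN)]
  simpa using (by exact_mod_cast hi : (N : ℝ) ≤ i)

theorem tm_step (N i : ℕ) : |tm N i - tm N (i + 1)| ≤ 1 / N := by
  unfold tm
  have h1 : |min ((i : ℝ) / N) 1 - min (((i + 1 : ℕ) : ℝ) / N) 1| ≤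
      |(i : ℝ) / N - ((i + 1 : ℕ) : ℝ) / N| := by
    have := abs_min_sub_min_le_max ((i : ℝ) / N) 1 (((i + 1 : ℕ) : ℝ) / N) 1
    rw [sub_self, abs_zero] at this
    exact this.trans (max_le le_rfl (abs_nonneg _))
  refine h1.trans (le_of_eq ?_)
  rw [← sub_div]
  push_cast
  rw [show (i : ℝ) - (i + 1) = -1 by ring, neg_div, abs_neg, abs_of_nonneg (by positivity)]

theorem smp_eq_tm {x y : M} (γ : Path x y) (N i : ℕ) : smp γ N i = γ.extend (tm N i) := by
  unfold smp tm
  rcases le_total ((i : ℝ) / N) 1 with h | h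
  · rw [min_eq_left h]
  · rw [min_eq_right h, γ.extend_of_one_le h, γ.extend_one]

/-- the sampled rows of a homotopy are chains, consecutive rows are adjacent -/
theorem hext_chEq {x y : M} {γ γ' : Path x y} (H : γ.Homotopy γ') {ρ η : ℝ}
    (hη : 0 < η)
    (hH : ∀ s t s' t' : ℝ, |s - s'| ≤ η → |t - t'| ≤ η → dist (hext H s t) (hext H s' t') ≤ ρ)
    {τ τ' : ℕ → ℝ} {N : ℕ}
    (h0 : τ 0 = 0) (h0' : τ' 0 = 0) (hb : ∀ i, 0 ≤ τ i ∧ τ i ≤ 1) (hb' : ∀ i, 0 ≤ τ' i ∧ τ' i ≤ 1)
    (hN : ∀ i, N ≤ i → τ i = 1) (hN' : ∀ i, N ≤ i → τ' i = 1)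
    (hs : ∀ i, |τ i - τ (i + 1)| ≤ η) (hs' : ∀ i, |τ' i - τ' (i + 1)| ≤ η) :
    ChEq ρ (fun i => γ.extend (τ i)) (fun i => γ'.extend (τ' i)) := by
  obtain ⟨K, hK⟩ := exists_nat_gt (1 / η)
  have hKpos : (0 : ℝ) < K := lt_trans (by positivity) hK
  have hKη : 1 / (K : ℝ) ≤ η := by
    rw [div_le_iff₀ hKpos]
    rw [div_lt_iff₀ hη] at hK
    linarith
  set row : ℕ → ℕ → M := fun k i =>
    hext H ((k : ℝ) / K) ((1 - (k : ℝ) / K) * τ i + (k : ℝ) / K * τ' i) with hrow
  have hrowc : ∀ k ≤ K, IsCh ρ N (row k) := by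
    intro k hk
    have hk0 : 0 ≤ (k : ℝ) / K := by positivity
    have hk1 : (k : ℝ) / K ≤ 1 := by
      rw [div_le_one hKpos]; exact_mod_cast hk
    refine ⟨fun i => ?_, fun i hi => ?_⟩
    · apply hH
      · simpa using hη.le
      · have e : (1 - (k : ℝ) / K) * τ i + (k : ℝ) / K * τ' i -
            ((1 - (k : ℝ) / K) * τ (i + 1) + (k : ℝ) / K * τ' (i + 1)) =
            (1 - (k : ℝ) / K) * (τ i - τ (i + 1)) + (k : ℝ) / K * (τ' i - τ' (i + 1)) := by ring
        rw [e]
        refine (abs_add_le _ _).trans ?_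
        rw [abs_mul, abs_mul, abs_of_nonneg hk0, abs_of_nonneg (by linarith : 0 ≤ 1 - (k : ℝ) / K)]
        have a1 := mul_le_mul_of_nonneg_left (hs i) (by linarith : 0 ≤ 1 - (k : ℝ) / K)
        have a2 := mul_le_mul_of_nonneg_left (hs' i) hk0
        linarith
    · simp only [hrow]
      rw [hN i hi, hN' i hi, hN N le_rfl, hN' N le_rfl]
  have hstart : ∀ k, row k 0 = x := by
    intro k
    simp only [hrow]
    rw [h0, h0']
    exact hext_source H _ (by simp)
  have hend : ∀ k i, N ≤ i → row k i = y := by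
    intro k i hi
    simp only [hrow]
    rw [hN i hi, hN' i hi]
    exact hext_target H _ (by linarith)
  have hadj : ∀ k < K, ChAdj ρ (row k) (row (k + 1)) := by
    intro k hk
    refine ⟨⟨N, hrowc k hk.le⟩, ⟨N, hrowc (k + 1) hk⟩, fun i => ?_, ?_, ⟨N, fun i hi => ?_⟩⟩
    · have hd : (k : ℝ) / K - ((k + 1 : ℕ) : ℝ) / K = - (1 / K) := by
        push_cast; ring
      apply hH
      · rw [hd, abs_neg, abs_of_nonneg (by positivity)]; exact hKη
      · have e : (1 - (k : ℝ) / K) * τ i + (k : ℝ) / K * τ' i -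
            ((1 - ((k + 1 : ℕ) : ℝ) / K) * τ i + ((k + 1 : ℕ) : ℝ) / K * τ' i) =
            (1 / K) * (τ i - τ' i) := by
          push_cast; ring
        rw [e, abs_mul, abs_of_nonneg (by positivity : (0 : ℝ) ≤ 1 / K)]
        have : |τ i - τ' i| ≤ 1 := by
          rw [abs_le]; constructor <;> linarith [(hb i).1, (hb i).2, (hb' i).1, (hb' i).2]
        calc 1 / (K : ℝ) * |τ i - τ' i| ≤ 1 / K * 1 :=
              mul_le_mul_of_nonneg_left this (by positivity)
          _ ≤ η := by rw [mul_one]; exact hKη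
    · rw [hstart, hstart]
    · rw [hend k i hi, hend (k + 1) i hi]
  have hchain : ∀ k ≤ K, ChEq ρ (row 0) (row k) := by
    intro k hk
    induction k with
    | zero => exact ChEq.refl _
    | succ k ih => exact (ih (by omega)).trans (hadj k (by omega)).chEq
  have e0 : row 0 = fun i => γ.extend (τ i) := by
    funext i
    simp only [hrow]
    simp [hext_zero]
  have eK : row K = fun i => γ'.extend (τ' i) := by
    funext i
    simp only [hrow]
    rw [div_self hKpos.ne']
    simp [hext_one]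
  rw [← e0, ← eK]
  exact hchain K le_rfl

/-- (C1) fine samples are chains -/
theorem smp_isCh {x y : M} (γ : Path x y) {ρ : ℝ} (hρ : 0 < ρ) :
    ∃ N₀ : ℕ, 0 < N₀ ∧ ∀ N ≥ N₀, IsCh ρ N (smp γ N) := by
  obtain ⟨η, hη, hH⟩ := hext_modulus (Path.Homotopy.refl γ) hρ
  obtain ⟨N₀, hN₀⟩ := exists_nat_gt (1 / η)
  have hpos : (0 : ℝ) < N₀ := lt_trans (by positivity) hN₀
  refine ⟨N₀, by exact_mod_cast hpos, fun N hN => ⟨fun i => ?_, fun i hi => ?_⟩⟩
  · rw [smp_eq_tm, smp_eq_tm]
    have := hH 0 (tm N i) 0 (tm N (i + 1)) (by simpa using hη.le) ?_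
    · rwa [hext_zero, hext_zero] at this
    · refine (tm_step N i).trans ?_
      have hNN : (N₀ : ℝ) ≤ N := by exact_mod_cast hN
      rw [div_le_iff₀ (by linarith)]
      rw [div_lt_iff₀ hη] at hN₀
      nlinarith
  · have hN0 : 0 < N := lt_of_lt_of_le (by exact_mod_cast hpos) hN
    rw [smp_eq_tm, smp_eq_tm, tm_of_ge hN0 hi, tm_of_ge hN0 le_rfl]

/-- (C3) homotopy invariance -/
theorem smp_homotopic {x y : M} {γ γ' : Path x y} (h : γ.Homotopic γ') {ρ : ℝ} (hρ : 0 < ρ) :
    ∃ N₀ : ℕ, 0 < N₀ ∧ ∀ N ≥ N₀, ∀ N' ≥ N₀, ChEq ρ (smp γ N) (smp γ' N') := by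
  obtain ⟨H⟩ := h
  obtain ⟨η, hη, hH⟩ := hext_modulus H hρ
  obtain ⟨N₀, hN₀⟩ := exists_nat_gt (1 / η)
  have hpos : (0 : ℝ) < N₀ := lt_trans (by positivity) hN₀
  have hposN : 0 < N₀ := by exact_mod_cast hpos
  refine ⟨N₀, hposN, fun N hN N' hN' => ?_⟩
  have hstep : ∀ N ≥ N₀, ∀ i, |tm N i - tm N (i + 1)| ≤ η := by
    intro N hN i
    refine (tm_step N i).trans ?_
    have hNN : (N₀ : ℝ) ≤ N := by exact_mod_cast hN
    rw [div_le_iff₀ (by linarith)]
    rw [div_lt_iff₀ hη] at hN₀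
    nlinarith
  have key := hext_chEq H hη hH (τ := tm N) (τ' := tm N') (N := max N N') (tm_zero N)
    (tm_zero N') (fun i => ⟨tm_nonneg _ _, tm_le_one _ _⟩)
    (fun i => ⟨tm_nonneg _ _, tm_le_one _ _⟩)
    (fun i hi => tm_of_ge (by omega) (le_trans (le_max_left _ _) hi))
    (fun i hi => tm_of_ge (by omega) (le_trans (le_max_right _ _) hi)) (hstep N hN)
    (hstep N' hN')
  have e1 : smp γ N = fun i => γ.extend (tm N i) := by funext i; exact smp_eq_tm γ N i
  have e2 : smp γ' N' = fun i => γ'.extend (tm N' i) := by funext i; exact smp_eq_tm γ' N' i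
  rw [e1, e2]
  exact key

/-- (C2) all fine samples are equivalent -/
theorem smp_chEq {x y : M} (γ : Path x y) {ρ : ℝ} (hρ : 0 < ρ) :
    ∃ N₀ : ℕ, 0 < N₀ ∧ ∀ N ≥ N₀, ∀ N' ≥ N₀, ChEq ρ (smp γ N) (smp γ N') :=
  smp_homotopic (Path.Homotopic.refl γ) hρ

/-- (C4) -/
theorem smp_trans {x y z : M} (γ : Path x y) (γ' : Path y z) {N : ℕ} (hN : 0 < N) :
    smp (γ.trans γ') (2 * N) = cat N (smp γ N) (smp γ' N) := by
  have hp : (0 : ℝ) < N := by exact_mod_cast hN
  funext i
  unfold smp cat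
  rcases lt_or_ge i N with hi | hi
  · rw [if_pos hi]
    have h1 : ((i : ℝ) / (2 * N : ℕ)) ≤ 1 / 2 := by
      push_cast
      have : (i : ℝ) < N := by exact_mod_cast hi
      rw [div_le_div_iff₀ (by positivity) (by norm_num)]
      linarith
    rw [Path.extend_trans_of_le_half _ _ h1]
    congr 1
    push_cast
    field_simp
  · rw [if_neg (by omega)]
    have h1 : 1 / 2 ≤ ((i : ℝ) / (2 * N : ℕ)) := by
      push_cast
      have : (N : ℝ) ≤ i := by exact_mod_cast hi
      rw [div_le_div_iff₀ (by norm_num) (by positivity)]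
      linarith
    rw [Path.extend_trans_of_half_le _ _ h1]
    congr 1
    rw [Nat.cast_sub hi]
    push_cast
    field_simp

/-- (C5) -/
theorem smp_symm {x y : M} (γ : Path x y) {N : ℕ} (hN : 0 < N) :
    smp γ.symm N = rev N (smp γ N) := by
  have hp : (0 : ℝ) < N := by exact_mod_cast hN
  funext i
  unfold smp rev
  rw [Path.extend_symm_apply]
  rcases le_or_gt i N with hi | hi
  · congr 1
    rw [Nat.cast_sub hi]
    field_simp
  · rw [show N - i = 0 by omega]
    have : 1 - (i : ℝ) / N ≤ 0 := by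
      have : (N : ℝ) < i := by exact_mod_cast hi
      rw [sub_nonpos, le_div_iff₀ hp]
      linarith
    rw [γ.extend_of_le_zero this]
    simp

end Crest.Agent.R244
end

-- ▼ part R244/CHReal
section

/-!
# R244 package B2, (E1) faithfulness and (E2) realization of chains by continuous paths
-/

set_option autoImplicit false

open Filter Topology unitInterval

namespace Crest.Agent.R244

variable {M : Type*} [MetricSpace M]

namespace Hol

local notation "Q" => Path.Homotopic.Quotient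

/-- `c i` is the class of "the" small path following `p 0, …, p i`. -/
structure IsHol (ε : ℝ) (p : ℕ → M) (c : ∀ i, Q (p 0) (p i)) : Prop where
  zero : c 0 = Path.Homotopic.Quotient.refl (p 0)
  succ : ∀ i, ∃ s : Path (p i) (p (i + 1)), (∀ t, dist (s t) (p i) < ε) ∧
    c (i + 1) = (c i).trans (Path.Homotopic.Quotient.mk s)

/-- uniform simple connectivity at scale `ε₀` -/
def SC (M : Type*) [MetricSpace M] (ε₀ : ℝ) : Prop :=
  ∀ (x a b : M) (γ γ' : Path a b), (∀ t, dist (γ t) x < ε₀) →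
    (∀ t, dist (γ' t) x < ε₀) → γ.Homotopic γ'

/-- existence of paths of size `ε` between `δ`-close points -/
def PC (M : Type*) [MetricSpace M] (ε δ : ℝ) : Prop :=
  ∀ a b : M, dist a b < δ → ∃ γ : Path a b, ∀ t, dist (γ t) a < ε

theorem exists_isHol {ε δ : ℝ} (hPC : PC M ε δ) (p : ℕ → M)
    (hp : ∀ i, dist (p i) (p (i + 1)) < δ) : ∃ c, IsHol ε p c := by
  choose s hs using fun i => hPC (p i) (p (i + 1)) (hp i)
  let c : ∀ i, Q (p 0) (p i) := fun i =>
    Nat.rec (motive := fun i => Q (p 0) (p i)) (Path.Homotopic.Quotient.refl (p 0))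
      (fun i ci => ci.trans (Path.Homotopic.Quotient.mk (s i))) i
  exact ⟨c, rfl, fun i => ⟨s i, hs i, rfl⟩⟩

theorem IsHol.unique {ε ε₀ : ℝ} (hSC : SC M ε₀) (hε : ε ≤ ε₀) {p : ℕ → M}
    {c d : ∀ i, Q (p 0) (p i)} (hc : IsHol ε p c) (hd : IsHol ε p d) (i : ℕ) : c i = d i := by
  induction i with
  | zero => rw [hc.zero, hd.zero]
  | succ i ih =>
    obtain ⟨s, hs, hs'⟩ := hc.succ i
    obtain ⟨s', hs1, hs1'⟩ := hd.succ i
    rw [hs', hs1', ih]
    congr 1
    exact Path.Homotopic.Quotient.eq.2 (hSC (p i) _ _ s s' (fun t => (hs t).trans_le hε)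
      (fun t => (hs1 t).trans_le hε))

theorem hol_adj {ε ε₀ ρ : ℝ} (hSC : SC M ε₀) (hε : ε + ρ ≤ ε₀) (hρ : 0 ≤ ρ)
    {p q : ℕ → M} (hp : ∀ i, dist (p i) (p (i + 1)) ≤ ρ) (hpq : ∀ i, dist (p i) (q i) ≤ ρ)
    {c : ∀ i, Q (p 0) (p i)} {d : ∀ i, Q (q 0) (q i)} (hc : IsHol ε p c) (hd : IsHol ε q d)
    (u : ∀ i, Path (p i) (q i)) (hu : ∀ i t, dist (u i t) (p i) < ε) (i : ℕ) :
    (c i).trans (Path.Homotopic.Quotient.mk (u i)) = (Path.Homotopic.Quotient.mk (u 0)).trans (d i) := by
  induction i with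
  | zero => rw [hc.zero, hd.zero, Path.Homotopic.Quotient.refl_trans,
      Path.Homotopic.Quotient.trans_refl]
  | succ i ih =>
    obtain ⟨s, hs, hs'⟩ := hc.succ i
    obtain ⟨s', hs1, hs1'⟩ := hd.succ i
    have key : (Path.Homotopic.Quotient.mk s).trans (Path.Homotopic.Quotient.mk (u (i + 1))) =
        (Path.Homotopic.Quotient.mk (u i)).trans (Path.Homotopic.Quotient.mk s') := by
      rw [← Path.Homotopic.Quotient.mk_trans, ← Path.Homotopic.Quotient.mk_trans]
      apply Path.Homotopic.Quotient.eq.2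
      apply hSC (p i)
      · intro t
        rw [Path.trans_apply]
        split_ifs with ht
        · exact (hs _).trans_le (by linarith)
        · have h1 := hu (i + 1) ⟨2 * t - 1, unitInterval.two_mul_sub_one_mem_iff.2
            ⟨(not_le.1 ht).le, t.2.2⟩⟩
          have h2 := dist_triangle (u (i + 1) ⟨2 * t - 1, unitInterval.two_mul_sub_one_mem_iff.2
            ⟨(not_le.1 ht).le, t.2.2⟩⟩) (p (i + 1)) (p i)
          have h3 := hp i
          rw [dist_comm] at h3
          linarith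
      · intro t
        rw [Path.trans_apply]
        split_ifs with ht
        · exact (hu i _).trans_le (by linarith)
        · have h1 := hs1 ⟨2 * t - 1, unitInterval.two_mul_sub_one_mem_iff.2
            ⟨(not_le.1 ht).le, t.2.2⟩⟩
          have h2 := dist_triangle (s' ⟨2 * t - 1, unitInterval.two_mul_sub_one_mem_iff.2
            ⟨(not_le.1 ht).le, t.2.2⟩⟩) (q i) (p i)
          have h3 := hpq i
          rw [dist_comm] at h3
          linarith
    rw [hs', hs1', Path.Homotopic.Quotient.trans_assoc, key,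
      ← Path.Homotopic.Quotient.trans_assoc, ih, Path.Homotopic.Quotient.trans_assoc]

theorem small_loop {ε ε₀ : ℝ} (hSC : SC M ε₀) (hε : ε ≤ ε₀) {a b : M} (h : a = b)
    (u : Path a b) (hε0 : 0 < ε₀) (hu : ∀ t, dist (u t) a < ε) :
    Path.Homotopic.Quotient.mk u = (Path.Homotopic.Quotient.refl a).cast rfl h.symm := by
  subst h
  rw [Path.Homotopic.Quotient.cast_rfl_rfl]
  apply Path.Homotopic.Quotient.eq.2
  apply hSC a
  · exact fun t => (hu t).trans_le hε
  · intro t
    simpa using hε0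

theorem trans_cast_refl {x a b : M} (h : a = b) (c : Q x a) :
    c.trans ((Path.Homotopic.Quotient.refl a).cast rfl h.symm) = c.cast rfl h.symm := by
  subst h
  simp [Path.Homotopic.Quotient.trans_refl]

theorem cast_refl_trans {x a b : M} (h : a = b) (d : Q b x) :
    ((Path.Homotopic.Quotient.refl a).cast rfl h.symm).trans d = d.cast h rfl := by
  subst h
  simp [Path.Homotopic.Quotient.refl_trans]

/-- The path `γ` realizes the chain `p`. -/
def Rlz (ε : ℝ) {x y : M} (γ : Path x y) (p : ℕ → M) : Prop :=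
  ∃ (h0 : p 0 = x) (c : ∀ i, Q (p 0) (p i)), IsHol ε p c ∧
    ∃ N₀ : ℕ, ∀ N ≥ N₀, ∃ hN : p N = y, c N = (Path.Homotopic.Quotient.mk γ).cast h0 hN

theorem Rlz.homotopic {ε ε₀ : ℝ} (hSC : SC M ε₀) (hε : ε ≤ ε₀) {x y : M} {γ γ' : Path x y}
    {p : ℕ → M} (h : Rlz ε γ p) (h' : Rlz ε γ' p) : γ.Homotopic γ' := by
  obtain ⟨h0, c, hc, N₀, hN₀⟩ := h
  obtain ⟨h0', d, hd, N₁, hN₁⟩ := h'
  obtain ⟨hN, hcN⟩ := hN₀ (max N₀ N₁) (le_max_left _ _)
  obtain ⟨hN', hdN⟩ := hN₁ (max N₀ N₁) (le_max_right _ _)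
  have := hc.unique hSC hε hd (max N₀ N₁)
  rw [hcN, hdN] at this
  have h2 := congrArg (fun z => z.cast h0.symm hN.symm) this
  simp only [Path.Homotopic.Quotient.cast_cast, Path.Homotopic.Quotient.cast_rfl_rfl] at h2
  exact Path.Homotopic.Quotient.eq.1 h2

theorem Rlz.adj {ε ε₀ ρ δ : ℝ} (hSC : SC M ε₀) (hε : ε + ρ ≤ ε₀) (hρ : 0 ≤ ρ) (hε0 : 0 < ε₀)
    (hPC : PC M ε δ) (hρδ : ρ < δ) {x y : M} {γ : Path x y} {p q : ℕ → M}
    (h : Rlz ε γ p) (hpq : ChAdj ρ p q) : Rlz ε γ q := by
  obtain ⟨h0, c, hc, N₀, hN₀⟩ := h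
  obtain ⟨d, hd⟩ := exists_isHol hPC q (fun i => by
    obtain ⟨N, hN⟩ := hpq.right
    exact (hN.step i).trans_lt hρδ)
  obtain ⟨N₁, hN₁⟩ := hpq.stop
  choose u hu using fun i => hPC (p i) (q i) ((hpq.close i).trans_lt hρδ)
  have hp : ∀ i, dist (p i) (p (i + 1)) ≤ ρ := by
    obtain ⟨N, hN⟩ := hpq.left
    exact hN.step
  refine ⟨hpq.start.symm.trans h0, d, hd, max N₀ N₁, fun N hN => ?_⟩
  obtain ⟨hNy, hcN⟩ := hN₀ N ((le_max_left _ _).trans hN)
  have hpqN := hN₁ N ((le_max_right _ _).trans hN)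
  refine ⟨hpqN.symm.trans hNy, ?_⟩
  have key := hol_adj hSC hε hρ hp hpq.close hc hd u hu N
  rw [small_loop hSC (by linarith) hpqN (u N) hε0 (hu N),
    small_loop hSC (by linarith) hpq.start (u 0) hε0 (hu 0), trans_cast_refl hpqN,
    cast_refl_trans hpq.start, hcN] at key
  have h2 := congrArg (fun z => z.cast hpq.start.symm rfl) key
  simp only [Path.Homotopic.Quotient.cast_cast, Path.Homotopic.Quotient.cast_rfl_rfl] at h2
  exact h2.symm

theorem Rlz.chEq {ε ε₀ ρ δ : ℝ} (hSC : SC M ε₀) (hε : ε + ρ ≤ ε₀) (hρ : 0 ≤ ρ) (hε0 : 0 < ε₀)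
    (hPC : PC M ε δ) (hρδ : ρ < δ) {x y : M} {γ : Path x y} {p q : ℕ → M}
    (h : Rlz ε γ p) (hpq : ChEq ρ p q) : Rlz ε γ q := by
  induction hpq with
  | refl => exact h
  | tail _ h2 ih => exact ih.adj hSC hε hρ hε0 hPC hρδ h2

theorem rlz_smp {ε : ℝ} (hε : 0 < ε) {x y : M} (γ : Path x y) :
    ∃ N₀ : ℕ, 0 < N₀ ∧ ∀ N ≥ N₀, Rlz ε γ (smp γ N) := by
  have huc : UniformContinuous γ := CompactSpace.uniformContinuous_of_continuous γ.continuous
  rw [Metric.uniformContinuous_iff] at huc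
  obtain ⟨δ, hδ, hγ⟩ := huc ε hε
  obtain ⟨N₀, hN₀⟩ := exists_nat_gt (1 / δ)
  refine ⟨N₀ + 1, Nat.succ_pos _, fun N hN => ?_⟩
  have hNpos : (0 : ℝ) < N := by
    have : 0 < N := by omega
    exact_mod_cast this
  have hNδ : 1 / (N : ℝ) < δ := by
    rw [div_lt_comm₀ hNpos hδ]
    refine hN₀.trans_le ?_
    exact_mod_cast (by omega : N₀ ≤ N)
  let τ : ℕ → I := fun i => Set.projIcc (0 : ℝ) 1 zero_le_one ((i : ℝ) / N)
  have hτ0 : τ 0 = 0 := by
    simp [τ]
  have hτ1 : ∀ i, N ≤ i → τ i = 1 := by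
    intro i hi
    have : (1 : ℝ) ≤ (i : ℝ) / N := by
      rw [le_div_iff₀ hNpos, one_mul]
      exact_mod_cast hi
    exact Set.projIcc_of_right_le _ this
  have hτle : ∀ i, τ i ≤ τ (i + 1) := by
    intro i
    apply Set.monotone_projIcc
    push_cast
    gcongr
    linarith
  have hτstep : ∀ i, (τ (i + 1) : ℝ) - τ i ≤ 1 / N := by
    intro i
    have h1 : (((i + 1 : ℕ) : ℝ)) / N = (i : ℝ) / N + 1 / N := by
      push_cast; ring
    simp only [τ, Set.coe_projIcc, h1]
    have : (0 : ℝ) < 1 / N := by positivity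
    rcases le_total ((i : ℝ) / N) 1 with h2 | h2
    · rw [min_eq_right h2]
      have h3 : (0 : ℝ) ≤ (i : ℝ) / N := by positivity
      rw [max_eq_right h3]
      have : max (0 : ℝ) (min 1 ((i : ℝ) / N + 1 / N)) ≤ (i : ℝ) / N + 1 / N := by
        apply max_le (by positivity) (min_le_right _ _)
      linarith
    · rw [min_eq_left h2, min_eq_left (by linarith)]
      simp
  have hsmp : ∀ i, smp γ N i = γ (τ i) := fun i => rfl
  refine ⟨?_, fun i => Path.Homotopic.Quotient.mk (γ.subpath (τ 0) (τ i)), ⟨?_, ?_⟩, N, ?_⟩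
  · rw [hsmp, hτ0]; simp
  · show Path.Homotopic.Quotient.mk (γ.subpath (τ 0) (τ 0)) = Path.Homotopic.Quotient.refl (γ (τ 0))
    rw [Path.subpath_self]
    rfl
  · intro i
    refine ⟨γ.subpath (τ i) (τ (i + 1)), ?_, ?_⟩
    · intro t
      show dist (γ.subpath (τ i) (τ (i + 1)) t) (γ (τ i)) < ε
      have h1 : γ.subpath (τ i) (τ (i + 1)) t ∈ Set.range (γ.subpath (τ i) (τ (i + 1))) := ⟨t, rfl⟩
      rw [Path.range_subpath_of_le _ _ _ (hτle i)] at h1
      obtain ⟨s, hs, hs'⟩ := h1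
      rw [← hs']
      apply hγ
      have h5 : (τ i : ℝ) ≤ s := hs.1
      rw [Subtype.dist_eq, Real.dist_eq, abs_of_nonneg (sub_nonneg.2 h5)]
      have := hτstep i
      have h4 : (s : ℝ) ≤ τ (i + 1) := hs.2
      linarith
    · symm
      apply Path.Homotopic.Quotient.eq.2
      exact ⟨Path.Homotopy.subpathTransSubpath γ (τ 0) (τ i) (τ (i + 1))⟩
  · intro N' hN'
    have e1 : smp γ N N' = y := by
      rw [hsmp, hτ1 N' hN']; simp
    refine ⟨e1, ?_⟩
    have key : ∀ (a b : I) (ha : a = 0) (hb : b = 1) (h1 : γ a = x) (h2 : γ b = y),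
        Path.Homotopic.Quotient.mk (γ.subpath a b) = (Path.Homotopic.Quotient.mk γ).cast h1 h2 := by
      rintro a b rfl rfl h1 h2
      rw [Path.subpath_zero_one]
      rfl
    exact key (τ 0) (τ N') hτ0 (hτ1 N' hN') _ _

end Hol

open Hol

/-- (E1) **faithfulness**: under `UnifLSC`, chain-equivalent samples come from homotopic paths. -/
theorem homotopic_of_chEq (hU : UnifLSC M) :
    ∃ ρ₀ > 0, ∀ ρ : ℝ, 0 < ρ → ρ ≤ ρ₀ → ∀ (x y : M) (γ γ' : Path x y),
      (∃ N₀, ∀ N ≥ N₀, ∀ N' ≥ N₀, ChEq ρ (smp γ N) (smp γ' N')) → γ.Homotopic γ' := by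
  obtain ⟨ε₀, hε₀, hSC⟩ := hU.simplyConn
  obtain ⟨δ, hδ, hPC⟩ := hU.pathConn (ε₀ / 2) (by positivity)
  refine ⟨min (ε₀ / 2) (δ / 2), by positivity, ?_⟩
  rintro ρ hρ hρ₀ x y γ γ' ⟨N₀, hN₀⟩
  have h1 : ρ ≤ ε₀ / 2 := hρ₀.trans (min_le_left _ _)
  have h2 : ρ < δ := (hρ₀.trans (min_le_right _ _)).trans_lt (by linarith)
  obtain ⟨N₁, -, hN₁⟩ := rlz_smp (ε := ε₀ / 2) (by positivity) γ
  obtain ⟨N₂, -, hN₂⟩ := rlz_smp (ε := ε₀ / 2) (by positivity) γ'
  set N := max N₀ (max N₁ N₂)
  have e1 := hN₁ N (by simp [N])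
  have e2 := hN₂ N (by simp [N])
  have e3 := e1.chEq hSC (by linarith) hρ.le hε₀ hPC h2 (hN₀ N (by simp [N]) N (by simp [N]))
  exact e3.homotopic hSC (by linarith) e2

/-! ### (E2) realization -/

namespace Real2

/-- a chain composed with a slow reparametrization of the indices is a chain -/
theorem isCh_comp {ρ δ : ℝ} {N : ℕ} {p : ℕ → M} (hp : IsCh δ N p) (hδ : δ ≤ ρ) (hρ : 0 ≤ ρ)
    {g : ℕ → ℕ} {K : ℕ} (hg : ∀ j, g (j + 1) = g j ∨ g (j + 1) = g j + 1)
    (hK : ∀ j, K ≤ j → N ≤ g j) : IsCh ρ K (fun j => p (g j)) where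
  step j := by
    rcases hg j with h | h
    · simp [h, hρ]
    · simp only [h]; exact (hp.step _).trans hδ
  const j hj := by
    show p (g j) = p (g K)
    rw [hp.const _ (hK j hj), hp.const _ (hK K le_rfl)]

/-- pointwise `1`-close slow reparametrizations give adjacent chains -/
theorem chAdj_comp {ρ δ : ℝ} {N : ℕ} {p : ℕ → M} (hp : IsCh δ N p) (hδ : δ ≤ ρ) (hρ : 0 ≤ ρ)
    {g g' : ℕ → ℕ} {K : ℕ} (hg : ∀ j, g (j + 1) = g j ∨ g (j + 1) = g j + 1)
    (hg' : ∀ j, g' (j + 1) = g' j ∨ g' (j + 1) = g' j + 1)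
    (hK : ∀ j, K ≤ j → N ≤ g j) (hK' : ∀ j, K ≤ j → N ≤ g' j)
    (h0 : g 0 = g' 0) (hc : ∀ j, g' j = g j ∨ g' j = g j + 1) :
    ChAdj ρ (fun j => p (g j)) (fun j => p (g' j)) where
  left := ⟨K, isCh_comp hp hδ hρ hg hK⟩
  right := ⟨K, isCh_comp hp hδ hρ hg' hK'⟩
  close j := by
    rcases hc j with h | h
    · simp [h, hρ]
    · simp only [h]; exact (hp.step _).trans hδ
  start := by simp [h0]
  stop := ⟨K, fun j hj => by
    show p (g j) = p (g' j)
    rw [hp.const _ (hK j hj), hp.const _ (hK' j hj)]⟩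

theorem div_step {k : ℕ} (hk : 0 < k) (j : ℕ) :
    (j + 1) / k = j / k ∨ (j + 1) / k = j / k + 1 := by
  have h1 : j / k ≤ (j + 1) / k := Nat.div_le_div_right (Nat.le_succ j)
  have h2 : (j + 1) / k ≤ (j + k) / k := Nat.div_le_div_right (by omega)
  rw [Nat.add_div_right _ hk] at h2
  omega

/-- the stuttered chain is equivalent to the chain -/
theorem stutter_chEq {ρ δ : ℝ} {N : ℕ} {p : ℕ → M} (hp : IsCh δ N p) (hδ : δ ≤ ρ) (hρ : 0 ≤ ρ)
    {k : ℕ} (hk : 0 < k) : ChEq ρ (fun j => p (j / k)) p := by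
  let g : ℕ → ℕ → ℕ := fun l j => min j (j / k + l)
  have hstep : ∀ l j, g l (j + 1) = g l j ∨ g l (j + 1) = g l j + 1 := by
    intro l j
    simp only [g]
    rcases div_step hk j with h | h <;> rw [h] <;> omega
  have hK : ∀ l j, k * N ≤ j → N ≤ g l j := by
    intro l j hj
    have h1 : N ≤ j / k := (Nat.le_div_iff_mul_le hk).2 (by rwa [mul_comm])
    have h2 : j / k ≤ j := Nat.div_le_self _ _
    simp only [g]
    omega
  have hall : ∀ l, ChEq ρ (fun j => p (g 0 j)) (fun j => p (g l j)) := by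
    intro l
    induction l with
    | zero => exact ChEq.refl _
    | succ l ih =>
      refine ih.trans (ChAdj.chEq ?_)
      refine chAdj_comp hp hδ hρ (hstep l) (hstep (l + 1)) (hK l) (hK (l + 1)) ?_ ?_
      · simp [g]
      · intro j
        simp only [g]
        omega
  have h0 : (fun j => p (g 0 j)) = fun j => p (j / k) := by
    funext j
    have h2 : j / k ≤ j := Nat.div_le_self _ _
    simp [g, h2]
  have h1 : (fun j => p (g N j)) = p := by
    funext j
    simp only [g]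
    generalize j / k = c
    rcases le_total j (c + N) with h | h
    · rw [min_eq_left h]
    · rw [min_eq_right h, hp.const (c + N) (by omega), hp.const j (by omega)]
  have := hall N
  rwa [h0, h1] at this

/-- the piecewise path through `p 0, p 1, …` -/
noncomputable def pw {p : ℕ → M} (s : ∀ i, Path (p i) (p (i + 1))) : ℕ → ℝ → M
  | 0, _ => p 0
  | n + 1, t => if t ≤ n then pw s n t else (s n).extend (t - n)

theorem pw_self {p : ℕ → M} (s : ∀ i, Path (p i) (p (i + 1))) (n : ℕ) : pw s n n = p n := by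
  cases n with
  | zero => rfl
  | succ n =>
    simp only [pw]
    rw [if_neg (by push_cast; linarith)]
    push_cast
    simp

theorem pw_continuous {p : ℕ → M} (s : ∀ i, Path (p i) (p (i + 1))) (n : ℕ) :
    Continuous (pw s n) := by
  induction n with
  | zero => exact continuous_const
  | succ n ih =>
    show Continuous fun t => if t ≤ (n : ℝ) then pw s n t else (s n).extend (t - n)
    apply Continuous.if_le ih _ continuous_id continuous_const
    · rintro t rfl
      simp [pw_self]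
    · exact (s n).extend.continuous.comp (continuous_id.sub continuous_const)

theorem pw_zero {p : ℕ → M} (s : ∀ i, Path (p i) (p (i + 1))) (n : ℕ) : pw s n 0 = p 0 := by
  induction n with
  | zero => rfl
  | succ n ih =>
    simp only [pw]
    rw [if_pos (by positivity), ih]

theorem pw_close {p : ℕ → M} (s : ∀ i, Path (p i) (p (i + 1))) {ρ : ℝ}
    (hs : ∀ i t, dist (s i t) (p i) < ρ) (n : ℕ) (i : ℕ) (hi : i < n) (t : ℝ) (h1 : (i : ℝ) ≤ t)
    (h2 : t ≤ i + 1) : dist (pw s n t) (p i) < ρ := by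
  induction n with
  | zero => omega
  | succ n ih =>
    simp only [pw]
    rcases Nat.lt_succ_iff_lt_or_eq.1 hi with h | h
    · have : (i : ℝ) + 1 ≤ n := by exact_mod_cast h
      rw [if_pos (by linarith)]
      exact ih h
    · subst h
      split_ifs with h3
      · have : t = i := le_antisymm h3 h1
        rw [this, pw_self, ← (s i).source]
        exact hs i 0 |>.trans_eq' (by simp)
      · have : (s i).extend (t - i) ∈ Set.range (s i).extend := ⟨_, rfl⟩
        rw [Path.extend_range] at this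
        obtain ⟨u, hu⟩ := this
        rw [← hu]
        exact hs i u

end Real2

open Real2

/-- (E2) **realization**: for every scale `ρ` there is `δ > 0` such that every chain with steps
`≤ δ` is `ρ`-equivalent to the fine samples of a continuous path. -/
theorem exists_path_of_isCh (hU : UnifLSC M) {ρ : ℝ} (hρ : 0 < ρ) :
    ∃ δ > 0, ∀ (N : ℕ) (p : ℕ → M), IsCh δ N p → ∃ γ : Path (p 0) (p N),
      ∃ N₀, ∀ N' ≥ N₀, ChEq ρ (smp γ N') p := by
  obtain ⟨δ₁, hδ₁, hPC⟩ := hU.pathConn ρ hρ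
  refine ⟨min (δ₁ / 2) ρ, by positivity, ?_⟩
  intro N p hp
  have hstep : ∀ i, dist (p i) (p (i + 1)) < δ₁ := fun i =>
    ((hp.step i).trans (min_le_left _ _)).trans_lt (by linarith)
  have hδρ : min (δ₁ / 2) ρ ≤ ρ := min_le_right _ _
  choose s hs using fun i => hPC (p i) (p (i + 1)) (hstep i)
  rcases Nat.eq_zero_or_pos N with h0 | hNpos
  · subst h0
    refine ⟨Path.refl _, 0, fun N' _ => ?_⟩
    have : smp (Path.refl (p 0)) N' = p := by
      funext i
      simp [smp, hp.const i (Nat.zero_le _)]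
    rw [this]
    exact ChEq.refl _
  have hNR : (0 : ℝ) < N := by exact_mod_cast hNpos
  let γ : Path (p 0) (p N) :=
    { toFun := fun t => pw s N (N * (t : ℝ))
      continuous_toFun := (pw_continuous s N).comp (by fun_prop)
      source' := by simp [pw_zero]
      target' := by simp [pw_self] }
  obtain ⟨N₁, hN₁pos, hN₁⟩ := smp_isCh γ hρ
  obtain ⟨N₂, hN₂pos, hN₂⟩ := smp_chEq γ hρ
  refine ⟨γ, N₂, fun N' hN' => ?_⟩
  set k := N₁ + N₂ with hk
  have hkpos : 0 < k := by omega
  have hkR : (0 : ℝ) < k := by exact_mod_cast hkpos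
  have hkN : k ≤ k * N := Nat.le_mul_of_pos_right _ hNpos
  refine (hN₂ N' hN' (k * N) (by omega)).trans ?_
  refine ChEq.trans (ChAdj.chEq ?_) (stutter_chEq hp hδρ hρ.le hkpos)
  have hlate : ∀ j, k * N ≤ j → smp γ (k * N) j = p N := by
    intro j hj
    unfold smp
    apply Path.extend_of_one_le
    rw [le_div_iff₀ (by push_cast; positivity), one_mul]
    exact_mod_cast hj
  have hlate' : ∀ j, k * N ≤ j → p (j / k) = p N := by
    intro j hj
    exact hp.const _ ((Nat.le_div_iff_mul_le hkpos).2 (by rwa [mul_comm]))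
  refine ⟨⟨k * N, hN₁ _ (by omega)⟩, ⟨k * N, ?_⟩, ?_, ?_, ?_⟩
  · refine isCh_comp hp hδρ hρ.le (div_step hkpos) ?_
    intro j hj
    exact (Nat.le_div_iff_mul_le hkpos).2 (by rwa [mul_comm])
  · intro j
    rcases le_or_gt (k * N) j with hj | hj
    · rw [hlate j hj, hlate' j hj]; simpa using hρ.le
    · have e1 : smp γ (k * N) j = pw s N ((j : ℝ) / k) := by
        unfold smp
        have hmem : (j : ℝ) / ((k * N : ℕ) : ℝ) ∈ (Set.Icc 0 1 : Set ℝ) := by
          constructor
          · positivity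
          · rw [div_le_one (by push_cast; positivity)]
            exact_mod_cast hj.le
        rw [Path.extend_apply _ hmem]
        show pw s N (N * ((j : ℝ) / ((k * N : ℕ) : ℝ))) = _
        congr 1
        push_cast
        field_simp
      rw [e1]
      have hi : j / k < N := Nat.div_lt_of_lt_mul hj
      refine (pw_close s hs N (j / k) hi _ ?_ ?_).le
      · rw [le_div_iff₀ hkR]
        exact_mod_cast Nat.div_mul_le_self j k
      · rw [div_le_iff₀ hkR]
        have : j < k * (j / k + 1) := Nat.lt_mul_div_succ j hkpos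
        rw [mul_comm] at this
        exact_mod_cast this.le
  · simp [smp]
  · exact ⟨k * N, fun j hj => by rw [hlate j hj, hlate' j hj]⟩

end Crest.Agent.R244
private theorem rz_df354b6f49 : type_of% @_root_.Crest.Agent.R244.Real2.pw.eq_def := @_root_.Crest.Agent.R244.Real2.pw.eq_def -- L347
private theorem rz_98b0299cb1 : type_of% @_root_.Crest.Agent.R244.Real2.pw.eq_1 := @_root_.Crest.Agent.R244.Real2.pw.eq_1 -- L347
end

-- ▼ part R244/B2Final

/-!
# R244 package B2 : FINAL statement (owner helper264)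
-/

set_option autoImplicit false

open Filter Topology unitInterval

namespace Crest.Agent.R244

/-- the length of the homotopy class of a path (at scale `ρ`) -/
noncomputable def DP {M : Type*} [MetricSpace M] {ρ : ℝ} (hρ : 0 < ρ) {x y : M}
    (γ : Path x y) : ℝ :=
  DC ρ (smp γ (max (smp_chEq γ hρ).choose (smp_isCh γ hρ).choose))

theorem DP_eq {M : Type*} [MetricSpace M] {ρ : ℝ} (hρ : 0 < ρ) {x y : M} (γ : Path x y) :
    ∃ N₀ : ℕ, 0 < N₀ ∧ ∀ N ≥ N₀, IsCh ρ N (smp γ N) ∧ DP hρ γ = DC ρ (smp γ N) := by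
  have h1 := (smp_chEq γ hρ).choose_spec
  have h2 := (smp_isCh γ hρ).choose_spec
  set A := (smp_chEq γ hρ).choose
  set B := (smp_isCh γ hρ).choose
  refine ⟨max A B, lt_of_lt_of_le h1.1 (le_max_left _ _), fun N hN => ⟨h2.2 N (by omega), ?_⟩⟩
  exact DC_congr (h1.2 (max A B) (le_max_left _ _) N (by omega))

/-- **Discrete Cartan-Hadamard theorem** (package B2, FINAL statement v2). -/
theorem exists_pathLength₂ {M : Type*} [MetricSpace M] [CompactSpace M]
    {r : ℝ} (h : LocalCN M r) (hU : UnifLSC M) :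
    ∃ D : ∀ {x y : M}, Path x y → ℝ, PathLength M (fun {_ _} γ => D γ) ∧
      ∃ r₀ > 0, ∀ (x : M) (γ : Path x x), D γ < r₀ → γ.Homotopic (Path.refl x) := by
  obtain ⟨ρ₀, hρ₀, hE1⟩ := homotopic_of_chEq hU
  have hr : 0 < r := h.1
  set ρ := min (r / 4) ρ₀ with hρdef
  have hρ : 0 < ρ := lt_min (by linarith) hρ₀
  have hρr : 3 * ρ < r := by
    have : ρ ≤ r / 4 := min_le_left _ _
    linarith
  have hρρ₀ : ρ ≤ ρ₀ := min_le_right _ _
  obtain ⟨δ, hδ, hE2⟩ := exists_path_of_isCh hU hρ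
  refine ⟨fun {x y} γ => DP hρ γ, ?_, ρ, hρ, ?_⟩
  · constructor
    · -- homotopic
      intro x y γ γ' hγ
      obtain ⟨N₁, -, h1⟩ := DP_eq hρ γ
      obtain ⟨N₂, -, h2⟩ := DP_eq hρ γ'
      obtain ⟨N₃, -, h3⟩ := smp_homotopic hγ hρ
      set N := max N₁ (max N₂ N₃)
      show DP hρ γ = DP hρ γ'
      rw [(h1 N (by omega)).2, (h2 N (by omega)).2]
      exact DC_congr (h3 N (by omega) N (by omega))
    · intro x y γ
      exact DC_nonneg _
    · -- refl
      intro x
      obtain ⟨N₁, -, h1⟩ := DP_eq hρ (Path.refl x)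
      show DP hρ (Path.refl x) = 0
      rw [(h1 N₁ le_rfl).2]
      have : smp (Path.refl x) N₁ = fun _ => x := by
        funext i
        unfold smp
        simp
      rw [this]
      exact DC_const hρ.le x
    · -- symm
      intro x y γ
      obtain ⟨N₁, h10, h1⟩ := DP_eq hρ γ
      obtain ⟨N₂, -, h2⟩ := DP_eq hρ γ.symm
      set N := max N₁ N₂
      show DP hρ γ.symm = DP hρ γ
      rw [(h2 N (by omega)).2, smp_symm γ (by omega), DC_rev (h1 N (by omega)).1,
        (h1 N (by omega)).2]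
    · -- trans
      intro x y z γ γ'
      obtain ⟨N₁, h10, h1⟩ := DP_eq hρ γ
      obtain ⟨N₂, -, h2⟩ := DP_eq hρ γ'
      obtain ⟨N₃, -, h3⟩ := DP_eq hρ (γ.trans γ')
      set N := max N₁ (max N₂ N₃)
      show DP hρ (γ.trans γ') ≤ DP hρ γ + DP hρ γ'
      rw [(h3 (2 * N) (by omega)).2, smp_trans γ γ' (by omega), (h1 N (by omega)).2,
        (h2 N (by omega)).2]
      refine DC_cat_le (h1 N (by omega)).1 (h2 N (by omega)).1 ?_
      unfold smp
      have hN : (N : ℝ) ≠ 0 := by
        have : 0 < N := by omega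
        positivity
      rw [div_self hN]
      simp
    · -- midpoint
      intro a b e
      obtain ⟨N₁', h10', h1'⟩ := DP_eq hρ e
      obtain ⟨N₇, h70, h7⟩ := smp_chEq e hρ
      set N₁ := max N₁' N₇ with hN₁
      have h1 : ∀ N ≥ N₁, IsCh ρ N (smp e N) ∧ DP hρ e = DC ρ (smp e N) :=
        fun N hN => h1' N (by omega)
      obtain ⟨n, w, hw1, hw2, hw0, hw⟩ := exists_midchain h hρ hρr (h1 N₁ le_rfl).1 hδ
      have hw0' : w 0 = a := by
        rw [hw0]; unfold smp; simp
      obtain ⟨κ, N₂, hκ⟩ := hE2 n w hw1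
      refine ⟨w n, κ.cast hw0'.symm rfl, fun {p} c => ?_⟩
      set κ' : Path a (w n) := κ.cast hw0'.symm rfl with hκ'
      have hsm : ∀ N, smp κ' N = smp κ N := by
        intro N
        funext i
        unfold smp
        rw [hκ', Path.extend_cast]
      obtain ⟨N₃, h30, h3⟩ := DP_eq hρ c
      obtain ⟨N₄, h40, h4⟩ := DP_eq hρ (c.trans κ')
      obtain ⟨N₅, h50, h5⟩ := DP_eq hρ (c.trans e)
      obtain ⟨N₆, h60, h6⟩ := smp_isCh κ' hρ
      set N := max N₁ (max N₂ (max N₃ (max N₄ (max N₅ N₆)))) with hN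
      have hNpos : 0 < N := by omega
      have hNne : (N : ℝ) ≠ 0 := by positivity
      have hc := (h3 N (by omega)).1
      have hcN : smp c N N = a := by
        unfold smp; rw [div_self hNne]; simp
      have he0 : ∀ K, smp e K 0 = a := fun K => by unfold smp; simp
      have hs0 : ∀ K, smp κ' K 0 = a := fun K => by unfold smp; simp
      have key := hw N (smp c N) hc (by rw [hcN, he0])
      -- rewrite the three terms
      have e1 : DP hρ (c.trans κ') = DC ρ (cat N (smp c N) w) := by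
        rw [(h4 (2 * N) (by omega)).2, smp_trans c κ' hNpos]
        apply DC_congr
        refine cat_congr_right ?_ hc (h6 N (by omega)) (by rw [hcN, hs0])
        rw [hsm]
        exact hκ N (by omega)
      have e2 : DP hρ (c.trans e) = DC ρ (cat N (smp c N) (smp e N₁)) := by
        rw [(h5 (2 * N) (by omega)).2, smp_trans c e hNpos]
        apply DC_congr
        refine cat_congr_right ?_ hc (h1 N (by omega)).1 (by rw [hcN, he0])
        exact h7 N (by omega) N₁ (by omega)
      have e3 : DP hρ c = DC ρ (smp c N) := (h3 N (by omega)).2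
      have e4 : DP hρ e = DC ρ (smp e N₁) := (h1 N₁ le_rfl).2
      show DP hρ (c.trans κ') ^ 2 ≤ DP hρ c ^ 2 / 2 + DP hρ (c.trans e) ^ 2 / 2 - DP hρ e ^ 2 / 4
      rw [e1, e2, e3, e4]
      exact key
  · -- systole
    intro x γ hγ
    obtain ⟨N₁, h10, h1⟩ := DP_eq hρ γ
    obtain ⟨N₂, h20, h2⟩ := smp_chEq γ hρ
    set N₀ := max N₁ N₂ with hN₀
    have hγ' : DC ρ (smp γ N₀) < ρ := by rw [← (h1 N₀ (by omega)).2]; exact hγ
    obtain ⟨K, q, hq1, hq2, hq3⟩ := exists_len_lt ⟨N₀, (h1 N₀ (by omega)).1⟩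
      (sub_pos.2 hγ')
    rw [add_sub_cancel] at hq3
    have hq0 : q 0 = x := by
      rw [← ChEq.start hq2]; unfold smp; simp
    have hN₀ne : (N₀ : ℝ) ≠ 0 := by
      have : 0 < N₀ := by omega
      positivity
    have hqK : q K = x := by
      rw [← ChEq.end_eq hq2 (h1 N₀ (by omega)).1 hq1]
      unfold smp; rw [div_self hN₀ne]; simp
    refine hE1 ρ hρ hρρ₀ x x γ (Path.refl x) ⟨N₀, fun N hN N' hN' => ?_⟩
    have hr : smp (Path.refl x) N' = fun _ => x := by
      funext i; unfold smp; simp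
    rw [hr]
    refine (h2 N (by omega) N₀ (by omega)).trans (hq2.trans (ChAdj.chEq ?_))
    refine ⟨⟨K, hq1⟩, ⟨0, fun i => by simpa using hρ.le, fun i _ => rfl⟩, fun i => ?_, hq0,
      ⟨K, fun i hi => by rw [hq1.const i hi, hqK]⟩⟩
    rw [dist_comm, ← hq0]
    exact (hq1.dist_start_le i).trans hq3.le

end Crest.Agent.R244
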