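import Mathlib
import Crest.Agent.R244.B4Theta

-- ▼ part R244/B4Nil
section

/-!
# The Nil quotient and its covering, used to detect `f₂ ≠ 1` (row 244, package B4b)

`NT = ℂ × ℂ*` with the action `(k,l)·(w,ζ) = (w + k + l i, exp (2 π i k Im w) ζ)` of `ℤ × ℤ`;
`Nil` is the quotient.
-/

set_option autoImplicit false

namespace Crest.Agent.R244.B4

open Complex Topology

noncomputable section

/-- the plane times the punctured plane -/
def NT : Type := ℂ × {z : ℂ // z ≠ 0}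

instance : TopologicalSpace NT := inferInstanceAs (TopologicalSpace (ℂ × {z : ℂ // z ≠ 0}))

/-- the lattice group -/
def Lat : Type := ℤ × ℤ

instance : AddCommGroup Lat := inferInstanceAs (AddCommGroup (ℤ × ℤ))

def NT.act (g : Lat) (p : NT) : NT :=
  (p.1 + (g.1 : ℂ) + (g.2 : ℂ) * I,
    ⟨cexp (2 * Real.pi * I * (g.1 : ℂ) * (p.1.im : ℂ)) * p.2.1,
      mul_ne_zero (Complex.exp_ne_zero _) p.2.2⟩)

theorem NT.ext' {p q : NT} (h1 : p.1 = q.1) (h2 : p.2.1 = q.2.1) : p = q :=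
  Prod.ext h1 (Subtype.ext h2)

theorem exp_int_mul_int (m n : ℤ) : cexp (2 * Real.pi * I * (m : ℂ) * (n : ℂ)) = 1 := by
  rw [show (2 * Real.pi * I * (m : ℂ) * (n : ℂ)) = ((m * n : ℤ) : ℂ) * (2 * Real.pi * I) by
    push_cast; ring]
  exact Complex.exp_int_mul_two_pi_mul_I _

instance : AddAction Lat NT where
  vadd := NT.act
  zero_vadd p := by
    refine NT.ext' ?_ ?_
    · change p.1 + ((0 : ℤ) : ℂ) + ((0 : ℤ) : ℂ) * I = p.1
      simp
    · change cexp (2 * Real.pi * I * ((0 : ℤ) : ℂ) * (p.1.im : ℂ)) * p.2.1 = p.2.1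
      simp
  add_vadd g h p := by
    refine NT.ext' ?_ ?_
    · change p.1 + ((g.1 + h.1 : ℤ) : ℂ) + ((g.2 + h.2 : ℤ) : ℂ) * I =
        (p.1 + (h.1 : ℂ) + (h.2 : ℂ) * I) + (g.1 : ℂ) + (g.2 : ℂ) * I
      push_cast; ring
    · change cexp (2 * Real.pi * I * ((g.1 + h.1 : ℤ) : ℂ) * (p.1.im : ℂ)) * p.2.1 =
        cexp (2 * Real.pi * I * (g.1 : ℂ) * ((p.1 + (h.1 : ℂ) + (h.2 : ℂ) * I).im : ℂ)) *
          (cexp (2 * Real.pi * I * (h.1 : ℂ) * (p.1.im : ℂ)) * p.2.1)
      rw [← mul_assoc, ← Complex.exp_add]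
      congr 1
      have him : ((p.1 + (h.1 : ℂ) + (h.2 : ℂ) * I).im : ℂ) = (p.1.im : ℂ) + (h.2 : ℂ) := by
        simp
      rw [him, show (2 * Real.pi * I * (g.1 : ℂ) * ((p.1.im : ℂ) + (h.2 : ℂ)) +
        2 * Real.pi * I * (h.1 : ℂ) * (p.1.im : ℂ)) =
        2 * Real.pi * I * ((g.1 + h.1 : ℤ) : ℂ) * (p.1.im : ℂ) +
        2 * Real.pi * I * (g.1 : ℂ) * (h.2 : ℂ) by push_cast; ring, Complex.exp_add,
        exp_int_mul_int, mul_one]

theorem vadd_fst (g : Lat) (p : NT) : (g +ᵥ p).1 = p.1 + (g.1 : ℂ) + (g.2 : ℂ) * I := rfl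


/-- The quotient. -/
def Nil : Type := Quotient (AddAction.orbitRel Lat NT)

instance : TopologicalSpace Nil :=
  inferInstanceAs (TopologicalSpace (Quotient (AddAction.orbitRel Lat NT)))

/-- The projection. -/
def nilMk : NT → Nil := Quotient.mk _

theorem nilMk_eq_of {p q : NT} (k l : ℤ) (h1 : q.1 = p.1 + (k : ℂ) + (l : ℂ) * I)
    (h2 : q.2.1 = cexp (2 * Real.pi * I * (k : ℂ) * (p.1.im : ℂ)) * p.2.1) :
    nilMk q = nilMk p := by
  refine Quotient.sound ?_
  refine (AddAction.orbitRel_apply).2 ⟨((k, l) : ℤ × ℤ), ?_⟩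
  exact (NT.ext' h1 h2).symm

theorem isAddQuotientCoveringMap_nilMk : IsAddQuotientCoveringMap nilMk Lat where
  toIsQuotientMap := isQuotientMap_quotient_mk'
  continuous_const_vadd g := by
    change Continuous (fun p : ℂ × {z : ℂ // z ≠ 0} =>
      ((p.1 + (g.1 : ℂ) + (g.2 : ℂ) * I,
        ⟨cexp (2 * Real.pi * I * (g.1 : ℂ) * (p.1.im : ℂ)) * p.2.1,
        mul_ne_zero (Complex.exp_ne_zero _) p.2.2⟩) : ℂ × {z : ℂ // z ≠ 0}))
    fun_prop
  apply_eq_iff_mem_orbit {e₁ e₂} := Quotient.eq''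
  disjoint e := by
    refine ⟨(fun p : NT => p.1) ⁻¹' Metric.ball e.1 (1 / 2), ?_, ?_⟩
    · have : Continuous (fun p : NT => p.1) := continuous_fst
      exact this.continuousAt.preimage_mem_nhds (Metric.ball_mem_nhds _ (by norm_num))
    · rintro g ⟨_, ⟨q, hq, rfl⟩, hq2⟩
      simp only [Set.mem_preimage, Metric.mem_ball] at hq hq2
      rw [vadd_fst] at hq2
      have h1 : ‖(g.1 : ℂ) + (g.2 : ℂ) * I‖ < 1 := by
        have : (g.1 : ℂ) + (g.2 : ℂ) * I = (q.1 + (g.1 : ℂ) + (g.2 : ℂ) * I - e.1) - (q.1 - e.1) := by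
          ring
        rw [this]
        calc _ ≤ ‖q.1 + (g.1 : ℂ) + (g.2 : ℂ) * I - e.1‖ + ‖q.1 - e.1‖ := norm_sub_le _ _
          _ < 1 / 2 + 1 / 2 := by
            rw [dist_eq_norm] at hq hq2
            linarith
          _ = 1 := by norm_num
      have h2 : |(g.1 : ℝ)| < 1 := by
        have := (Complex.abs_re_le_norm ((g.1 : ℂ) + (g.2 : ℂ) * I)).trans_lt h1
        simpa using this
      have h3 : |(g.2 : ℝ)| < 1 := by
        have := (Complex.abs_im_le_norm ((g.1 : ℂ) + (g.2 : ℂ) * I)).trans_lt h1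
        simpa using this
      have h2' : g.1 = 0 := by
        rw [← Int.cast_abs] at h2
        exact Int.abs_lt_one_iff.mp (by exact_mod_cast h2)
      have h3' : g.2 = 0 := by
        rw [← Int.cast_abs] at h3
        exact Int.abs_lt_one_iff.mp (by exact_mod_cast h3)
      exact Prod.ext h2' h3'

theorem isCoveringMap_nilMk : IsCoveringMap nilMk := isAddQuotientCoveringMap_nilMk.isCoveringMap

theorem continuous_nilMk : Continuous nilMk := isCoveringMap_nilMk.continuous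

variable {M : Type*} [TopologicalSpace M] [PathConnectedSpace M]

/-- **Detection.** If a continuous map to `Nil` sends the loop `y ↦ Γ y`, `a ≤ y ≤ a + 2π`, to the
central fibre, this loop is nontrivial. -/
theorem th_ne_one_of_nil (x0 : M) (Γ : C(ℝ, M)) (a : ℝ) (F : C(M, Nil)) (w : ℂ) (c : ℝ)
    (hF : ∀ y : ℝ, F (Γ y) = nilMk (w, ⟨cexp ((c + y : ℝ) * I), Complex.exp_ne_zero _⟩))
    (hΓ : Γ (a + 2 * Real.pi) = Γ a) :
    th x0 Γ a (a + 2 * Real.pi) ≠ 1 := by
  intro h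
  have h1 := null_of_th_eq_one x0 Γ a (a + 2 * Real.pi) hΓ h
  have h2 := h1.map F
  set L : C(ℝ, NT) := ⟨fun y => (w, ⟨cexp ((c + y : ℝ) * I), Complex.exp_ne_zero _⟩), by
    change Continuous (fun y : ℝ => ((w, ⟨cexp ((c + y : ℝ) * I), Complex.exp_ne_zero _⟩) :
      ℂ × {z : ℂ // z ≠ 0}))
    fun_prop⟩ with hL
  have h3 : F.comp Γ = (⟨nilMk, continuous_nilMk⟩ : C(NT, Nil)).comp L := by
    ext y; exact hF y
  rw [h3] at h2
  have h4 := Null.lift isCoveringMap_nilMk h2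
  have hsnd : Continuous (fun p : NT => p.2) := continuous_snd
  have h5 := h4.map (⟨fun p : NT => p.2, hsnd⟩ : C(NT, {z : ℂ // z ≠ 0}))
  set ℓ : C(ℝ, ℂ) := ⟨fun y => ((c + y : ℝ) : ℂ) * I, by fun_prop⟩ with hℓ
  have h6 : (⟨fun p : NT => p.2, hsnd⟩ : C(NT, {z : ℂ // z ≠ 0})).comp L =
    (⟨_, Complex.isCoveringMap_exp.continuous⟩ : C(ℂ, {z : ℂ // z ≠ 0})).comp ℓ := by
    ext y; rfl
  rw [h6] at h5
  have h7 := (Null.lift Complex.isCoveringMap_exp h5).eq
  have h8 : ((c + (a + 2 * Real.pi) : ℝ) : ℂ) * I = ((c + a : ℝ) : ℂ) * I := h7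
  have h9 := mul_right_cancel₀ Complex.I_ne_zero h8
  have h10 : c + (a + 2 * Real.pi) = c + a := by exact_mod_cast h9
  have := Real.pi_pos
  linarith

end

end Crest.Agent.R244.B4
end

-- ▼ part R244/B4Sec
section

/-!
# The quasi-periodic section used to detect `f₂ ≠ 1` (row 244, package B4b)
-/

set_option autoImplicit false

namespace Crest.Agent.R244.B4

open Complex Topology

noncomputable section

/-- `sec u v = (1-u) + u e^{2πiv}` for `0 ≤ u ≤ 1`, continued by `sec (u+1) v = e^{2πiv} sec u v`. -/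
def sec (u v : ℝ) : ℂ :=
  cexp (2 * Real.pi * I * (⌊u⌋ : ℂ) * (v : ℂ)) *
    ((1 - Int.fract u : ℝ) + (Int.fract u : ℝ) * cexp (2 * Real.pi * I * (v : ℂ)))

theorem sec_add_int (u v : ℝ) (k : ℤ) :
    sec (u + k) v = cexp (2 * Real.pi * I * (k : ℂ) * (v : ℂ)) * sec u v := by
  unfold sec
  rw [Int.floor_add_intCast, Int.fract_add_intCast, ← mul_assoc, ← Complex.exp_add]
  congr 2
  push_cast; ring

theorem sec_add_int_right (u v : ℝ) (l : ℤ) : sec u (v + l) = sec u v := by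
  unfold sec
  have h1 : cexp (2 * Real.pi * I * (⌊u⌋ : ℂ) * ((v + l : ℝ) : ℂ)) =
      cexp (2 * Real.pi * I * (⌊u⌋ : ℂ) * (v : ℂ)) := by
    rw [show (2 * Real.pi * I * (⌊u⌋ : ℂ) * ((v + l : ℝ) : ℂ)) =
      2 * Real.pi * I * (⌊u⌋ : ℂ) * (v : ℂ) + ((⌊u⌋ * l : ℤ) : ℂ) * (2 * Real.pi * I) by
      push_cast; ring, Complex.exp_add, Complex.exp_int_mul_two_pi_mul_I, mul_one]
  have h2 : cexp (2 * Real.pi * I * ((v + l : ℝ) : ℂ)) = cexp (2 * Real.pi * I * (v : ℂ)) := by
    rw [show (2 * Real.pi * I * ((v + l : ℝ) : ℂ)) =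
      2 * Real.pi * I * (v : ℂ) + (l : ℂ) * (2 * Real.pi * I) by
      push_cast; ring, Complex.exp_add, Complex.exp_int_mul_two_pi_mul_I, mul_one]
  rw [h1, h2]

theorem sec_on_strip (k : ℤ) {u v : ℝ} (h1 : (k : ℝ) ≤ u) (h2 : u ≤ k + 1) :
    sec u v = cexp (2 * Real.pi * I * (k : ℂ) * (v : ℂ)) *
      ((1 - (u - k) : ℝ) + (u - k : ℝ) * cexp (2 * Real.pi * I * (v : ℂ))) := by
  rcases lt_or_eq_of_le h2 with h2 | h2
  · have h3 : ⌊u⌋ = k := Int.floor_eq_iff.2 ⟨h1, h2⟩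
    have h4 : Int.fract u = u - k := by rw [Int.fract, h3]
    unfold sec
    rw [h3, h4]
  · have h3 : ⌊u⌋ = k + 1 := by
      rw [h2]
      have := Int.floor_intCast (R := ℝ) (k + 1)
      push_cast at this
      exact this
    have h4 : Int.fract u = 0 := by rw [Int.fract, h3, h2]; push_cast; ring
    unfold sec
    rw [h3, h4, h2]
    push_cast
    rw [show (2 * Real.pi * I * ((k : ℂ) + 1) * (v : ℂ)) =
      2 * Real.pi * I * (k : ℂ) * (v : ℂ) + 2 * Real.pi * I * (v : ℂ) by ring, Complex.exp_add]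
    ring

theorem continuous_sec : Continuous (fun p : ℝ × ℝ => sec p.1 p.2) := by
  have hlf : LocallyFinite (fun k : ℤ => {p : ℝ × ℝ | (k : ℝ) ≤ p.1 ∧ p.1 ≤ k + 1}) := by
    intro p
    refine ⟨{q | |q.1 - p.1| < 1}, ?_, ?_⟩
    · have : IsOpen {q : ℝ × ℝ | |q.1 - p.1| < 1} :=
        isOpen_lt (by fun_prop) continuous_const
      exact this.mem_nhds (by simp)
    · refine (Set.finite_Icc (⌊p.1⌋ - 2) (⌊p.1⌋ + 2)).subset ?_
      rintro k ⟨q, ⟨hq1, hq2⟩, hq3⟩
      simp only [Set.mem_ofPred_eq] at hq1 hq2 hq3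
      rw [abs_lt] at hq3
      have h1 := Int.floor_le p.1
      have h2 := Int.lt_floor_add_one p.1
      rw [Set.mem_Icc]
      constructor
      · have : ((⌊p.1⌋ - 2 : ℤ) : ℝ) ≤ (k : ℝ) := by push_cast; linarith
        exact_mod_cast this
      · have : (k : ℝ) < ((⌊p.1⌋ + 2 + 1: ℤ) : ℝ) := by push_cast; linarith
        have : k < ⌊p.1⌋ + 2 + 1 := by exact_mod_cast this
        omega
  refine hlf.continuous ?_ ?_ ?_
  · refine Set.eq_univ_of_forall fun p => Set.mem_iUnion.2 ⟨⌊p.1⌋, Int.floor_le _, ?_⟩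
    exact (Int.lt_floor_add_one _).le
  · intro k
    exact (isClosed_le continuous_const continuous_fst).inter
      (isClosed_le continuous_fst continuous_const)
  · intro k
    have : Continuous (fun p : ℝ × ℝ => cexp (2 * Real.pi * I * (k : ℂ) * (p.2 : ℂ)) *
      ((1 - (p.1 - k) : ℝ) + (p.1 - k : ℝ) * cexp (2 * Real.pi * I * (p.2 : ℂ)))) := by
      fun_prop
    refine this.continuousOn.congr ?_
    rintro p ⟨hp1, hp2⟩
    exact sec_on_strip k hp1 hp2

theorem sec_eq_zero {u v : ℝ} (h : sec u v = 0) : ∃ m n : ℤ, u = m + 1 / 2 ∧ v = n + 1 / 2 := by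
  unfold sec at h
  have h1 := (mul_eq_zero.1 h).resolve_left (Complex.exp_ne_zero _)
  set f := Int.fract u with hf
  have hf0 : 0 ≤ f := Int.fract_nonneg u
  have hf1 : f < 1 := Int.fract_lt_one u
  have h2 : (f : ℂ) * cexp (2 * Real.pi * I * (v : ℂ)) = -((1 - f : ℝ) : ℂ) := by
    rw [eq_neg_iff_add_eq_zero, add_comm]; exact h1
  have h3 : ‖cexp (2 * Real.pi * I * (v : ℂ))‖ = 1 := by
    rw [show (2 * Real.pi * I * (v : ℂ)) = ((2 * Real.pi * v : ℝ) : ℂ) * I by push_cast; ring]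
    exact Complex.norm_exp_ofReal_mul_I _
  have h4 : f = 1 / 2 := by
    have := congrArg norm h2
    rw [norm_mul, h3, mul_one, norm_neg, Complex.norm_real, Complex.norm_real, Real.norm_eq_abs,
      Real.norm_eq_abs, abs_of_nonneg hf0, abs_of_nonneg (by linarith)] at this
    linarith
  have h5 : cexp (2 * Real.pi * I * (v : ℂ)) = -1 := by
    rw [h4] at h2
    push_cast at h2
    linear_combination 2 * h2
  have h6 : cexp (2 * Real.pi * I * (v : ℂ)) = cexp (Real.pi * I) := by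
    rw [h5, Complex.exp_pi_mul_I]
  obtain ⟨n, hn⟩ := Complex.exp_eq_exp_iff_exists_int.1 h6
  refine ⟨⌊u⌋, n, ?_, ?_⟩
  · have := Int.floor_add_fract u
    rw [← hf, h4] at this
    linarith
  · have h7 : (2 * Real.pi * I) * (v : ℂ) = (2 * Real.pi * I) * ((n : ℂ) + 1 / 2) := by
      rw [hn]; ring
    have h8 := mul_left_cancel₀ Complex.two_pi_I_ne_zero h7
    have h9 : ((v : ℝ) : ℂ) = (((n : ℝ) + 1 / 2 : ℝ) : ℂ) := by rw [h8]; push_cast; ring
    exact_mod_cast h9

theorem sec_near {a b : ℝ} (ha : |a| < 1 / 2) :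
    sec (1 / 2 + a) (1 / 2 + b) =
      ((1 / 2 - a) - (1 / 2 + a) * Real.cos (2 * Real.pi * b) : ℝ) +
        (-(1 / 2 + a) * Real.sin (2 * Real.pi * b) : ℝ) * I := by
  rw [abs_lt] at ha
  rw [sec_on_strip 0 (by push_cast; linarith) (by push_cast; linarith)]
  have h1 : cexp (2 * Real.pi * I * ((1 / 2 + b : ℝ) : ℂ)) =
      -(Real.cos (2 * Real.pi * b) + Real.sin (2 * Real.pi * b) * I) := by
    rw [show (2 * Real.pi * I * ((1 / 2 + b : ℝ) : ℂ)) =
      Real.pi * I + ((2 * Real.pi * b : ℝ) : ℂ) * I by push_cast; ring, Complex.exp_add,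
      Complex.exp_pi_mul_I, Complex.exp_mul_I]
    push_cast; ring
  rw [h1]
  push_cast
  simp
  ring

theorem re_im_zero {A B : ℝ} (h : (A : ℂ) + (B : ℂ) * I = 0) : A = 0 ∧ B = 0 := by
  have h1 := congrArg Complex.re h
  have h2 := congrArg Complex.im h
  simp at h1 h2
  exact ⟨h1, h2⟩

/-- the homotopy on small circles around the hole centre does not vanish -/
theorem sec_homotopy_ne_zero {r τ y : ℝ} (hr : 0 ≤ r) (hr2 : r < 1 / 2) (h0 : 0 ≤ τ) (h1 : τ ≤ 1)
    (hrt : τ < 1 → 0 < r) :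
    (1 - τ : ℝ) * sec (1 / 2 + r * Real.cos y) (1 / 2 + r * Real.sin y) +
      (-τ : ℝ) * (Real.cos y + Real.sin y * I) ≠ 0 := by
  have ha : |r * Real.cos y| < 1 / 2 := by
    rw [abs_mul, abs_of_nonneg hr]
    calc r * |Real.cos y| ≤ r * 1 := by
          exact mul_le_mul_of_nonneg_left (Real.abs_cos_le_one y) hr
      _ < 1 / 2 := by linarith
  have hb : |r * Real.sin y| < 1 / 2 := by
    rw [abs_mul, abs_of_nonneg hr]
    calc r * |Real.sin y| ≤ r * 1 := by
          exact mul_le_mul_of_nonneg_left (Real.abs_sin_le_one y) hr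
      _ < 1 / 2 := by linarith
  rw [sec_near ha]
  intro h
  obtain ⟨hre, him⟩ := @re_im_zero
    ((1 - τ) * ((1 / 2 - r * Real.cos y) -
      (1 / 2 + r * Real.cos y) * Real.cos (2 * Real.pi * (r * Real.sin y))) - τ * Real.cos y)
    ((1 - τ) * (-(1 / 2 + r * Real.cos y) * Real.sin (2 * Real.pi * (r * Real.sin y)))
      - τ * Real.sin y) (by rw [← h]; push_cast; ring)
  rw [abs_lt] at ha hb
  have hpos : 0 < 1 / 2 + r * Real.cos y := by linarith
  have hpi := Real.pi_pos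
  rcases lt_trichotomy (Real.sin y) 0 with hs | hs | hs
  · rcases eq_or_lt_of_le h1 with h1 | h1
    · rw [h1] at him; norm_num at him; linarith
    · have hr0 := hrt h1
      have h2 : Real.sin (2 * Real.pi * (r * Real.sin y)) < 0 := by
        apply Real.sin_neg_of_neg_of_neg_pi_lt
        · have : r * Real.sin y < 0 := mul_neg_of_pos_of_neg hr0 hs
          nlinarith
        · nlinarith
      have h3 : 0 < (1 - τ) * ((1 / 2 + r * Real.cos y) * -Real.sin (2 * Real.pi * (r * Real.sin y))) :=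
        mul_pos (by linarith) (mul_pos hpos (by linarith))
      nlinarith
  · rw [hs] at hre
    have hc : Real.cos y = 1 ∨ Real.cos y = -1 := by
      have := Real.sin_sq_add_cos_sq y
      rw [hs] at this
      have h2 : (Real.cos y - 1) * (Real.cos y + 1) = 0 := by nlinarith
      rcases mul_eq_zero.1 h2 with h | h
      · left; linarith
      · right; linarith
    rw [mul_zero, mul_zero, Real.cos_zero] at hre
    rcases hc with hc | hc
    · rw [hc] at hre
      have : (1 - τ) * (2 * r) + τ = 0 := by linarith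
      rcases eq_or_lt_of_le h1 with h1 | h1
      · rw [h1] at this; norm_num at this
      · have hr0 := hrt h1
        have : 0 < (1 - τ) * (2 * r) := mul_pos (by linarith) (by linarith)
        linarith
    · rw [hc] at hre
      have : (1 - τ) * (2 * r) + τ = 0 := by linarith
      rcases eq_or_lt_of_le h1 with h1 | h1
      · rw [h1] at this; norm_num at this
      · have hr0 := hrt h1
        have : 0 < (1 - τ) * (2 * r) := mul_pos (by linarith) (by linarith)
        linarith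
  · rcases eq_or_lt_of_le h1 with h1 | h1
    · rw [h1] at him; norm_num at him; linarith
    · have hr0 := hrt h1
      have h2 : 0 < Real.sin (2 * Real.pi * (r * Real.sin y)) := by
        apply Real.sin_pos_of_pos_of_lt_pi
        · have : 0 < r * Real.sin y := mul_pos hr0 hs
          nlinarith
        · nlinarith
      have h3 : 0 < (1 - τ) * ((1 / 2 + r * Real.cos y) * Real.sin (2 * Real.pi * (r * Real.sin y))) :=
        mul_pos (by linarith) (mul_pos hpos h2)
      nlinarith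

end

end Crest.Agent.R244.B4
end

-- ▼ part R244/B4Det
section

/-!
# Detection of `f₂ ≠ 1` for the 2-block manifold: the map to `Nil` on the three patches

Row 244, package B4b.  Conventions (DECISIONS v2): block 1 patch `(u,v,x)`, collar patch `(t,x,y)`,
block 2 patch `(u,v,z)`.  For `t ≤ tL` the collar point `(t,x,y)` is glued to
`(S/2 + (c1-t) cos y, S/2 + (c1-t) sin y, x)`, for `tR ≤ t` to
`(S/2 + (t+c2) cos x, S/2 + (t+c2) sin x, x+y)`.
-/

set_option autoImplicit false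

namespace Crest.Agent.R244.B4

open Complex Topology

noncomputable section

/-- total constructor for points of `NT` -/
def mkNT (w z : ℂ) : NT := (w, if h : z ≠ 0 then ⟨z, h⟩ else ⟨1, one_ne_zero⟩)

theorem mkNT_fst (w z : ℂ) : (mkNT w z).1 = w := rfl

theorem mkNT_snd (w : ℂ) {z : ℂ} (h : z ≠ 0) : (mkNT w z).2.1 = z := by
  unfold mkNT
  simp [h]

theorem continuousOn_mkNT {X : Type*} [TopologicalSpace X] {f g : X → ℂ} {s : Set X}
    (hf : ContinuousOn f s) (hg : ContinuousOn g s) (h0 : ∀ x ∈ s, g x ≠ 0) :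
    ContinuousOn (fun x => mkNT (f x) (g x)) s := by
  rw [continuousOn_iff_continuous_domRestrict] at hf hg ⊢
  have h1 : Continuous (fun x : s => (⟨g x, h0 x x.2⟩ : {z : ℂ // z ≠ 0})) :=
    Continuous.subtype_mk hg _
  have h2 : Continuous (fun x : s => (((f x : ℂ), (⟨g x, h0 x x.2⟩ : {z : ℂ // z ≠ 0})) :
      ℂ × {z : ℂ // z ≠ 0})) := Continuous.prodMk hf h1
  have h3 : (s.domRestrict fun x => mkNT (f x) (g x)) =
      (fun x : s => (((f x : ℂ), (⟨g x, h0 x x.2⟩ : {z : ℂ // z ≠ 0})) : ℂ × {z : ℂ // z ≠ 0})) := by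
    funext x
    refine NT.ext' rfl ?_
    exact mkNT_snd _ (h0 x x.2)
  rw [h3]
  exact h2

theorem continuousOn_sec {X : Type*} [TopologicalSpace X] {f g : X → ℝ} {s : Set X}
    (hf : ContinuousOn f s) (hg : ContinuousOn g s) :
    ContinuousOn (fun x => sec (f x) (g x)) s := by
  have h : ContinuousOn (fun x => (f x, g x)) s := hf.prodMk hg
  have h2 := Continuous.comp_continuousOn continuous_sec h
  have h3 : ((fun p : ℝ × ℝ => sec p.1 p.2) ∘ fun x => (f x, g x)) = fun x => sec (f x) (g x) := by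
    funext x
    rw [Function.comp_apply]
  rw [← h3]
  exact h2

/-- the map on block 1 -/
def nil1 (S u v x : ℝ) : Nil :=
  nilMk (mkNT ((u / S : ℝ) + (v / S : ℝ) * I) (cexp (x * I) * sec (u / S) (v / S)))

/-- the interpolation parameter -/
def ctau (tL tR t : ℝ) : ℝ := max 0 (min 1 ((t - tL) / (tR - tL)))

/-- the radius -/
def crad (c1 tL tR t : ℝ) : ℝ := (c1 - min t tL) * (1 - ctau tL tR t)

/-- the fibre coordinate on the collar -/
def cz (S c1 tL tR t y : ℝ) : ℂ :=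
  (1 - ctau tL tR t : ℝ) * sec (1 / 2 + crad c1 tL tR t / S * Real.cos y)
    (1 / 2 + crad c1 tL tR t / S * Real.sin y) +
    (-ctau tL tR t : ℝ) * (Real.cos y + Real.sin y * I)

/-- the map on the collar -/
def nilC (S c1 tL tR t x y : ℝ) : Nil :=
  nilMk (mkNT ((1 / 2 + crad c1 tL tR t / S * Real.cos y : ℝ) +
    (1 / 2 + crad c1 tL tR t / S * Real.sin y : ℝ) * I) (cexp (x * I) * cz S c1 tL tR t y))

/-- the map on block 2 -/
def nil2 (z : ℝ) : Nil :=
  nilMk ((1 / 2 + 1 / 2 * I : ℂ), ⟨cexp ((Real.pi + z : ℝ) * I), Complex.exp_ne_zero _⟩)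

theorem sec_ne_zero_of {S u v : ℝ} (hS : 0 < S)
    (h : ∀ m n : ℤ, ¬ (u = S / 2 + S * m ∧ v = S / 2 + S * n)) : sec (u / S) (v / S) ≠ 0 := by
  intro h0
  obtain ⟨m, n, h1, h2⟩ := sec_eq_zero h0
  refine h m n ⟨?_, ?_⟩
  · rw [div_eq_iff hS.ne'] at h1; rw [h1]; ring
  · rw [div_eq_iff hS.ne'] at h2; rw [h2]; ring

theorem nil1_period {S u v : ℝ} (hS : 0 < S)
    (h : ∀ m n : ℤ, ¬ (u = S / 2 + S * m ∧ v = S / 2 + S * n)) (x : ℝ) (k l n : ℤ) :
    nil1 S (u + S * k) (v + S * l) (x + 2 * Real.pi * n) = nil1 S u v x := by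
  have hs := sec_ne_zero_of hS h
  have h1 : (u + S * k) / S = u / S + k := by field_simp
  have h2 : (v + S * l) / S = v / S + l := by field_simp
  have h3 : cexp (((x + 2 * Real.pi * n : ℝ) : ℂ) * I) = cexp (x * I) := by
    rw [show (((x + 2 * Real.pi * n : ℝ) : ℂ) * I) = x * I + (n : ℂ) * (2 * Real.pi * I) by
      push_cast; ring, Complex.exp_add, Complex.exp_int_mul_two_pi_mul_I, mul_one]
  unfold nil1
  rw [h1, h2, h3, sec_add_int_right, sec_add_int]
  refine nilMk_eq_of k l ?_ ?_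
  · rw [mkNT_fst, mkNT_fst]; push_cast; ring
  · rw [mkNT_snd, mkNT_snd, mkNT_fst]
    · have : ((((u / S : ℝ) : ℂ) + ((v / S : ℝ) : ℂ) * I).im) = v / S := by simp
      rw [this]; ring
    · exact mul_ne_zero (Complex.exp_ne_zero _) hs
    · exact mul_ne_zero (Complex.exp_ne_zero _) (mul_ne_zero (Complex.exp_ne_zero _) hs)

theorem continuousOn_nil1 {S : ℝ} (hS : 0 < S) {X : Type*} [TopologicalSpace X] {u v x : X → ℝ}
    {s : Set X} (hu : ContinuousOn u s) (hv : ContinuousOn v s) (hx : ContinuousOn x s)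
    (h : ∀ p ∈ s, ∀ m n : ℤ, ¬ (u p = S / 2 + S * m ∧ v p = S / 2 + S * n)) :
    ContinuousOn (fun p => nil1 S (u p) (v p) (x p)) s := by
  unfold nil1
  refine continuous_nilMk.comp_continuousOn (continuousOn_mkNT ?_ ?_ ?_)
  · fun_prop
  · refine ContinuousOn.mul (by fun_prop) ?_
    exact continuousOn_sec (by fun_prop) (by fun_prop)
  · intro p hp
    exact mul_ne_zero (Complex.exp_ne_zero _) (sec_ne_zero_of hS (h p hp))

theorem ctau_nonneg (tL tR t : ℝ) : 0 ≤ ctau tL tR t := le_max_left _ _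

theorem ctau_le_one (tL tR t : ℝ) : ctau tL tR t ≤ 1 :=
  max_le zero_le_one (min_le_left _ _)

theorem ctau_left {tL tR t : ℝ} (h : tL < tR) (ht : t ≤ tL) : ctau tL tR t = 0 := by
  unfold ctau
  apply max_eq_left
  refine (min_le_right _ _).trans ?_
  exact div_nonpos_of_nonpos_of_nonneg (by linarith) (by linarith)

theorem ctau_right {tL tR t : ℝ} (h : tL < tR) (ht : tR ≤ t) : ctau tL tR t = 1 := by
  unfold ctau
  have : 1 ≤ (t - tL) / (tR - tL) := by
    rw [le_div_iff₀ (by linarith)]; linarith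
  rw [min_eq_left this]
  norm_num

theorem crad_nonneg {c1 tL tR t : ℝ} (hc : tL ≤ c1) : 0 ≤ crad c1 tL tR t := by
  unfold crad
  refine mul_nonneg ?_ (by linarith [ctau_le_one tL tR t])
  linarith [min_le_right t tL]

theorem crad_lt {S c1 tL tR t : ℝ} (hc : tL ≤ c1) (h1 : c1 - tL < S / 2) (h2 : c1 - t < S / 2) :
    crad c1 tL tR t < S / 2 := by
  unfold crad
  have h3 : 0 ≤ c1 - min t tL := by linarith [min_le_right t tL]
  have h4 : c1 - min t tL < S / 2 := by
    rcases min_choice t tL with h | h <;> rw [h] <;> assumption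
  have h5 := ctau_le_one tL tR t
  have h6 := ctau_nonneg tL tR t
  nlinarith

theorem crad_pos {c1 tL tR t : ℝ} (hc : tL < c1) (h : ctau tL tR t < 1) :
    0 < crad c1 tL tR t := by
  unfold crad
  exact mul_pos (by linarith [min_le_right t tL]) (by linarith)

theorem cz_ne_zero {S c1 tL tR t : ℝ} (hS : 0 < S) (hc : tL < c1) (h1 : c1 - tL < S / 2)
    (h2 : c1 - t < S / 2) (y : ℝ) : cz S c1 tL tR t y ≠ 0 := by
  unfold cz
  refine sec_homotopy_ne_zero (div_nonneg (crad_nonneg hc.le) hS.le) ?_ (ctau_nonneg _ _ _)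
    (ctau_le_one _ _ _) ?_
  · rw [div_lt_iff₀ hS]; linarith [crad_lt (tR := tR) hc.le h1 h2]
  · intro h; exact div_pos (crad_pos hc h) hS

theorem continuous_ctau (tL tR : ℝ) : Continuous (ctau tL tR) := by
  unfold ctau; fun_prop

theorem continuous_crad (c1 tL tR : ℝ) : Continuous (crad c1 tL tR) := by
  unfold crad
  have := continuous_ctau tL tR
  fun_prop

theorem continuousOn_nilC {S c1 tL tR : ℝ} (hS : 0 < S) (hc : tL < c1) (h1 : c1 - tL < S / 2)
    {X : Type*} [TopologicalSpace X] {t x y : X → ℝ} {s : Set X} (ht : ContinuousOn t s)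
    (hx : ContinuousOn x s) (hy : ContinuousOn y s) (h2 : ∀ p ∈ s, c1 - t p < S / 2) :
    ContinuousOn (fun p => nilC S c1 tL tR (t p) (x p) (y p)) s := by
  unfold nilC
  have hr : ContinuousOn (fun p => crad c1 tL tR (t p)) s :=
    (continuous_crad c1 tL tR).comp_continuousOn ht
  have hτ : ContinuousOn (fun p => ctau tL tR (t p)) s :=
    (continuous_ctau tL tR).comp_continuousOn ht
  have hcos : ContinuousOn (fun p => Real.cos (y p)) s := Real.continuous_cos.comp_continuousOn hy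
  have hsin : ContinuousOn (fun p => Real.sin (y p)) s := Real.continuous_sin.comp_continuousOn hy
  refine continuous_nilMk.comp_continuousOn (continuousOn_mkNT ?_ ?_ ?_)
  · fun_prop
  · refine ContinuousOn.mul (by fun_prop) ?_
    unfold cz
    have h3 : ContinuousOn (fun p => sec (1 / 2 + crad c1 tL tR (t p) / S * Real.cos (y p))
        (1 / 2 + crad c1 tL tR (t p) / S * Real.sin (y p))) s :=
      continuousOn_sec (by fun_prop) (by fun_prop)
    fun_prop
  · intro p hp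
    exact mul_ne_zero (Complex.exp_ne_zero _) (cz_ne_zero hS hc h1 (h2 p hp) _)

theorem exp_period (x : ℝ) (n : ℤ) :
    cexp (((x + 2 * Real.pi * n : ℝ) : ℂ) * I) = cexp (x * I) := by
  rw [show (((x + 2 * Real.pi * n : ℝ) : ℂ) * I) = x * I + (n : ℂ) * (2 * Real.pi * I) by
    push_cast; ring, Complex.exp_add, Complex.exp_int_mul_two_pi_mul_I, mul_one]

theorem nilC_period (S c1 tL tR t x y : ℝ) (m n : ℤ) :
    nilC S c1 tL tR t (x + 2 * Real.pi * m) (y + 2 * Real.pi * n) = nilC S c1 tL tR t x y := by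
  have h1 : Real.cos (y + 2 * Real.pi * n) = Real.cos y := by
    rw [show y + 2 * Real.pi * n = y + n * (2 * Real.pi) by ring, Real.cos_add_int_mul_two_pi]
  have h2 : Real.sin (y + 2 * Real.pi * n) = Real.sin y := by
    rw [show y + 2 * Real.pi * n = y + n * (2 * Real.pi) by ring, Real.sin_add_int_mul_two_pi]
  unfold nilC cz
  rw [exp_period, h1, h2]

theorem nil2_period (z : ℝ) (n : ℤ) : nil2 (z + 2 * Real.pi * n) = nil2 z := by
  unfold nil2
  congr 1
  refine NT.ext' rfl ?_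
  change cexp (((Real.pi + (z + 2 * Real.pi * n) : ℝ) : ℂ) * I) = cexp (((Real.pi + z : ℝ) : ℂ) * I)
  rw [← add_assoc, exp_period]

theorem continuous_nil2 : Continuous nil2 := by
  unfold nil2
  refine continuous_nilMk.comp ?_
  change Continuous (fun z : ℝ => (((1 / 2 + 1 / 2 * I : ℂ),
    ⟨cexp ((Real.pi + z : ℝ) * I), Complex.exp_ne_zero _⟩) : ℂ × {z : ℂ // z ≠ 0}))
  fun_prop

/-- gluing on the left end -/
theorem nilC_left {S c1 tL tR t : ℝ} (hS : 0 < S) (h : tL < tR) (ht : t ≤ tL) (x y : ℝ) :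
    nilC S c1 tL tR t x y =
      nil1 S (S / 2 + (c1 - t) * Real.cos y) (S / 2 + (c1 - t) * Real.sin y) x := by
  unfold nilC nil1 cz
  have h1 : crad c1 tL tR t = c1 - t := by
    unfold crad; rw [ctau_left h ht, min_eq_left ht]; ring
  rw [h1, ctau_left h ht]
  have h2 : 1 / 2 + (c1 - t) / S * Real.cos y = (S / 2 + (c1 - t) * Real.cos y) / S := by
    field_simp
  have h3 : 1 / 2 + (c1 - t) / S * Real.sin y = (S / 2 + (c1 - t) * Real.sin y) / S := by
    field_simp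
  rw [h2, h3]
  norm_num

/-- gluing on the right end -/
theorem nilC_right {S c1 tL tR t : ℝ} (h : tL < tR) (ht : tR ≤ t) (x y : ℝ) :
    nilC S c1 tL tR t x y = nil2 (x + y) := by
  unfold nilC nil2 cz
  have h1 : crad c1 tL tR t = 0 := by
    unfold crad; rw [ctau_right h ht]; ring
  rw [h1, ctau_right h ht]
  have h2 : cexp (x * I) * (((1 - 1 : ℝ) : ℂ) * sec (1 / 2 + 0 / S * Real.cos y)
      (1 / 2 + 0 / S * Real.sin y) + ((-1 : ℝ) : ℂ) * (Real.cos y + Real.sin y * I)) =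
      cexp (((Real.pi + (x + y) : ℝ) : ℂ) * I) := by
    rw [show (((Real.pi + (x + y) : ℝ) : ℂ) * I) = Real.pi * I + (x * I + y * I) by
      push_cast; ring, Complex.exp_add, Complex.exp_add, Complex.exp_pi_mul_I,
      Complex.exp_mul_I (y : ℂ)]
    push_cast; ring
  congr 1
  refine NT.ext' ?_ ?_
  · rw [mkNT_fst]; push_cast; ring
  · rw [mkNT_snd]
    · exact h2
    · rw [h2]; exact Complex.exp_ne_zero _

variable {M : Type*} [TopologicalSpace M] [PathConnectedSpace M]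

/-- **Detection**, final form: if `F : M → Nil` is `nil2 (x + y)` on the loop `y ↦ Γ y`, then the
loop is nontrivial. -/
theorem th_ne_one_of_nil2 (x0 : M) (Γ : C(ℝ, M)) (a x : ℝ) (F : C(M, Nil))
    (hF : ∀ y : ℝ, F (Γ y) = nil2 (x + y)) (hΓ : Γ (a + 2 * Real.pi) = Γ a) :
    th x0 Γ a (a + 2 * Real.pi) ≠ 1 := by
  refine th_ne_one_of_nil x0 Γ a F (1 / 2 + 1 / 2 * I) (Real.pi + x) (fun y => ?_) hΓ
  rw [hF]
  unfold nil2
  congr 1
  refine NT.ext' rfl ?_
  change cexp (((Real.pi + (x + y) : ℝ) : ℂ) * I) = cexp (((Real.pi + x + y : ℝ) : ℂ) * I)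
  rw [add_assoc]

end

end Crest.Agent.R244.B4
end

-- ▼ part R244/B4Ne

/-!
# The `y`-loop of the collar is not null-homotopic (row 244, package B4b)
-/

set_option autoImplicit false

namespace Crest.Agent.R244.B4

open Complex Topology unitInterval

noncomputable section

variable {M : Type*} [TopologicalSpace M] [PathConnectedSpace M]

theorem th_eq_one_of_null {E : Type*} [TopologicalSpace E] [SimplyConnectedSpace E] (x0 : M)
    (Γ : C(E, M)) (p q : E) (h : Null Γ q p) : th x0 Γ p q = 1 := by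
  obtain ⟨h1, h2⟩ := h
  unfold th
  rw [← Th_cast x0 ((cl q p).map Γ) rfl h1, h2]
  rw [FundamentalGroup.one_def]
  unfold Th FundamentalGroup.fromPath FundamentalGroup.fromArrow
  simp

omit [PathConnectedSpace M] in
theorem null_of_path (Γ : C(ℝ, M)) (p q : ℝ) (h : Γ p = Γ q) (γ : Path (Γ p) (Γ p))
    (hγ : ∀ s : I, γ s = Γ (p + (q - p) * s)) (hn : γ.Homotopic (Path.refl _)) :
    Null Γ p q := by
  refine ⟨h, ?_⟩
  let δ : Path p q :=
    ⟨⟨fun s : I => p + (q - p) * s, by fun_prop⟩, by simp, by simp⟩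
  have h1 : cl p q = Path.Homotopic.Quotient.mk δ := Subsingleton.elim _ _
  rw [h1, ← Path.Homotopic.Quotient.mk_map, ← Path.Homotopic.Quotient.mk_cast]
  have h2 : (δ.map Γ.continuous).cast rfl h = γ := by
    ext s
    exact (hγ s).symm
  rw [h2]
  exact Path.Homotopic.Quotient.eq.2 hn

/-- **Output of B4b.** -/
theorem not_homotopic_refl_of_nil (K : ℝ × ℝ × ℝ → M) (t0 t1 : ℝ) (hT : t0 ≤ t1)
    (hK : ContinuousOn K {p | t0 ≤ p.1 ∧ p.1 ≤ t1})
    (hper : ∀ t y : ℝ, t0 ≤ t → t ≤ t1 → K (t, 0, y + 2 * Real.pi) = K (t, 0, y))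
    (F : C(M, Nil)) (hF : ∀ y : ℝ, F (K (t1, 0, y)) = nil2 y)
    (γ : Path (K (t0, 0, 0)) (K (t0, 0, 0))) (hγ : ∀ s : I, γ s = K (t0, 0, 2 * Real.pi * s)) :
    ¬ γ.Homotopic (Path.refl _) := by
  intro hn
  let x0 : M := K (t0, 0, 0)
  have : ContractibleSpace (Set.Icc t0 t1) :=
    (convex_Icc t0 t1).contractibleSpace ⟨t0, le_rfl, hT⟩
  let Kc : C(Set.Icc t0 t1 × ℝ, M) := ⟨fun p => K (p.1, 0, p.2), by
    rw [← continuousOn_univ]
    refine hK.comp (f := fun p : Set.Icc t0 t1 × ℝ => (((p.1 : ℝ), (0 : ℝ), p.2) : ℝ × ℝ × ℝ))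
      (by fun_prop) ?_
    intro p _
    exact p.1.2⟩
  let i0 : Set.Icc t0 t1 := ⟨t0, le_rfl, hT⟩
  let i1 : Set.Icc t0 t1 := ⟨t1, hT, le_rfl⟩
  let G0 : C(ℝ, M) := Kc.comp ⟨fun y => (i0, y), by fun_prop⟩
  let G1 : C(ℝ, M) := Kc.comp ⟨fun y => (i1, y), by fun_prop⟩
  have e0 : th x0 G0 0 (0 + 2 * Real.pi) = th x0 Kc (i0, 0) (i0, 0 + 2 * Real.pi) := th_comp _ _ _ _ _
  have e1 : th x0 G1 0 (0 + 2 * Real.pi) = th x0 Kc (i1, 0) (i1, 0 + 2 * Real.pi) := th_comp _ _ _ _ _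
  have e2 : th x0 Kc (i0, 0) (i1, 0) =
      th x0 Kc (i0, 0 + 2 * Real.pi) (i1, 0 + 2 * Real.pi) := by
    have h1 : th x0 (Kc.comp (⟨fun t => (t, 0), by fun_prop⟩ : C(Set.Icc t0 t1, _))) i0 i1 =
        th x0 Kc (i0, 0) (i1, 0) := th_comp _ _ _ _ _
    have h2 : th x0 (Kc.comp (⟨fun t => (t, 0 + 2 * Real.pi), by fun_prop⟩ :
        C(Set.Icc t0 t1, _))) i0 i1 =
        th x0 Kc (i0, 0 + 2 * Real.pi) (i1, 0 + 2 * Real.pi) := th_comp _ _ _ _ _
    rw [← h1, ← h2]
    congr 1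
    ext t
    exact (hper t 0 t.2.1 t.2.2).symm
  have e3 : th x0 G0 0 (0 + 2 * Real.pi) * th x0 Kc (i0, 0) (i1, 0) =
      th x0 Kc (i0, 0) (i1, 0) * th x0 G1 0 (0 + 2 * Real.pi) := by
    rw [e0, e1, th_mul]
    nth_rw 1 [e2]
    rw [th_mul]
  have hG0 : G0 0 = G0 (0 + 2 * Real.pi) := (hper t0 0 le_rfl hT).symm
  have hnull : Null G0 0 (0 + 2 * Real.pi) := by
    refine null_of_path G0 0 (0 + 2 * Real.pi) hG0 γ ?_ hn
    intro s
    rw [hγ]
    change K (t0, 0, 2 * Real.pi * (s : ℝ)) = K (t0, 0, 0 + (0 + 2 * Real.pi - 0) * (s : ℝ))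
    congr 3
    ring
  have h1 : th x0 G0 (0 + 2 * Real.pi) 0 = 1 := th_eq_one_of_null _ _ _ _ hnull
  have h2 : th x0 G0 0 (0 + 2 * Real.pi) = 1 := by
    rw [← th_inv, h1, inv_one]
  rw [h2, one_mul] at e3
  have h3 : th x0 G1 0 (0 + 2 * Real.pi) = 1 := (mul_eq_left.mp e3.symm)
  refine th_ne_one_of_nil2 x0 G1 0 0 F (fun y => ?_) (hper t1 0 hT le_rfl) h3
  rw [zero_add]
  exact hF y

end

end Crest.Agent.R244.B4
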