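import Mathlib
import Crest.Prelude.Def_Geodesic
import Crest.Agent.R244.CFCoord

/-!
# R244, package CF: invariance of the geodesic / Jacobi equations and of `secNumer`
under local isometries, in the language of the Prelude.
-/

set_option autoImplicit false
set_option maxSynthPendingDepth 3

open scoped ContDiff Topology
open Crest.GeometryTopology.CoordMetric Crest.GeometryTopology.ChartCurvature
open Crest.GeometryTopology.Geodesic

namespace Crest.Agent.R244.CF

section Aux

variable {E : Type*} [NormedAddCommGroup E] [NormedSpace ℝ E]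

theorem ev_differentiableAt {c : ℝ → E} {t : ℝ} (h : ContDiffAt ℝ 2 c t) :
    ∀ᶠ s in 𝓝 t, DifferentiableAt ℝ c s := by
  filter_upwards [h.eventually (by simp)] with s hs using hs.differentiableAt (by simp)

theorem differentiableAt_deriv {c : ℝ → E} {t : ℝ} (h : ContDiffAt ℝ 2 c t) :
    DifferentiableAt ℝ (deriv c) t := by
  have h1 : ContDiffAt ℝ 1 (fderiv ℝ c) t := h.fderiv_right (m := 1) (by norm_num)
  have h2 : DifferentiableAt ℝ (fderiv ℝ c) t := h1.differentiableAt (by simp)
  have h3 : deriv c = fun s => fderiv ℝ c s 1 := rfl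
  rw [h3]
  exact h2.clm_apply (differentiableAt_const _)

theorem differentiableAt_cov {U : Set E} {g : E → E →L[ℝ] E →L[ℝ] ℝ}
    {Γ : E → E →L[ℝ] E →L[ℝ] E} (h : IsLC U g Γ) {c V : ℝ → E} {t : ℝ} (hx : c t ∈ U)
    (hc : DifferentiableAt ℝ c t) (hc' : DifferentiableAt ℝ (deriv c) t)
    (hV : DifferentiableAt ℝ V t) (hV' : DifferentiableAt ℝ (deriv V) t) :
    DifferentiableAt ℝ (cov Γ c V) t := by
  have h1 : HasDerivAt (fun s => Γ (c s)) (fderiv ℝ Γ (c t) (deriv c t)) t :=
    (h.Γ_differentiableAt hx).hasFDerivAt.comp_hasDerivAt t hc.hasDerivAt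
  exact (hV'.hasDerivAt.add
    (hasDerivAt_apply2 h1 hc'.hasDerivAt hV.hasDerivAt)).differentiableAt

end Aux

variable {n : ℕ} {g g' : MetricField n} {U U' : Set (EuclideanSpace ℝ (Fin n))}
  {φ : EuclideanSpace ℝ (Fin n) → EuclideanSpace ℝ (Fin n)}

/-- the derivative of a local isometry between open sets of `ℝⁿ` is injective -/
theorem LocIsoAt.injective {x : EuclideanSpace ℝ (Fin n)}
    (h : LocIsoAt U (gB g) U' (gB g') φ x) : Function.Injective (fderiv ℝ φ x) :=
  (LinearMap.injective_iff_surjective (f := (fderiv ℝ φ x : EuclideanSpace ℝ (Fin n) →ₗ[ℝ]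
    EuclideanSpace ℝ (Fin n)))).2 h.surj.self_of_nhds

/-- Invariance of the geodesic equation. -/
theorem geodesicEqAt_comp (h : IsRiemannianOn g U) (h' : IsRiemannianOn g' U')
    {c : ℝ → EuclideanSpace ℝ (Fin n)} {t : ℝ} (hφ : LocIsoAt U (gB g) U' (gB g') φ (c t))
    (hc : ContDiffAt ℝ 2 c t) :
    GeodesicEqAt g' (fun s => φ (c s)) t ↔ GeodesicEqAt g c t := by
  rw [geodesicEqAt_iff, geodesicEqAt_iff, hφ.geodesic (isLC_of_isRiemannianOn h)
    (isLC_of_isRiemannianOn h') (ev_differentiableAt hc) (differentiableAt_deriv hc)]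
  constructor
  · intro h0
    exact hφ.injective (by rw [h0, map_zero])
  · intro h0
    rw [h0, map_zero]

/-- Invariance of the Jacobi equation. -/
theorem jacobiEqAt_comp (h : IsRiemannianOn g U) (h' : IsRiemannianOn g' U')
    {c V : ℝ → EuclideanSpace ℝ (Fin n)} {t : ℝ} (hφ : LocIsoAt U (gB g) U' (gB g') φ (c t))
    (hc : ContDiffAt ℝ 2 c t) (hV : ContDiffAt ℝ 2 V t) :
    JacobiEqAt g' (fun s => φ (c s)) (fun s => fderiv ℝ φ (c s) (V s)) t ↔ JacobiEqAt g c V t := by
  have hL := isLC_of_isRiemannianOn h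
  have hL' := isLC_of_isRiemannianOn h'
  rw [jacobiEqAt_iff h' (c := fun s => φ (c s)) hφ.mem', jacobiEqAt_iff h hφ.mem]
  have hcV := differentiableAt_cov hL hφ.mem (ev_differentiableAt hc).self_of_nhds
    (differentiableAt_deriv hc) (ev_differentiableAt hV).self_of_nhds (differentiableAt_deriv hV)
  rw [hφ.cov_cov hL hL' (ev_differentiableAt hc) (ev_differentiableAt hV) hcV,
    hφ.deriv_comp (ev_differentiableAt hc).self_of_nhds]
  show _ + curv (Gam g') (φ (c t)) _ _ _ = 0 ↔ _
  rw [← hφ.curv hL hL', ← map_add]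
  constructor
  · intro h0
    exact hφ.injective (by rw [h0, map_zero])
  · intro h0
    rw [h0, map_zero]




end Crest.Agent.R244.CF
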