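import Mathlib
import Crest.Agent.Lib.ODEFlow

-- ▼ part R244/Jac
section

/-!
Coordinate-free local Riemannian calculus: metric compatibility, Jacobi fields and the
infinitesimal CN inequality for the geodesic "midpoint" of a two-point family.
-/

open Set Filter Topology
open scoped ContDiff

namespace Crest.Agent.R244

section

variable {E : Type*} [NormedAddCommGroup E] [NormedSpace ℝ E]

/-- Coordinate-free curvature of the connection `G`:
`R(u,v)w = (DG.u)(v,w) - (DG.v)(u,w) + G(u,G(v,w)) - G(v,G(u,w))`. -/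
noncomputable def curv (G : E → E →L[ℝ] E →L[ℝ] E) (x u v w : E) : E :=
  fderiv ℝ G x u v w - fderiv ℝ G x v u w + G x u (G x v w) - G x v (G x u w)

/-- Local Riemannian data on an open set `U` of a normed space: a smooth metric `g`, a smooth
symmetric connection `G` compatible with it, with nonpositive sectional curvature. -/
structure IsNPCData (U : Set E) (g : E → E →L[ℝ] E →L[ℝ] ℝ) (G : E → E →L[ℝ] E →L[ℝ] E) :
    Prop where
  isOpen : IsOpen U
  contDiffOn_g : ContDiffOn ℝ ∞ g U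
  contDiffOn_G : ContDiffOn ℝ ∞ G U
  symm_g : ∀ x ∈ U, ∀ u v, g x u v = g x v u
  pos_g : ∀ x ∈ U, ∀ u, u ≠ 0 → 0 < g x u u
  symm_G : ∀ x ∈ U, ∀ u v, G x u v = G x v u
  compat : ∀ x ∈ U, ∀ u v w, fderiv ℝ g x u v w = g x (G x u v) w + g x v (G x u w)
  curv_nonpos : ∀ x ∈ U, ∀ u v, g x (curv G x u v v) u ≤ 0

/-- A real function on `[0,1]` with second derivative at least `2κ` satisfies the midpoint
inequality `f (1/2) ≤ (f 0 + f 1)/2 - κ/4`. -/
theorem midpoint_le_of_deriv2 {f f' f'' : ℝ → ℝ} {κ : ℝ}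
    (hf : ∀ s ∈ Icc (0:ℝ) 1, HasDerivAt f (f' s) s)
    (hf' : ∀ s ∈ Icc (0:ℝ) 1, HasDerivAt f' (f'' s) s)
    (h : ∀ s ∈ Icc (0:ℝ) 1, 2 * κ ≤ f'' s) :
    f (1/2) ≤ (f 0 + f 1) / 2 - κ / 4 := by
  have hconv : ConvexOn ℝ (Icc (0:ℝ) 1) (fun s => f s - κ * s ^ 2) := by
    have hd : ∀ s ∈ Icc (0:ℝ) 1, HasDerivAt (fun s => f s - κ * s ^ 2) (f' s - κ * (2 * s)) s := by
      intro s hs
      have h1 := hf s hs
      have h2 : HasDerivAt (fun s : ℝ => κ * s ^ 2) (κ * (2 * s)) s := by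
        have := (hasDerivAt_pow 2 s).const_mul κ
        simpa using this
      exact h1.sub h2
    have hd' : ∀ s ∈ Icc (0:ℝ) 1,
        HasDerivAt (fun s => f' s - κ * (2 * s)) (f'' s - κ * 2) s := by
      intro s hs
      have h1 := hf' s hs
      have h2 : HasDerivAt (fun s : ℝ => κ * (2 * s)) (κ * 2) s := by
        have := ((hasDerivAt_id s).const_mul (2:ℝ)).const_mul κ
        simpa using this
      exact h1.sub h2
    apply MonotoneOn.convexOn_of_deriv (convex_Icc 0 1)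
    · exact fun s hs => (hd s hs).continuousAt.continuousWithinAt
    · exact fun s hs => (hd s (interior_subset hs)).differentiableAt.differentiableWithinAt
    · rw [interior_Icc]
      have : MonotoneOn (fun s => f' s - κ * (2 * s)) (Ioo 0 1) := by
        apply monotoneOn_of_deriv_nonneg (convex_Ioo 0 1)
        · exact fun s hs => (hd' s (Ioo_subset_Icc_self hs)).continuousAt.continuousWithinAt
        · intro s hs
          rw [interior_Ioo] at hs
          exact (hd' s (Ioo_subset_Icc_self hs)).differentiableAt.differentiableWithinAt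
        · intro s hs
          rw [interior_Ioo] at hs
          rw [(hd' s (Ioo_subset_Icc_self hs)).deriv]
          have := h s (Ioo_subset_Icc_self hs)
          linarith
      intro a ha b hb hab
      rw [(hd a (Ioo_subset_Icc_self ha)).deriv, (hd b (Ioo_subset_Icc_self hb)).deriv]
      exact this ha hb hab
  have := hconv.2 (left_mem_Icc.2 zero_le_one) (right_mem_Icc.2 zero_le_one)
    (show (0:ℝ) ≤ 1/2 by norm_num) (show (0:ℝ) ≤ 1/2 by norm_num) (by norm_num)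
  simp only [smul_eq_mul] at this
  norm_num at this
  norm_num
  linarith

/-- Derivative of `s ↦ g (c s) (v s) (w s)`. -/
theorem hasDerivAt_metric {g : E → E →L[ℝ] E →L[ℝ] ℝ} {c v w : ℝ → E} {c' v' w' : E} {s : ℝ}
    (hg : DifferentiableAt ℝ g (c s))
    (hc : HasDerivAt c c' s) (hv : HasDerivAt v v' s) (hw : HasDerivAt w w' s) :
    HasDerivAt (fun s => g (c s) (v s) (w s))
      (fderiv ℝ g (c s) c' (v s) (w s) + g (c s) v' (w s) + g (c s) (v s) w') s := by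
  have h1 : HasDerivAt (fun s => g (c s)) (fderiv ℝ g (c s) c') s :=
    (HasFDerivAt.comp_hasDerivAt (l := g) s hg.hasFDerivAt hc :)
  have h2 := h1.clm_apply hv
  have h3 := h2.clm_apply hw
  simpa [add_assoc] using h3

variable {F : Type*} [NormedAddCommGroup F] [NormedSpace ℝ F] in
/-- Derivative of `s ↦ G (c s) (v s) (w s)`. -/
theorem hasDerivAt_bilin {G : E → E →L[ℝ] E →L[ℝ] F} {c v w : ℝ → E} {c' v' w' : E} {s : ℝ}
    (hg : DifferentiableAt ℝ G (c s))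
    (hc : HasDerivAt c c' s) (hv : HasDerivAt v v' s) (hw : HasDerivAt w w' s) :
    HasDerivAt (fun s => G (c s) (v s) (w s))
      (fderiv ℝ G (c s) c' (v s) (w s) + G (c s) v' (w s) + G (c s) (v s) w') s := by
  have h1 : HasDerivAt (fun s => G (c s)) (fderiv ℝ G (c s) c') s :=
    (HasFDerivAt.comp_hasDerivAt (l := G) s hg.hasFDerivAt hc :)
  have h2 := h1.clm_apply hv
  have h3 := h2.clm_apply hw
  simpa [add_assoc] using h3

/-- Metric compatibility along a curve: `g(v,w)' = g(v' + G(c',v), w) + g(v, w' + G(c',w))`. -/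
theorem IsNPCData.hasDerivAt_metric_cov {U : Set E} {g : E → E →L[ℝ] E →L[ℝ] ℝ}
    {G : E → E →L[ℝ] E →L[ℝ] E} (h : IsNPCData U g G) {c v w : ℝ → E} {c' v' w' : E} {s : ℝ}
    (hU : c s ∈ U)
    (hc : HasDerivAt c c' s) (hv : HasDerivAt v v' s) (hw : HasDerivAt w w' s) :
    HasDerivAt (fun s => g (c s) (v s) (w s))
      (g (c s) (v' + G (c s) c' (v s)) (w s) + g (c s) (v s) (w' + G (c s) c' (w s))) s := by
  have hg : DifferentiableAt ℝ g (c s) :=
    (h.contDiffOn_g.contDiffAt (h.isOpen.mem_nhds hU)).differentiableAt (by simp)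
  have := hasDerivAt_metric hg hc hv hw
  rw [h.compat _ hU] at this
  convert this using 1
  simp only [map_add, add_apply]
  ring

theorem IsNPCData.differentiableAt_G {U : Set E} {g : E → E →L[ℝ] E →L[ℝ] ℝ}
    {G : E → E →L[ℝ] E →L[ℝ] E} (h : IsNPCData U g G) {x : E} (hx : x ∈ U) :
    DifferentiableAt ℝ G x :=
  (h.contDiffOn_G.contDiffAt (h.isOpen.mem_nhds hx)).differentiableAt (by simp)

theorem IsNPCData.differentiableAt_g {U : Set E} {g : E → E →L[ℝ] E →L[ℝ] ℝ}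
    {G : E → E →L[ℝ] E →L[ℝ] E} (h : IsNPCData U g G) {x : E} (hx : x ∈ U) :
    DifferentiableAt ℝ g x :=
  (h.contDiffOn_g.contDiffAt (h.isOpen.mem_nhds hx)).differentiableAt (by simp)

/-- The derivative of a symmetric connection is symmetric in the last two slots. -/
theorem IsNPCData.symm_fderiv_G {U : Set E} {g : E → E →L[ℝ] E →L[ℝ] ℝ}
    {G : E → E →L[ℝ] E →L[ℝ] E} (h : IsNPCData U g G) {x : E} (hx : x ∈ U) (u v w : E) :
    fderiv ℝ G x u v w = fderiv ℝ G x u w v := by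
  have hG := h.differentiableAt_G hx
  have key : ∀ v w : E, HasDerivAt (fun t : ℝ => G (x + t • u) v w) (fderiv ℝ G x u v w) 0 := by
    intro v w
    have hc : HasDerivAt (fun t : ℝ => x + t • u) u 0 := by
      simpa using ((hasDerivAt_id (0:ℝ)).smul_const u).const_add x
    have := hasDerivAt_bilin (G := G) (c := fun t : ℝ => x + t • u) (v := fun _ => v)
      (w := fun _ => w) (s := 0) (by simpa using hG) hc (hasDerivAt_const _ _)
      (hasDerivAt_const _ _)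
    simpa using this
  have h1 := key v w
  have h2 := key w v
  have : (fun t : ℝ => G (x + t • u) v w) =ᶠ[𝓝 0] (fun t : ℝ => G (x + t • u) w v) := by
    have hcont : ContinuousAt (fun t : ℝ => x + t • u) 0 := by fun_prop
    have := hcont.preimage_mem_nhds (by simpa using h.isOpen.mem_nhds hx)
    filter_upwards [this] with t ht
    exact h.symm_G _ ht _ _
  exact (h1.congr_of_eventuallyEq this.symm).unique h2

/-- Second covariant derivative of a Jacobi field. `w = c'`, `J' = K`, with `c'' = -G(c',c')` and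
`K' = -(DG.J)(w,w) - 2 G(w,K)` (the linearised geodesic equation). Then `A = K + G(w,J)`
satisfies `A' + G(w,A) = -R(J,w)w`. -/
theorem IsNPCData.hasDerivAt_cov {U : Set E} {g : E → E →L[ℝ] E →L[ℝ] ℝ}
    {G : E → E →L[ℝ] E →L[ℝ] E} (h : IsNPCData U g G) {c w J K : ℝ → E} {s : ℝ}
    (hU : c s ∈ U)
    (hc : HasDerivAt c (w s) s) (hw : HasDerivAt w (-(G (c s) (w s) (w s))) s)
    (hJ : HasDerivAt J (K s) s)
    (hK : HasDerivAt K (-(fderiv ℝ G (c s) (J s) (w s) (w s)) - (2:ℝ) • G (c s) (w s) (K s)) s) :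
    HasDerivAt (fun s => K s + G (c s) (w s) (J s))
      (-(curv G (c s) (J s) (w s) (w s)) - G (c s) (w s) (K s + G (c s) (w s) (J s))) s := by
  have hG : DifferentiableAt ℝ G (c s) :=
    (h.contDiffOn_G.contDiffAt (h.isOpen.mem_nhds hU)).differentiableAt (by simp)
  have := hK.fun_add (hasDerivAt_bilin hG hc hw hJ)
  convert this using 1
  simp only [curv, map_add, map_neg, neg_apply, two_smul]
  rw [h.symm_G _ hU (J s) (G (c s) (w s) (w s)), h.symm_G _ hU (J s) (w s),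
    h.symm_fderiv_G hU (w s) (J s) (w s)]
  abel

/-- The energy density `e = g(J,J)` of a Jacobi field along a geodesic satisfies
`e(1/2) ≤ (e 0 + e 1)/2 - κ/4` whenever `κ ≤ g(DJ,DJ)` along the geodesic. -/
theorem IsNPCData.jacobi_midpoint {U : Set E} {g : E → E →L[ℝ] E →L[ℝ] ℝ}
    {G : E → E →L[ℝ] E →L[ℝ] E} (h : IsNPCData U g G) {c w J K : ℝ → E} {κ : ℝ}
    (hU : ∀ s ∈ Icc (0:ℝ) 1, c s ∈ U)
    (hc : ∀ s ∈ Icc (0:ℝ) 1, HasDerivAt c (w s) s)
    (hw : ∀ s ∈ Icc (0:ℝ) 1, HasDerivAt w (-(G (c s) (w s) (w s))) s)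
    (hJ : ∀ s ∈ Icc (0:ℝ) 1, HasDerivAt J (K s) s)
    (hK : ∀ s ∈ Icc (0:ℝ) 1,
      HasDerivAt K (-(fderiv ℝ G (c s) (J s) (w s) (w s)) - (2:ℝ) • G (c s) (w s) (K s)) s)
    (hκ : ∀ s ∈ Icc (0:ℝ) 1,
      κ ≤ g (c s) (K s + G (c s) (w s) (J s)) (K s + G (c s) (w s) (J s))) :
    g (c (1/2)) (J (1/2)) (J (1/2)) ≤ (g (c 0) (J 0) (J 0) + g (c 1) (J 1) (J 1)) / 2 - κ / 4 := by
  apply midpoint_le_of_deriv2 (f := fun s => g (c s) (J s) (J s))
    (f' := fun s => 2 * g (c s) (K s + G (c s) (w s) (J s)) (J s))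
    (f'' := fun s => 2 * (g (c s) (-(curv G (c s) (J s) (w s) (w s))) (J s) +
      g (c s) (K s + G (c s) (w s) (J s)) (K s + G (c s) (w s) (J s))))
  · intro s hs
    have := h.hasDerivAt_metric_cov (hU s hs) (hc s hs) (hJ s hs) (hJ s hs)
    convert this using 1
    rw [h.symm_g _ (hU s hs) (J s)]
    ring
  · intro s hs
    have := (h.hasDerivAt_metric_cov (hU s hs) (hc s hs)
      (h.hasDerivAt_cov (hU s hs) (hc s hs) (hw s hs) (hJ s hs) (hK s hs)) (hJ s hs)).const_mul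
      (2:ℝ)
    rw [sub_add_cancel] at this
    exact this
  · intro s hs
    have h1 := h.curv_nonpos _ (hU s hs) (J s) (w s)
    have h2 := hκ s hs
    have : 0 ≤ g (c s) (-(curv G (c s) (J s) (w s) (w s))) (J s) := by
      rw [map_neg, neg_apply]
      linarith
    linarith

end

end Crest.Agent.R244
end

-- ▼ part R244/BVP
section

/-!
The two-point boundary value problem for geodesics in a chart, via the flow of the geodesic
spray and the inverse function theorem; the midpoint map and its infinitesimal CN inequality.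
-/

open Set Filter Topology
open scoped ContDiff

namespace Crest.Agent.R244

section linearize

variable {F : Type*} [NormedAddCommGroup F] [NormedSpace ℝ F]

/-- The `x`-derivative of a `C^2` flow satisfies the linearised equation. -/
theorem hasDerivAt_fderiv_flow {f : F → F} {Φ : ℝ × F → F} {D : Set (ℝ × F)} (hD : IsOpen D)
    (hΦ : ContDiffOn ℝ 2 Φ D)
    (hder : ∀ t x, (t, x) ∈ D → HasDerivAt (fun s => Φ (s, x)) (f (Φ (t, x))) t) {t : ℝ} {x ζ : F}
    (htx : (t, x) ∈ D) (hf : DifferentiableAt ℝ f (Φ (t, x))) :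
    HasDerivAt (fun s => fderiv ℝ (fun y => Φ (s, y)) x ζ)
      (fderiv ℝ f (Φ (t, x)) (fderiv ℝ (fun y => Φ (t, y)) x ζ)) t := by
  -- partial derivatives in terms of the total derivative
  have hd : ∀ p ∈ D, DifferentiableAt ℝ Φ p := fun p hp =>
    (hΦ.contDiffAt (hD.mem_nhds hp)).differentiableAt (by norm_num)
  have hx : ∀ s y, (s, y) ∈ D →
      fderiv ℝ (fun y => Φ (s, y)) y ζ = fderiv ℝ Φ (s, y) (0, ζ) := by
    intro s y hsy
    have h1 : HasFDerivAt (fun y : F => ((s, y) : ℝ × F)) (ContinuousLinearMap.inr ℝ ℝ F) y :=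
      hasFDerivAt_prodMk_right s y
    have := (hd (s, y) hsy).hasFDerivAt.comp y h1
    have h2 := this.fderiv
    change fderiv ℝ (Φ ∘ fun y => (s, y)) y ζ = _
    rw [h2]
    simp
  have ht : ∀ s y, (s, y) ∈ D → fderiv ℝ Φ (s, y) (1, 0) = f (Φ (s, y)) := by
    intro s y hsy
    have h1 : HasDerivAt (fun s : ℝ => ((s, y) : ℝ × F)) ((1 : ℝ), (0 : F)) s :=
      (hasDerivAt_id s).prodMk (hasDerivAt_const s y)
    have := (hd (s, y) hsy).hasFDerivAt.comp_hasDerivAt s h1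
    exact this.unique (hder s y hsy)
  rw [hx t x htx]
  have hnear : ∀ᶠ s in 𝓝 t, (s, x) ∈ D := by
    have : ContinuousAt (fun s : ℝ => ((s, x) : ℝ × F)) t := by fun_prop
    exact this.eventually_mem (hD.mem_nhds htx)
  have hnear2 : ∀ᶠ y in 𝓝 x, (t, y) ∈ D := by
    have : ContinuousAt (fun y : F => ((t, y) : ℝ × F)) x := by fun_prop
    exact this.eventually_mem (hD.mem_nhds htx)
  have hEq : (fun s => fderiv ℝ (fun y => Φ (s, y)) x ζ) =ᶠ[𝓝 t]
      fun s => fderiv ℝ Φ (s, x) (0, ζ) := by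
    filter_upwards [hnear] with s hs using hx s x hs
  apply HasDerivAt.congr_of_eventuallyEq _ hEq
  -- second derivative
  have hΦt : ContDiffAt ℝ 2 Φ (t, x) := hΦ.contDiffAt (hD.mem_nhds htx)
  have hd2 : DifferentiableAt ℝ (fderiv ℝ Φ) (t, x) :=
    (hΦt.fderiv_right (m := 1) (by norm_num)).differentiableAt (by norm_num)
  have hsymm : IsSymmSndFDerivAt ℝ Φ (t, x) :=
    hΦt.isSymmSndFDerivAt (by simp)
  have h1 : HasDerivAt (fun s : ℝ => ((s, x) : ℝ × F)) ((1 : ℝ), (0 : F)) t :=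
    (hasDerivAt_id t).prodMk (hasDerivAt_const t x)
  have h2 : HasDerivAt (fun s => fderiv ℝ Φ (s, x)) (fderiv ℝ (fderiv ℝ Φ) (t, x) (1, 0)) t :=
    hd2.hasFDerivAt.comp_hasDerivAt t h1
  have h3 := h2.clm_apply (hasDerivAt_const t ((0 : ℝ), ζ))
  have h4 : fderiv ℝ (fderiv ℝ Φ) (t, x) (1, 0) (0, ζ) =
      fderiv ℝ f (Φ (t, x)) (fderiv ℝ Φ (t, x) (0, ζ)) := by
    rw [hsymm (1, 0) (0, ζ)]
    -- derivative of `y ↦ fderiv Φ (t,y) (1,0) = f (Φ (t,y))`
    have h5 : HasFDerivAt (fun y : F => ((t, y) : ℝ × F)) (ContinuousLinearMap.inr ℝ ℝ F) x :=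
      hasFDerivAt_prodMk_right t x
    have h6 : HasFDerivAt (fun y : F => fderiv ℝ Φ (t, y) (1, 0))
        ((ContinuousLinearMap.apply ℝ F ((1 : ℝ), (0 : F))).comp
          ((fderiv ℝ (fderiv ℝ Φ) (t, x)).comp (ContinuousLinearMap.inr ℝ ℝ F))) x :=
      (ContinuousLinearMap.apply ℝ F ((1 : ℝ), (0 : F))).hasFDerivAt.comp x
        (hd2.hasFDerivAt.comp x h5)
    have h7 : HasFDerivAt (fun y : F => f (Φ (t, y)))
        ((fderiv ℝ f (Φ (t, x))).comp ((fderiv ℝ Φ (t, x)).comp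
          (ContinuousLinearMap.inr ℝ ℝ F))) x :=
      hf.hasFDerivAt.comp x ((hd (t, x) htx).hasFDerivAt.comp x h5)
    have h67 : (fun y : F => f (Φ (t, y))) =ᶠ[𝓝 x] (fun y : F => fderiv ℝ Φ (t, y) (1, 0)) := by
      filter_upwards [hnear2] with y hy using (ht t y hy).symm
    have h8 := (h6.congr_of_eventuallyEq h67).unique h7
    have h9 := congrArg (fun L : F →L[ℝ] F => L ζ) h8
    simpa using h9
  convert h3 using 1
  rw [h4]
  simp

end linearize

section prod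

variable {E F : Type*} [NormedAddCommGroup E] [NormedSpace ℝ E] [NormedAddCommGroup F]
  [NormedSpace ℝ F]

theorem hasDerivAt_fst' {f : ℝ → E × F} {f' : E × F} {s : ℝ} (h : HasDerivAt f f' s) :
    HasDerivAt (fun s => (f s).1) f'.1 s :=
  (ContinuousLinearMap.fst ℝ E F).hasFDerivAt.comp_hasDerivAt s h

theorem hasDerivAt_snd' {f : ℝ → E × F} {f' : E × F} {s : ℝ} (h : HasDerivAt f f' s) :
    HasDerivAt (fun s => (f s).2) f'.2 s :=
  (ContinuousLinearMap.snd ℝ E F).hasFDerivAt.comp_hasDerivAt s h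

end prod

section spray

variable {E : Type*} [NormedAddCommGroup E] [NormedSpace ℝ E]

/-- The geodesic spray of a connection. -/
noncomputable def spray (G : E → E →L[ℝ] E →L[ℝ] E) (z : E × E) : E × E :=
  (z.2, -(G z.1 z.2 z.2))

/-- The derivative of the spray. -/
noncomputable def sprayD (G : E → E →L[ℝ] E →L[ℝ] E) (z ζ : E × E) : E × E :=
  (ζ.2, -(fderiv ℝ G z.1 ζ.1 z.2 z.2) - G z.1 ζ.2 z.2 - G z.1 z.2 ζ.2)

theorem contDiffOn_spray {G : E → E →L[ℝ] E →L[ℝ] E} {U : Set E} (hG : ContDiffOn ℝ ∞ G U) :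
    ContDiffOn ℝ ∞ (spray G) (U ×ˢ univ) := by
  have h1 : ContDiffOn ℝ ∞ (fun z : E × E => G z.1) (U ×ˢ univ) :=
    hG.comp contDiffOn_fst (fun z hz => hz.1)
  have h2 : ContDiffOn ℝ ∞ (fun z : E × E => G z.1 z.2) (U ×ˢ univ) :=
    h1.clm_apply contDiffOn_snd
  have h3 : ContDiffOn ℝ ∞ (fun z : E × E => G z.1 z.2 z.2) (U ×ˢ univ) :=
    h2.clm_apply contDiffOn_snd
  exact contDiffOn_snd.prodMk h3.neg

theorem hasDerivAt_spray {G : E → E →L[ℝ] E →L[ℝ] E} {z ζ : E × E}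
    (hG : DifferentiableAt ℝ G z.1) :
    HasDerivAt (fun t : ℝ => spray G (z + t • ζ)) (sprayD G z ζ) 0 := by
  have hc : HasDerivAt (fun t : ℝ => (z + t • ζ).1) ζ.1 0 := by
    simpa using ((hasDerivAt_id (0:ℝ)).smul_const ζ.1).const_add z.1
  have hw : HasDerivAt (fun t : ℝ => (z + t • ζ).2) ζ.2 0 := by
    simpa using ((hasDerivAt_id (0:ℝ)).smul_const ζ.2).const_add z.2
  have h1 := hasDerivAt_bilin (G := G) (s := 0) (by simpa using hG) hc hw hw
  have h2 := hw.prodMk h1.fun_neg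
  have h3 : sprayD G z ζ = (ζ.2, -(fderiv ℝ G (z + (0:ℝ) • ζ).1 ζ.1 (z + (0:ℝ) • ζ).2
      (z + (0:ℝ) • ζ).2 + G (z + (0:ℝ) • ζ).1 ζ.2 (z + (0:ℝ) • ζ).2 +
      G (z + (0:ℝ) • ζ).1 (z + (0:ℝ) • ζ).2 ζ.2)) := by
    simp only [sprayD, zero_smul, add_zero]
    congr 1
    abel
  rw [h3]
  exact h2

theorem differentiableAt_spray {G : E → E →L[ℝ] E →L[ℝ] E} {z : E × E}
    (hG : DifferentiableAt ℝ G z.1) : DifferentiableAt ℝ (spray G) z := by
  have h0 : DifferentiableAt ℝ (fun z : E × E => z.1) z := differentiableAt_fst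
  have h1 : DifferentiableAt ℝ (fun z : E × E => G z.1) z :=
    DifferentiableAt.comp (g := G) z hG h0
  have h2 : DifferentiableAt ℝ (fun z : E × E => G z.1 z.2) z :=
    h1.clm_apply differentiableAt_snd
  have h3 : DifferentiableAt ℝ (fun z : E × E => G z.1 z.2 z.2) z :=
    h2.clm_apply differentiableAt_snd
  exact differentiableAt_snd.prodMk h3.neg

theorem fderiv_spray {G : E → E →L[ℝ] E →L[ℝ] E} {z : E × E}
    (hG : DifferentiableAt ℝ G z.1) (ζ : E × E) : fderiv ℝ (spray G) z ζ = sprayD G z ζ := by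
  have hc : HasDerivAt (fun t : ℝ => z + t • ζ) ζ 0 := by
    simpa using ((hasDerivAt_id (0:ℝ)).smul_const ζ).const_add z
  have h := (HasFDerivAt.comp_hasDerivAt (l := spray G) (f := fun t : ℝ => z + t • ζ) 0
    (by simpa using (differentiableAt_spray hG).hasFDerivAt) hc :)
  exact h.unique (hasDerivAt_spray hG)

/-- A `C^2` map `Φ (s, z)` which for `z ∈ N`, `s ∈ [0,1]` is the geodesic flow. -/
structure IsLocalFlow (V : Set E) (G : E → E →L[ℝ] E →L[ℝ] E) (Φ : ℝ × (E × E) → E × E)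
    (D : Set (ℝ × (E × E))) (N : Set (E × E)) : Prop where
  isOpen_dom : IsOpen D
  contDiff : ContDiffOn ℝ 2 Φ D
  isOpen : IsOpen N
  memD : ∀ z ∈ N, ∀ s ∈ Icc (0:ℝ) 1, (s, z) ∈ D
  zero : ∀ z ∈ N, Φ (0, z) = z
  rest : ∀ s ∈ Icc (0:ℝ) 1, ∀ p, ((p, 0) : E × E) ∈ N → Φ (s, ((p, 0) : E × E)) = (p, 0)
  mem : ∀ z ∈ N, ∀ s ∈ Icc (0:ℝ) 1, (Φ (s, z)).1 ∈ V
  der : ∀ z ∈ N, ∀ s ∈ Icc (0:ℝ) 1,
    HasDerivAt (fun s => Φ (s, z)) (spray G (Φ (s, z))) s
  lin : ∀ z ∈ N, ∀ s ∈ Icc (0:ℝ) 1, ∀ ζ : E × E,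
    HasDerivAt (fun s => fderiv ℝ (fun y => Φ (s, y)) z ζ)
      (sprayD G (Φ (s, z)) (fderiv ℝ (fun y => Φ (s, y)) z ζ)) s

end spray

section main

variable {E : Type*} [NormedAddCommGroup E] [NormedSpace ℝ E]
variable {U V : Set E} {g : E → E →L[ℝ] E →L[ℝ] ℝ} {G : E → E →L[ℝ] E →L[ℝ] E}
variable {Φ : ℝ × (E × E) → E × E} {D : Set (ℝ × (E × E))} {N : Set (E × E)}

/-- Cauchy-Schwarz for the metric. -/
theorem IsNPCData.cauchy (h : IsNPCData U g G) {x : E} (hx : x ∈ U) (u v : E) :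
    g x u v ^ 2 ≤ g x u u * g x v v := by
  have hnn : ∀ w, 0 ≤ g x w w := by
    intro w
    by_cases hw : w = 0
    · simp [hw]
    · exact (h.pos_g x hx w hw).le
  by_cases hv : v = 0
  · simp [hv]
  · have hpos := h.pos_g x hx v hv
    have h1 := hnn (g x v v • u - g x u v • v)
    have h2 : g x (g x v v • u - g x u v • v) (g x v v • u - g x u v • v) =
        g x v v * (g x u u * g x v v - g x u v ^ 2) := by
      simp only [map_sub, map_smul, sub_apply, smul_apply, smul_eq_mul]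
      rw [h.symm_g x hx v u]
      ring
    rw [h2] at h1
    have := nonneg_of_mul_nonneg_right h1 hpos
    linarith

theorem IsNPCData.nonneg (h : IsNPCData U g G) {x : E} (hx : x ∈ U) (w : E) : 0 ≤ g x w w := by
  by_cases hw : w = 0
  · simp [hw]
  · exact (h.pos_g x hx w hw).le

/-- Along the local flow the speed is constant. -/
theorem IsLocalFlow.speed (hΦ : IsLocalFlow V G Φ D N) (h : IsNPCData U g G) (hVU : V ⊆ U)
    {z : E × E} (hz : z ∈ N) {s : ℝ} (hs : s ∈ Icc (0:ℝ) 1) :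
    g (Φ (s, z)).1 (Φ (s, z)).2 (Φ (s, z)).2 = g z.1 z.2 z.2 := by
  have hd : ∀ s ∈ Icc (0:ℝ) 1,
      HasDerivAt (fun s => g (Φ (s, z)).1 (Φ (s, z)).2 (Φ (s, z)).2) 0 s := by
    intro s hs
    have hder := hΦ.der z hz s hs
    have h1 : HasDerivAt (fun s => (Φ (s, z)).1) (Φ (s, z)).2 s := hasDerivAt_fst' hder
    have h2 : HasDerivAt (fun s => (Φ (s, z)).2) (-(G (Φ (s, z)).1 (Φ (s, z)).2 (Φ (s, z)).2)) s :=
      hasDerivAt_snd' hder
    have := h.hasDerivAt_metric_cov (hVU (hΦ.mem z hz s hs)) h1 h2 h2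
    simpa using this
  have hcont : ContinuousOn (fun s => g (Φ (s, z)).1 (Φ (s, z)).2 (Φ (s, z)).2) (Icc 0 1) :=
    fun s hs => (hd s hs).continuousAt.continuousWithinAt
  have := constant_of_has_deriv_right_zero hcont
    (fun s hs => (hd s (Ico_subset_Icc_self hs)).hasDerivWithinAt) s hs
  simpa [hΦ.zero z hz] using this

theorem IsLocalFlow.fderiv_zero (hΦ : IsLocalFlow V G Φ D N) {z : E × E} (hz : z ∈ N)
    (ζ : E × E) : fderiv ℝ (fun y => Φ (0, y)) z ζ = ζ := by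
  have : (fun y => Φ ((0:ℝ), y)) =ᶠ[𝓝 z] id := by
    filter_upwards [hΦ.isOpen.mem_nhds hz] with y hy using hΦ.zero y hy
  rw [this.fderiv_eq]
  simp

/-- The linearised flow at a rest point. -/
theorem IsLocalFlow.fderiv_rest (hΦ : IsLocalFlow V G Φ D N) {p : E} (hp : (p, (0:E)) ∈ N)
    (ζ : E × E) {s : ℝ} (hs : s ∈ Icc (0:ℝ) 1) :
    fderiv ℝ (fun y => Φ (s, y)) (p, 0) ζ = (ζ.1 + s • ζ.2, ζ.2) := by
  have hd : ∀ s ∈ Icc (0:ℝ) 1, HasDerivAt (fun s => fderiv ℝ (fun y => Φ (s, y)) (p, 0) ζ)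
      ((fderiv ℝ (fun y => Φ (s, y)) (p, 0) ζ).2, 0) s := by
    intro s hs
    have := hΦ.lin _ hp s hs ζ
    simpa [sprayD, hΦ.rest s hs p hp] using this
  have h2 : ∀ s ∈ Icc (0:ℝ) 1, (fderiv ℝ (fun y => Φ (s, y)) (p, 0) ζ).2 = ζ.2 := by
    intro s hs
    have hcont : ContinuousOn (fun s => (fderiv ℝ (fun y => Φ (s, y)) (p, 0) ζ).2) (Icc 0 1) :=
      fun s hs => (hasDerivAt_snd' (hd s hs)).continuousAt.continuousWithinAt
    have := constant_of_has_deriv_right_zero hcont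
      (fun s hs => (hasDerivAt_snd' (hd s (Ico_subset_Icc_self hs))).hasDerivWithinAt) s hs
    simpa [hΦ.fderiv_zero hp] using this
  have h1 : (fderiv ℝ (fun y => Φ (s, y)) (p, 0) ζ).1 - s • ζ.2 = ζ.1 := by
    have hd1 : ∀ s ∈ Icc (0:ℝ) 1,
        HasDerivAt (fun s => (fderiv ℝ (fun y => Φ (s, y)) (p, 0) ζ).1 - s • ζ.2) 0 s := by
      intro s hs
      have h3 := (hasDerivAt_fst' (hd s hs)).fun_sub ((hasDerivAt_id s).smul_const ζ.2)
      simpa [h2 s hs] using h3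
    have hcont : ContinuousOn
        (fun s => (fderiv ℝ (fun y => Φ (s, y)) (p, 0) ζ).1 - s • ζ.2) (Icc 0 1) :=
      fun s hs => (hd1 s hs).continuousAt.continuousWithinAt
    have := constant_of_has_deriv_right_zero hcont
      (fun s hs => (hd1 s (Ico_subset_Icc_self hs)).hasDerivWithinAt) s hs
    simpa [hΦ.fderiv_zero hp] using this
  refine Prod.ext ?_ (h2 s hs)
  simp only
  rw [← h1]
  abel

/-- The linear map `(a, v) ↦ (a, a + v)`. -/
noncomputable def shear (E : Type*) [NormedAddCommGroup E] [NormedSpace ℝ E] :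
    (E × E) ≃L[ℝ] (E × E) :=
  ContinuousLinearEquiv.equivOfInverse
    ((ContinuousLinearMap.fst ℝ E E).prod (ContinuousLinearMap.fst ℝ E E +
      ContinuousLinearMap.snd ℝ E E))
    ((ContinuousLinearMap.fst ℝ E E).prod (ContinuousLinearMap.snd ℝ E E -
      ContinuousLinearMap.fst ℝ E E))
    (fun x => by simp) (fun x => by simp)

/-- The endpoint map `(a, v) ↦ (a, exp_a v)`. -/
noncomputable def endpt (Φ : ℝ × (E × E) → E × E) (z : E × E) : E × E := (z.1, (Φ (1, z)).1)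

theorem IsLocalFlow.contDiffAt_slice (hΦ : IsLocalFlow V G Φ D N) {s : ℝ}
    (hs : s ∈ Icc (0:ℝ) 1) {z : E × E} (hz : z ∈ N) :
    ContDiffAt ℝ 2 (fun y => Φ (s, y)) z :=
  (hΦ.contDiff.contDiffAt (hΦ.isOpen_dom.mem_nhds (hΦ.memD z hz s hs))).comp z
    (contDiff_prodMk_right s).contDiffAt

theorem IsLocalFlow.contDiffAt_endpt (hΦ : IsLocalFlow V G Φ D N) {z : E × E} (hz : z ∈ N) :
    ContDiffAt ℝ 2 (endpt Φ) z :=
  contDiffAt_fst.prodMk (contDiffAt_fst.comp z (hΦ.contDiffAt_slice (by simp) hz))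

theorem IsLocalFlow.hasFDerivAt_endpt (hΦ : IsLocalFlow V G Φ D N) {p : E}
    (hp : (p, (0:E)) ∈ N) :
    HasFDerivAt (endpt Φ) (shear E : (E × E) →L[ℝ] (E × E)) (p, 0) := by
  have h1 : HasFDerivAt (fun y => Φ (1, y)) (fderiv ℝ (fun y => Φ (1, y)) (p, 0)) (p, 0) :=
    ((hΦ.contDiffAt_slice (by simp) hp).differentiableAt (by norm_num)).hasFDerivAt
  have h2 : HasFDerivAt (endpt Φ) ((ContinuousLinearMap.fst ℝ E E).prod
      ((ContinuousLinearMap.fst ℝ E E).comp (fderiv ℝ (fun y => Φ (1, y)) (p, 0)))) (p, 0) :=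
    hasFDerivAt_fst.prodMk ((ContinuousLinearMap.fst ℝ E E).hasFDerivAt.comp _ h1)
  convert h2 using 1
  ext ζ
  all_goals simp [shear, hΦ.fderiv_rest hp]

/-- The solution of the two point boundary value problem near a point of the chart. -/
theorem IsLocalFlow.exists_bvp [CompleteSpace E] (hΦ : IsLocalFlow V G Φ D N) {p0 : E}
    (hp : (p0, (0:E)) ∈ N) {V' : Set E} (hV' : V' ∈ 𝓝 p0) :
    ∃ (W : Set E) (θ : E × E → E × E), IsOpen W ∧ p0 ∈ W ∧ W ⊆ V' ∧
      (∀ x ∈ W ×ˢ W, ContDiffAt ℝ 2 θ x ∧ (θ x).1 = x.1 ∧ (Φ (1, θ x)).1 = x.2 ∧ θ x ∈ N) ∧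
      ∀ p ∈ W, θ (p, p) = (p, 0) := by
  have hc : ContDiffAt ℝ 2 (endpt Φ) (p0, 0) := hΦ.contDiffAt_endpt hp
  have hd := hΦ.hasFDerivAt_endpt hp
  have h0 : endpt Φ (p0, 0) = (p0, p0) := by simp [endpt, hΦ.rest 1 (by simp) p0 hp]
  set θ := hc.localInverse hd (by norm_num) with hθ
  have hθc : ContDiffAt ℝ 2 θ (p0, p0) := by
    have := hc.to_localInverse hd (by norm_num)
    rwa [h0] at this
  have hθ0 : θ (p0, p0) = (p0, 0) := by
    have := hc.localInverse_apply_image hd (by norm_num)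
    rwa [h0] at this
  have e1 : ∀ᶠ x in 𝓝 (p0, p0), ContDiffAt ℝ 2 θ x := hθc.eventually (by simp)
  have e2 : ∀ᶠ x in 𝓝 (p0, p0), endpt Φ (θ x) = x := by
    have := (hc.hasStrictFDerivAt' hd (by norm_num)).eventually_right_inverse
    rwa [h0] at this
  have e3 : ∀ᶠ x in 𝓝 (p0, p0), θ x ∈ N := by
    apply hθc.continuousAt.eventually_mem
    rw [hθ0]
    exact hΦ.isOpen.mem_nhds hp
  have e4 : ∀ᶠ p in 𝓝 p0, θ (p, p) = (p, 0) := by
    have h1 : ∀ᶠ z in 𝓝 (p0, (0:E)), θ (endpt Φ z) = z :=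
      (hc.hasStrictFDerivAt' hd (by norm_num)).eventually_left_inverse
    have h2 : Tendsto (fun p : E => (p, (0:E))) (𝓝 p0) (𝓝 (p0, 0)) :=
      (Continuous.prodMk_left (0:E)).continuousAt
    filter_upwards [h2.eventually h1, h2.eventually (hΦ.isOpen.mem_nhds hp)] with p hp hpN
    simpa [endpt, hΦ.rest 1 (by simp) p hpN] using hp
  have e123 : ∀ᶠ x in 𝓝 (p0, p0), ContDiffAt ℝ 2 θ x ∧ endpt Φ (θ x) = x ∧ θ x ∈ N := by
    filter_upwards [e1, e2, e3] with x h1 h2 h3 using ⟨h1, h2, h3⟩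
  rw [nhds_prod_eq] at e123
  obtain ⟨A, hA, hAB⟩ := Filter.eventually_prod_self_iff'.1 e123
  have hB : A ∩ V' ∩ {p | θ (p, p) = (p, 0)} ∈ 𝓝 p0 :=
    Filter.inter_mem (Filter.inter_mem hA hV') e4
  obtain ⟨W, hWB, hWo, hpW⟩ := mem_nhds_iff.1 hB
  refine ⟨W, θ, hWo, hpW, fun x hx => (hWB hx).1.2, ?_, fun p hp => (hWB hp).2⟩
  rintro ⟨a, b⟩ ⟨ha, hb⟩
  obtain ⟨h1, h2, h3⟩ := hAB a (hWB ha).1.1 b (hWB hb).1.1
  refine ⟨h1, ?_, ?_, h3⟩
  · have := congrArg Prod.fst h2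
    simpa [endpt] using this
  · have := congrArg Prod.snd h2
    simpa [endpt] using this

/-- The base curve of a flow line agrees near `[0,1]` with a globally `C^1` curve. -/
theorem IsLocalFlow.exists_curve (hΦ : IsLocalFlow V G Φ D N) {z : E × E} (hz : z ∈ N) :
    ∃ c : ℝ → E, ContDiff ℝ 1 c ∧ ∀ s ∈ Icc (0:ℝ) 1, c =ᶠ[𝓝 s] fun s => (Φ (s, z)).1 := by
  have hS : IsOpen {s : ℝ | (s, z) ∈ D} :=
    hΦ.isOpen_dom.preimage (by fun_prop : Continuous fun s : ℝ => (s, z))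
  have hsub : Icc (0:ℝ) 1 ⊆ {s : ℝ | (s, z) ∈ D} := fun s hs => hΦ.memD z hz s hs
  obtain ⟨δ, hδ, hδS⟩ := isCompact_Icc.exists_cthickening_subset_open hS hsub
  -- a bump function equal to one on `[-δ/3, 1+δ/3]`
  let χ : ContDiffBump (1/2 : ℝ) := ⟨1/2 + δ/3, 1/2 + 2*δ/3, by positivity, by linarith⟩
  refine ⟨fun s => χ s • (Φ (s, z)).1, ?_, ?_⟩
  · rw [contDiff_iff_contDiffAt]
    intro s
    by_cases hs : (s, z) ∈ D
    · have h1 : ContDiffAt ℝ 2 (fun s => Φ (s, z)) s :=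
        (hΦ.contDiff.contDiffAt (hΦ.isOpen_dom.mem_nhds hs)).comp s
          (contDiff_prodMk_left z).contDiffAt
      have h2 : ContDiffAt ℝ 1 (fun s => (Φ (s, z)).1) s :=
        (contDiffAt_fst.comp s h1).of_le (by norm_num)
      exact χ.contDiffAt.smul h2
    · have : (fun s => χ s • (Φ (s, z)).1) =ᶠ[𝓝 s] fun _ => 0 := by
        have hs' : s ∉ Metric.closedBall (1/2 : ℝ) (1/2 + 2*δ/3) := by
          intro hmem
          apply hs
          apply hδS
          rw [Metric.mem_closedBall, Real.dist_eq, abs_le] at hmem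
          rcases lt_or_ge s 0 with h0 | h0
          · exact Metric.mem_cthickening_of_dist_le s 0 δ _ (by simp)
              (by rw [Real.dist_eq, abs_le]; constructor <;> linarith [hmem.1])
          · rcases lt_or_ge 1 s with h1 | h1
            · exact Metric.mem_cthickening_of_dist_le s 1 δ _ (by simp)
                (by rw [Real.dist_eq, abs_le]; constructor <;> linarith [hmem.2])
            · exact Metric.mem_cthickening_of_dist_le s s δ _ ⟨h0, h1⟩ (by simp [hδ.le])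
        have ho : IsOpen (Metric.closedBall (1/2 : ℝ) (1/2 + 2*δ/3))ᶜ :=
          Metric.isClosed_closedBall.isOpen_compl
        filter_upwards [ho.mem_nhds hs'] with t ht
        have : χ t = 0 := by
          apply χ.zero_of_le_dist
          simp only [mem_compl_iff, Metric.mem_closedBall, not_le] at ht
          exact ht.le
        simp [this]
      exact contDiffAt_const.congr_of_eventuallyEq this
  · intro s hs
    have : Metric.ball (1/2 : ℝ) (1/2 + δ/3) ∈ 𝓝 s := by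
      apply Metric.isOpen_ball.mem_nhds
      rw [Metric.mem_ball, Real.dist_eq, abs_lt]
      constructor <;> linarith [hs.1, hs.2]
    filter_upwards [this] with t ht
    have : χ t = 1 := χ.one_of_mem_closedBall (Metric.ball_subset_closedBall ht)
    simp [this]

/-- **The midpoint map of a nonpositively curved chart** and its infinitesimal CN inequality. -/
theorem IsLocalFlow.exists_midpoint_map [CompleteSpace E] (hΦ : IsLocalFlow V G Φ D N)
    (h : IsNPCData U g G) (hVU : V ⊆ U) {p0 : E}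
    (hp : (p0, (0:E)) ∈ N) {V' : Set E} (hV' : V' ∈ 𝓝 p0) :
    ∃ (W : Set E) (mid : E × E → E) (q : E × E → ℝ), IsOpen W ∧ p0 ∈ W ∧ W ⊆ V' ∧ W ⊆ V ∧
      ContDiffOn ℝ 1 mid (W ×ˢ W) ∧ ContDiffOn ℝ 1 q (W ×ˢ W) ∧
      (∀ p ∈ W, mid (p, p) = p ∧ q (p, p) = 0) ∧
      (∀ a ∈ W, ∀ b ∈ W, 0 ≤ q (a, b) ∧ mid (a, b) ∈ V) ∧
      (∀ a ∈ W, ∀ b ∈ W, ∃ c : ℝ → E, ContDiff ℝ 1 c ∧ c 0 = a ∧ c 1 = b ∧
        ∀ s ∈ Icc (0:ℝ) 1, c s ∈ V ∧ g (c s) (deriv c s) (deriv c s) = q (a, b)) ∧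
      (∀ a ∈ W, ∀ b ∈ W, ∀ u v : E, ∀ ε > 0,
        g (mid (a, b)) (fderiv ℝ mid (a, b) (u, v)) (fderiv ℝ mid (a, b) (u, v)) ≤
          (g a u u + g b v v) / 2 - (fderiv ℝ q (a, b) (u, v)) ^ 2 / (16 * (q (a, b) + ε ^ 2))) := by
  obtain ⟨W, θ, hWo, hpW, hWV', hθ, hdiag⟩ := hΦ.exists_bvp hp hV'
  have hWV : W ⊆ V := by
    intro p hp
    have h1 := (hθ (p, p) ⟨hp, hp⟩).2.2.2
    rw [hdiag p hp] at h1
    have := hΦ.mem _ h1 0 (left_mem_Icc.2 zero_le_one)
    simpa [hΦ.zero _ h1] using this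
  have hhalf : (1/2 : ℝ) ∈ Icc (0:ℝ) 1 := by constructor <;> norm_num
  have hmidC : ∀ x ∈ W ×ˢ W, ContDiffAt ℝ 2 (fun x => (Φ (1/2, θ x)).1) x := by
    intro x hx
    have h1 : ContDiffAt ℝ 2 (fun x => Φ (1/2, θ x)) x :=
      (hΦ.contDiffAt_slice hhalf (hθ x hx).2.2.2).comp x (hθ x hx).1
    exact contDiffAt_fst.comp x h1
  have hqC : ∀ x ∈ W ×ˢ W, ContDiffAt ℝ 2 (fun x : E × E => g x.1 (θ x).2 (θ x).2) x := by
    intro x hx
    have hg : ContDiffAt ℝ 2 g x.1 :=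
      (h.contDiffOn_g.contDiffAt (h.isOpen.mem_nhds (hVU (hWV hx.1)))).of_le ENat.LEInfty.out
    have h1 : ContDiffAt ℝ 2 (fun x : E × E => g x.1) x := hg.comp x contDiffAt_fst
    have h2 : ContDiffAt ℝ 2 (fun x => (θ x).2) x := contDiffAt_snd.comp x (hθ x hx).1
    exact (h1.clm_apply h2).clm_apply h2
  have hWW : IsOpen (W ×ˢ W) := hWo.prod hWo
  refine ⟨W, fun x => (Φ (1/2, θ x)).1, fun x => g x.1 (θ x).2 (θ x).2, hWo, hpW, hWV', hWV,
    fun x hx => ((hmidC x hx).of_le (by norm_num)).contDiffWithinAt,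
    fun x hx => ((hqC x hx).of_le (by norm_num)).contDiffWithinAt, ?_, ?_, ?_, ?_⟩
  · intro p hp
    have h1 := (hθ (p, p) ⟨hp, hp⟩).2.2.2
    rw [hdiag p hp] at h1
    have h2 := hΦ.rest (1/2) hhalf p h1
    simp only [hdiag p hp, h2]
    simp
  · intro a ha b hb
    refine ⟨h.nonneg (hVU (hWV ha)) _, ?_⟩
    exact hΦ.mem _ (hθ (a, b) ⟨ha, hb⟩).2.2.2 _ (by constructor <;> norm_num)
  · intro a ha b hb
    obtain ⟨h1, h2, h3, h4⟩ := hθ (a, b) ⟨ha, hb⟩
    obtain ⟨c, hc, hcd⟩ := hΦ.exists_curve h4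
    refine ⟨c, hc, ?_, ?_, ?_⟩
    · rw [(hcd 0 (by simp)).self_of_nhds]
      change (Φ (0, θ (a, b))).1 = a
      rw [hΦ.zero _ h4]
      exact h2
    · rw [(hcd 1 (by simp)).self_of_nhds]
      exact h3
    · intro s hs
      rw [(hcd s hs).self_of_nhds]
      refine ⟨hΦ.mem _ h4 s hs, ?_⟩
      have hd : HasDerivAt (fun s => (Φ (s, θ (a, b))).1) (Φ (s, θ (a, b))).2 s :=
        hasDerivAt_fst' (hΦ.der _ h4 s hs)
      rw [(hcd s hs).deriv_eq, hd.deriv, hΦ.speed h hVU h4 hs, h2]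
  · intro a ha b hb u v ε hε
    obtain ⟨h1, h2, h3, h4⟩ := hθ (a, b) ⟨ha, hb⟩
    set x : E × E := (a, b) with hx
    have hxW : x ∈ W ×ˢ W := ⟨ha, hb⟩
    set z := θ x with hz
    set ζ := fderiv ℝ θ x (u, v) with hζ
    have hθd : DifferentiableAt ℝ θ x := h1.differentiableAt (by norm_num)
    -- the line through `x`
    have hline : HasDerivAt (fun t : ℝ => x + t • ((u, v) : E × E)) (u, v) 0 := by
      simpa using ((hasDerivAt_id (0:ℝ)).smul_const ((u, v) : E × E)).const_add x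
    have hθline : HasDerivAt (fun t : ℝ => θ (x + t • ((u, v) : E × E))) ζ 0 := by
      have h5 : HasFDerivAt θ (fderiv ℝ θ x) (x + (0:ℝ) • ((u, v) : E × E)) := by
        simpa using hθd.hasFDerivAt
      exact h5.comp_hasDerivAt 0 hline
    have hlineW : ∀ᶠ t : ℝ in 𝓝 0, x + t • ((u, v) : E × E) ∈ W ×ˢ W := by
      apply hline.continuousAt.eventually_mem
      simpa using hWW.mem_nhds hxW
    have hηline : ∀ s ∈ Icc (0:ℝ) 1, HasDerivAt (fun t : ℝ => Φ (s, θ (x + t • ((u, v) : E × E))))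
        (fderiv ℝ (fun y => Φ (s, y)) z ζ) 0 := by
      intro s hs
      have h5 : HasFDerivAt (fun y => Φ (s, y)) (fderiv ℝ (fun y => Φ (s, y)) z)
          (θ (x + (0:ℝ) • ((u, v) : E × E))) := by
        simpa using ((hΦ.contDiffAt_slice hs h4).differentiableAt (by norm_num)).hasFDerivAt
      exact h5.comp_hasDerivAt 0 hθline
    -- boundary values of the Jacobi field
    have hJ0 : (fderiv ℝ (fun y => Φ (0, y)) z ζ).1 = u := by
      rw [hΦ.fderiv_zero h4]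
      have h5 : HasDerivAt (fun t : ℝ => (x + t • ((u, v) : E × E)).1) u 0 := hasDerivAt_fst' hline
      have h6 : HasDerivAt (fun t : ℝ => (θ (x + t • ((u, v) : E × E))).1) ζ.1 0 :=
        hasDerivAt_fst' hθline
      refine (h6.congr_of_eventuallyEq ?_).unique h5
      filter_upwards [hlineW] with t ht
      exact ((hθ _ ht).2.1).symm
    have hJ1 : (fderiv ℝ (fun y => Φ (1, y)) z ζ).1 = v := by
      have h5 : HasDerivAt (fun t : ℝ => (x + t • ((u, v) : E × E)).2) v 0 := hasDerivAt_snd' hline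
      have h6 := hasDerivAt_fst' (hηline 1 (by simp))
      refine (h6.congr_of_eventuallyEq ?_).unique h5
      filter_upwards [hlineW] with t ht
      exact ((hθ _ ht).2.2.1).symm
    -- derivative of the midpoint map
    have hJm : fderiv ℝ (fun x => (Φ (1/2, θ x)).1) x (u, v) =
        (fderiv ℝ (fun y => Φ (1/2, y)) z ζ).1 := by
      have h5 : HasFDerivAt (fun x => (Φ (1/2, θ x)).1)
          (fderiv ℝ (fun x => (Φ (1/2, θ x)).1) x) (x + (0:ℝ) • ((u, v) : E × E)) := by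
        simpa using ((hmidC x hxW).differentiableAt (by norm_num)).hasFDerivAt
      have h6 := h5.comp_hasDerivAt 0 hline
      exact h6.unique (hasDerivAt_fst' (hηline (1/2) hhalf))
    -- derivative of `q`
    have hq : ∀ s ∈ Icc (0:ℝ) 1, fderiv ℝ (fun x : E × E => g x.1 (θ x).2 (θ x).2) x (u, v) =
        2 * g (Φ (s, z)).1 ((fderiv ℝ (fun y => Φ (s, y)) z ζ).2 +
          G (Φ (s, z)).1 (Φ (s, z)).2 (fderiv ℝ (fun y => Φ (s, y)) z ζ).1) (Φ (s, z)).2 := by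
      intro s hs
      have h5 : HasFDerivAt (fun x : E × E => g x.1 (θ x).2 (θ x).2)
          (fderiv ℝ (fun x : E × E => g x.1 (θ x).2 (θ x).2) x)
            (x + (0:ℝ) • ((u, v) : E × E)) := by
        simpa using ((hqC x hxW).differentiableAt (by norm_num)).hasFDerivAt
      have h6 := h5.comp_hasDerivAt 0 hline
      have hmem : (Φ (s, z)).1 ∈ U := hVU (hΦ.mem _ h4 s hs)
      have h7 := h.hasDerivAt_metric_cov (s := 0)
        (c := fun t : ℝ => (Φ (s, θ (x + t • ((u, v) : E × E)))).1)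
        (by simpa using hmem) (hasDerivAt_fst' (hηline s hs)) (hasDerivAt_snd' (hηline s hs))
        (hasDerivAt_snd' (hηline s hs))
      have h8 := (h6.congr_of_eventuallyEq (f₁ := fun t : ℝ =>
        g (Φ (s, θ (x + t • ((u, v) : E × E)))).1 (Φ (s, θ (x + t • ((u, v) : E × E)))).2
          (Φ (s, θ (x + t • ((u, v) : E × E)))).2) ?_).unique h7
      · rw [h8]
        simp only [zero_smul, add_zero]
        rw [h.symm_g _ hmem (Φ (s, θ x)).2, h.symm_G _ hmem (fderiv ℝ (fun y => Φ (s, y)) z ζ).1]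
        ring
      · filter_upwards [hlineW] with t ht
        simp only [Function.comp]
        rw [hΦ.speed h hVU (hθ _ ht).2.2.2 hs, (hθ _ ht).2.1]
    set κ := (fderiv ℝ (fun x : E × E => g x.1 (θ x).2 (θ x).2) x (u, v)) ^ 2 /
      (4 * (g x.1 (θ x).2 (θ x).2 + ε ^ 2)) with hκdef
    have key := h.jacobi_midpoint (κ := κ) (c := fun s => (Φ (s, z)).1)
      (w := fun s => (Φ (s, z)).2) (J := fun s => (fderiv ℝ (fun y => Φ (s, y)) z ζ).1)
      (K := fun s => (fderiv ℝ (fun y => Φ (s, y)) z ζ).2)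
      (fun s hs => hVU (hΦ.mem _ h4 s hs))
      (fun s hs => hasDerivAt_fst' (hΦ.der _ h4 s hs))
      (fun s hs => hasDerivAt_snd' (hΦ.der _ h4 s hs))
      (fun s hs => hasDerivAt_fst' (hΦ.lin _ h4 s hs ζ))
      (fun s hs => by
        have h5 := hasDerivAt_snd' (hΦ.lin _ h4 s hs ζ)
        convert h5 using 1
        simp only [sprayD]
        rw [h.symm_G _ (hVU (hΦ.mem _ h4 s hs)) (fderiv ℝ (fun y => Φ (s, y)) z ζ).2, two_smul]
        abel)
      (fun s hs => by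
        have hmem : (Φ (s, z)).1 ∈ U := hVU (hΦ.mem _ h4 s hs)
        have hcs := h.cauchy hmem ((fderiv ℝ (fun y => Φ (s, y)) z ζ).2 +
          G (Φ (s, z)).1 (Φ (s, z)).2 (fderiv ℝ (fun y => Φ (s, y)) z ζ).1) (Φ (s, z)).2
        have hsp := hΦ.speed h hVU h4 hs
        rw [hsp, h2] at hcs
        have hA := h.nonneg hmem ((fderiv ℝ (fun y => Φ (s, y)) z ζ).2 +
          G (Φ (s, z)).1 (Φ (s, z)).2 (fderiv ℝ (fun y => Φ (s, y)) z ζ).1)
        have hq0 : 0 ≤ g x.1 (θ x).2 (θ x).2 := h.nonneg (hVU (hWV ha)) _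
        rw [hκdef, hq s hs, div_le_iff₀ (by positivity)]
        have hε2 : 0 < ε ^ 2 := by positivity
        nlinarith [mul_nonneg hA hε2.le])
    rw [hJ0, hJ1, hΦ.zero _ h4, h3] at key
    rw [hJm]
    have hq0 : 0 ≤ g x.1 (θ x).2 (θ x).2 := h.nonneg (hVU (hWV ha)) _
    have hpos : 0 < g x.1 (θ x).2 (θ x).2 + ε ^ 2 := by positivity
    have hκ4 : κ / 4 = (fderiv ℝ (fun x : E × E => g x.1 (θ x).2 (θ x).2) x (u, v)) ^ 2 /
      (16 * (g x.1 (θ x).2 (θ x).2 + ε ^ 2)) := by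
      rw [hκdef, div_div]
      congr 1
      ring
    rw [hκ4] at key
    have hz1 : z.1 = a := h2
    rw [hz1] at key
    exact key

end main

end Crest.Agent.R244
end

-- ▼ part R244/Flow

/-!
Existence of the local geodesic flow (from the general ODE library) and the final chart-level
theorem: midpoint map with the infinitesimal CN inequality.
-/

open Set Filter Topology
open scoped ContDiff

namespace Crest.Agent.R244

variable {E : Type*} [NormedAddCommGroup E] [NormedSpace ℝ E] [CompleteSpace E]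
variable {U : Set E} {g : E → E →L[ℝ] E →L[ℝ] ℝ} {G : E → E →L[ℝ] E →L[ℝ] E}

open Crest.Agent.Lib in
theorem exists_localFlow (hG : ContDiffOn ℝ ∞ G U) {O : Set E} (hO : IsOpen O) (hOU : O ⊆ U)
    {p0 : E} (hp : p0 ∈ O) :
    ∃ (Φ : ℝ × (E × E) → E × E) (D : Set (ℝ × (E × E))) (N : Set (E × E)),
      IsLocalFlow O G Φ D N ∧ (p0, (0:E)) ∈ N := by
  set v := spray G with hv
  set U' : Set (E × E) := O ×ˢ univ with hU'
  have hU'o : IsOpen U' := hO.prod isOpen_univ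
  have hGO : ContDiffOn ℝ ∞ G O := hG.mono hOU
  have hvC : ContDiffOn ℝ ∞ v U' := contDiffOn_spray hGO
  have hv2 : ContDiffOn ℝ ((2 : ℕ∞) : WithTop ℕ∞) v U' := hvC.of_le (by exact_mod_cast le_top)
  have hv1 : ContDiffOn ℝ 1 v U' := hvC.of_le (by exact_mod_cast le_top)
  have hdomo : IsOpen (ODEFlow.dom v U') := ODEFlow.isOpen_dom hU'o hv1
  have hrest : ∀ p ∈ O, ∀ l : ℝ, ODEFlow.IsSol v U' (p, 0) l (ContinuousMap.const _ (p, 0)) := by
    intro p hp l
    refine ⟨fun _ => ⟨hp, trivial⟩, fun t => ?_⟩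
    simp [hv, spray]
  refine ⟨fun q => ODEFlow.flow v U' (q.2, q.1), {q | (q.2, q.1) ∈ ODEFlow.dom v U'},
    {z | (z, (1:ℝ)) ∈ ODEFlow.dom v U'}, ?_, ⟨_, hrest p0 hp 1⟩⟩
  have hmemD : ∀ z ∈ {z | (z, (1:ℝ)) ∈ ODEFlow.dom v U'}, ∀ s ∈ Icc (0:ℝ) 1,
      (z, s) ∈ ODEFlow.dom v U' := by
    intro z hz s hs
    simpa using ODEFlow.mul_mem_dom hz hs
  have hDo : IsOpen {q : ℝ × (E × E) | (q.2, q.1) ∈ ODEFlow.dom v U'} :=
    hdomo.preimage (by fun_prop : Continuous fun q : ℝ × (E × E) => (q.2, q.1))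
  have hCD : ContDiffOn ℝ 2 (fun q : ℝ × (E × E) => ODEFlow.flow v U' (q.2, q.1))
      {q | (q.2, q.1) ∈ ODEFlow.dom v U'} := by
    have h1 := ODEFlow.contDiffOn_flow (n := 2) (by norm_num) hU'o hv2
    exact h1.comp (contDiff_snd.prodMk contDiff_fst).contDiffOn (fun q hq => hq)
  have hder : ∀ t x, (t, x) ∈ {q : ℝ × (E × E) | (q.2, q.1) ∈ ODEFlow.dom v U'} →
      HasDerivAt (fun s => ODEFlow.flow v U' (x, s)) (v (ODEFlow.flow v U' (x, t))) t :=
    fun t x h => ODEFlow.hasDerivAt_flow hU'o hv1 h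
  refine ⟨hDo, hCD, ?_, hmemD, ?_, ?_, ?_, ?_, ?_⟩
  · exact hdomo.preimage (by fun_prop : Continuous fun z : E × E => (z, (1:ℝ)))
  · intro z hz
    exact ODEFlow.flow_zero hU'o hv1 (ODEFlow.mem_of_mem_dom hz)
  · intro s hs p hp
    have hpO : p ∈ O := (ODEFlow.mem_of_mem_dom hp).1
    simp only
    rw [ODEFlow.flow_eq_of_isSol hU'o hv1 (hrest p hpO s)]
    rfl
  · intro z hz s hs
    exact (ODEFlow.flow_mem hU'o hv1 (hmemD z hz s hs)).1
  · intro z hz s hs
    exact hder s z (hmemD z hz s hs)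
  · intro z hz s hs ζ
    have hG1 : DifferentiableAt ℝ G (ODEFlow.flow v U' (z, s)).1 := by
      have hm := (ODEFlow.flow_mem hU'o hv1 (hmemD z hz s hs)).1
      exact (hGO.contDiffAt (hO.mem_nhds hm)).differentiableAt (by simp)
    have := hasDerivAt_fderiv_flow (f := v) hDo hCD hder (ζ := ζ) (hmemD z hz s hs)
      (differentiableAt_spray hG1)
    rw [hv, fderiv_spray hG1] at this
    exact this

/-- **Chart-level output of package B1**: the midpoint map of a nonpositively curved chart,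
the squared length function `q` and the infinitesimal CN inequality. -/
theorem IsNPCData.exists_midpoint_map (h : IsNPCData U g G) {p0 : E} {V : Set E}
    (hV : V ∈ 𝓝 p0) (hp : p0 ∈ U) :
    ∃ (W : Set E) (mid : E × E → E) (q : E × E → ℝ), IsOpen W ∧ p0 ∈ W ∧ W ⊆ V ∧ W ⊆ U ∧
      ContDiffOn ℝ 1 mid (W ×ˢ W) ∧ ContDiffOn ℝ 1 q (W ×ˢ W) ∧
      (∀ p ∈ W, mid (p, p) = p ∧ q (p, p) = 0) ∧
      (∀ a ∈ W, ∀ b ∈ W, 0 ≤ q (a, b) ∧ mid (a, b) ∈ V ∩ U) ∧
      (∀ a ∈ W, ∀ b ∈ W, ∃ c : ℝ → E, ContDiff ℝ 1 c ∧ c 0 = a ∧ c 1 = b ∧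
        ∀ s ∈ Icc (0:ℝ) 1, c s ∈ V ∩ U ∧ g (c s) (deriv c s) (deriv c s) = q (a, b)) ∧
      (∀ a ∈ W, ∀ b ∈ W, ∀ u v : E, ∀ ε > 0,
        g (mid (a, b)) (fderiv ℝ mid (a, b) (u, v)) (fderiv ℝ mid (a, b) (u, v)) ≤
          (g a u u + g b v v) / 2 - (fderiv ℝ q (a, b) (u, v)) ^ 2 / (16 * (q (a, b) + ε ^ 2))) := by
  have hVU : V ∩ U ∈ 𝓝 p0 := Filter.inter_mem hV (h.isOpen.mem_nhds hp)
  obtain ⟨O, hOVU, hO, hpO⟩ := mem_nhds_iff.1 hVU
  obtain ⟨Φ, D, N, hΦ, hN⟩ :=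
    exists_localFlow h.contDiffOn_G hO (fun x hx => (hOVU hx).2) hpO
  obtain ⟨W, mid, q, h1, h2, h3, h4, h5, h6, h7, h8, h9, h10⟩ :=
    hΦ.exists_midpoint_map h (fun x hx => (hOVU hx).2) hN (hO.mem_nhds hpO)
  refine ⟨W, mid, q, h1, h2, fun x hx => (hOVU (h3 hx)).1, fun x hx => (hOVU (h3 hx)).2, h5, h6,
    h7, fun a ha b hb => ⟨(h8 a ha b hb).1, hOVU (h8 a ha b hb).2⟩, ?_, h10⟩
  intro a ha b hb
  obtain ⟨c, hc, hc0, hc1, hcs⟩ := h9 a ha b hb
  exact ⟨c, hc, hc0, hc1, fun s hs => ⟨hOVU (hcs s hs).1, (hcs s hs).2⟩⟩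

end Crest.Agent.R244
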