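import Mathlib
import Crest.Agent.R244.B4Theta

-- ▼ part R244/Loops
section

set_option autoImplicit false

namespace Crest.Agent.R244.Loops

open unitInterval Set

/-- A multiplicative, homotopy invariant assignment of group elements to paths. -/
structure Hol (Y : Type*) [TopologicalSpace Y] (G : Type*) [Group G] where
  hol : ∀ {x y : Y}, Path x y → G
  hol_trans : ∀ {x y z : Y} (p : Path x y) (q : Path y z), hol (p.trans q) = hol p * hol q
  hol_homotopic : ∀ {x y : Y} (p q : Path x y), p.Homotopic q → hol p = hol q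

namespace Hol

variable {Y : Type*} [TopologicalSpace Y] {G : Type*} [Group G] (H : Hol Y G)

theorem hol_congr {x y x' y' : Y} (p : Path x y) (q : Path x' y') (h : ∀ t, p t = q t) :
    H.hol p = H.hol q := by
  have h0 : x = x' := by simpa using h 0
  have h1 : y = y' := by simpa using h 1
  subst h0; subst h1
  congr 1
  ext t; exact h t

theorem hol_refl (x : Y) : H.hol (Path.refl x) = 1 := by
  have h := H.hol_trans (Path.refl x) (Path.refl x)
  rw [Path.refl_trans_refl] at h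
  exact (mul_eq_left.mp h.symm)

/-- A continuous curve `I → Y` as a path between its endpoints. -/
def curve (f : I → Y) (hf : Continuous f) : Path (f 0) (f 1) := ⟨⟨f, hf⟩, rfl, rfl⟩

@[simp] theorem curve_apply (f : I → Y) (hf : Continuous f) (t : I) : curve f hf t = f t := rfl

section Vec

variable {E : Type*} [AddCommGroup E] [Module ℝ E] [TopologicalSpace E]
  [ContinuousAdd E] [ContinuousSMul ℝ E]
variable {E' : Type*} [AddCommGroup E'] [Module ℝ E'] [TopologicalSpace E']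
  [ContinuousAdd E'] [ContinuousSMul ℝ E']

/-- straight line parametrization -/
def line (p q : E) (t : I) : E := (1 - (t : ℝ)) • p + (t : ℝ) • q

omit [TopologicalSpace E] [ContinuousAdd E] [ContinuousSMul ℝ E] in
@[simp] theorem line_zero (p q : E) : line p q 0 = p := by simp [line]
omit [TopologicalSpace E] [ContinuousAdd E] [ContinuousSMul ℝ E] in
@[simp] theorem line_one (p q : E) : line p q 1 = q := by simp [line]

theorem continuous_line (p q : E) : Continuous (line p q) := by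
  unfold line; fun_prop

omit [TopologicalSpace E] [ContinuousAdd E] [ContinuousSMul ℝ E] in
theorem line_mem {K : Set E} (hK : Convex ℝ K) {p q : E} (hp : p ∈ K) (hq : q ∈ K) (t : I) :
    line p q t ∈ K :=
  hK hp hq (by linarith [t.2.2]) t.2.1 (by ring)

open Classical in
/-- Holonomy of `F` along the segment from `p` to `q` (junk value `1` if `F` is not continuous
along the segment). -/
noncomputable def S (F : E → Y) (p q : E) : G :=
  if h : Continuous (fun t : I => F (line p q t)) then H.hol (curve _ h) else 1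

omit [TopologicalSpace E] [ContinuousAdd E] [ContinuousSMul ℝ E] in
theorem S_of_continuous (F : E → Y) (p q : E) (h : Continuous (fun t : I => F (line p q t))) :
    H.S F p q = H.hol (curve _ h) := by
  simp [S, h]

/-- Main homotopy lemma: two curves with the same endpoints in a convex set on which `F` is
continuous. -/
theorem hol_eq_of_convex {F : E → Y} {K : Set E} (hK : Convex ℝ K) (hF : ContinuousOn F K)
    (f g : I → E) (hf : Continuous f) (hg : Continuous g) (hfK : ∀ t, f t ∈ K) (hgK : ∀ t, g t ∈ K)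
    (h0 : f 0 = g 0) (h1 : f 1 = g 1)
    {x y x' y' : Y} (p : Path x y) (q : Path x' y') (hp : ∀ t, p t = F (f t))
    (hq : ∀ t, q t = F (g t)) :
    H.hol p = H.hol q := by
  have e0 : x = x' := by
    have a := hp 0; have b := hq 0
    simp only [Path.source] at a b
    rw [a, b, h0]
  have e1 : y = y' := by
    have a := hp 1; have b := hq 1
    simp only [Path.target] at a b
    rw [a, b, h1]
  subst e0; subst e1
  apply H.hol_homotopic
  refine ⟨⟨⟨⟨fun z : I × I => F ((1 - (z.1 : ℝ)) • f z.2 + (z.1 : ℝ) • g z.2), ?_⟩, ?_, ?_⟩, ?_⟩⟩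
  · rw [← continuousOn_univ]
    refine hF.comp (by fun_prop) ?_
    intro z _
    exact hK (hfK _) (hgK _) (by linarith [z.1.2.2]) z.1.2.1 (by ring)
  · intro t; simp [hp]
  · intro t; simp [hq]
  · intro t s hs
    rcases hs with hs | hs
    · subst hs
      simp only [ContinuousMap.coe_mk, Path.coe_toContinuousMap]
      rw [hp 0, ← h0, ← add_smul]; simp
    · rw [mem_singleton_iff] at hs
      subst hs
      simp only [ContinuousMap.coe_mk, Path.coe_toContinuousMap]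
      rw [hp 1, ← h1, ← add_smul]; simp

/-- The segment holonomy of `F = F' ∘ P` equals that of `F'` between the image points, provided the
image of the segment stays in a convex set on which `F'` is continuous. -/
theorem S_comp {F : E → Y} {F' : E' → Y} {K : Set E'} (hK : Convex ℝ K) (hF' : ContinuousOn F' K)
    (P : E → E') {a b : E} (hP : Continuous fun t : I => P (line a b t))
    (hPK : ∀ t : I, P (line a b t) ∈ K) (hFP : ∀ t : I, F (line a b t) = F' (P (line a b t))) :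
    H.S F a b = H.S F' (P a) (P b) := by
  have ha : P a ∈ K := by simpa using hPK 0
  have hb : P b ∈ K := by simpa using hPK 1
  have c1 : Continuous fun t : I => F (line a b t) := by
    have : (fun t : I => F (line a b t)) = fun t : I => F' (P (line a b t)) := funext hFP
    rw [this, ← continuousOn_univ]
    exact hF'.comp hP.continuousOn (fun t _ => hPK t)
  have c2 : Continuous fun t : I => F' (line (P a) (P b) t) := by
    rw [← continuousOn_univ]
    exact hF'.comp (continuous_line _ _).continuousOn (fun t _ => line_mem hK ha hb t)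
  rw [H.S_of_continuous _ _ _ c1, H.S_of_continuous _ _ _ c2]
  exact H.hol_eq_of_convex hK hF' (fun t => P (line a b t)) (line (P a) (P b)) hP
    (continuous_line _ _) hPK (fun t => line_mem hK ha hb t) (by simp) (by simp) _ _
    (fun t => by simp [hFP]) (fun t => by simp)

/-- Triangle rule. -/
theorem S_mul {F : E → Y} {K : Set E} (hK : Convex ℝ K) (hF : ContinuousOn F K) {a b c : E}
    (ha : a ∈ K) (hb : b ∈ K) (hc : c ∈ K) : H.S F a b * H.S F b c = H.S F a c := by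
  have cc : ∀ {p q : E}, p ∈ K → q ∈ K → Continuous fun t : I => F (line p q t) := by
    intro p q hp hq
    rw [← continuousOn_univ]
    exact hF.comp (continuous_line _ _).continuousOn (fun t _ => line_mem hK hp hq t)
  rw [H.S_of_continuous _ _ _ (cc ha hb), H.S_of_continuous _ _ _ (cc hb hc),
    H.S_of_continuous _ _ _ (cc ha hc)]
  let pab : Path a b := ⟨⟨line a b, continuous_line _ _⟩, by simp, by simp⟩
  let pbc : Path b c := ⟨⟨line b c, continuous_line _ _⟩, by simp, by simp⟩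
  let qab : Path (F a) (F b) := ⟨⟨fun t => F (line a b t), cc ha hb⟩, by simp, by simp⟩
  let qbc : Path (F b) (F c) := ⟨⟨fun t => F (line b c t), cc hb hc⟩, by simp, by simp⟩
  have e1 : H.hol (curve _ (cc ha hb)) = H.hol qab := H.hol_congr _ _ (fun t => rfl)
  have e2 : H.hol (curve _ (cc hb hc)) = H.hol qbc := H.hol_congr _ _ (fun t => rfl)
  rw [e1, e2, ← H.hol_trans]
  refine H.hol_eq_of_convex hK hF (pab.trans pbc) (line a c) (Path.continuous _)
    (continuous_line _ _) ?_ (fun t => line_mem hK ha hc t) (by simp) (by simp) _ _ ?_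
    (fun t => rfl)
  · intro t
    rw [Path.trans_apply]
    split_ifs with h
    · exact line_mem hK ha hb _
    · exact line_mem hK hb hc _
  · intro t
    rw [Path.trans_apply, Path.trans_apply]
    split_ifs with h
    · rfl
    · rfl

theorem S_self (F : E → Y) (a : E) : H.S F a a = 1 := by
  have h : (fun t : I => F (line a a t)) = fun _ => F a := by
    funext t; congr 1; simp [line, ← add_smul]
  have hc : Continuous fun t : I => F (line a a t) := by rw [h]; exact continuous_const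
  rw [H.S_of_continuous _ _ _ hc, ← H.hol_refl (F a)]
  exact H.hol_congr _ _ (fun t => congrFun h t)

theorem S_inv {F : E → Y} {K : Set E} (hK : Convex ℝ K) (hF : ContinuousOn F K) {a b : E}
    (ha : a ∈ K) (hb : b ∈ K) : H.S F b a = (H.S F a b)⁻¹ := by
  have h := H.S_mul hK hF ha hb ha
  rw [H.S_self] at h
  exact (inv_eq_of_mul_eq_one_right h).symm

end Vec

end Hol

end Crest.Agent.R244.Loops
end

-- ▼ part R244/LoopsSquare
section

set_option autoImplicit false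

namespace Crest.Agent.R244.Loops

open unitInterval Set Real

/-- (closed square of half side `L` minus open disc of radius `r`) x R, centre `(p1, p2)` -/
def Ann (p1 p2 r L : ℝ) : Set (ℝ × ℝ × ℝ) :=
  {q | |q.1 - p1| ≤ L ∧ |q.2.1 - p2| ≤ L ∧ r ^ 2 ≤ (q.1 - p1) ^ 2 + (q.2.1 - p2) ^ 2}

/-- radial function of the square interpolation -/
noncomputable def rad (r L l y : ℝ) : ℝ :=
  (1 - l) * r + l * (L / max |cos (2 * π * y)| |sin (2 * π * y)|)

/-- polar coordinates: `l = 0` is the circle of radius `r`, `l = 1` the boundary of the square. -/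
noncomputable def polar (p1 p2 r L : ℝ) (q : ℝ × ℝ × ℝ) : ℝ × ℝ × ℝ :=
  (p1 + rad r L q.1 q.2.1 * cos (2 * π * q.2.1), p2 + rad r L q.1 q.2.1 * sin (2 * π * q.2.1),
    q.2.2)

theorem max_pos (x : ℝ) : 0 < max |cos x| |sin x| := by
  rcases eq_or_ne (cos x) 0 with h | h
  · have : sin x ≠ 0 := by
      intro h2
      have := sin_sq_add_cos_sq x
      rw [h, h2] at this; norm_num at this
    exact lt_max_of_lt_right (abs_pos.mpr this)
  · exact lt_max_of_lt_left (abs_pos.mpr h)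

theorem max_le_one (x : ℝ) : max |cos x| |sin x| ≤ 1 :=
  max_le (abs_cos_le_one x) (abs_sin_le_one x)

theorem continuous_polar (p1 p2 r L : ℝ) : Continuous (polar p1 p2 r L) := by
  have h : Continuous fun q : ℝ × ℝ × ℝ => rad r L q.1 q.2.1 := by
    unfold rad
    refine Continuous.add (by fun_prop) (Continuous.mul (by fun_prop) ?_)
    refine Continuous.div (by fun_prop) (by fun_prop) (fun q => (max_pos _).ne')
  unfold polar
  fun_prop

theorem rad_add_one (r L l y : ℝ) : rad r L l (y + 1) = rad r L l y := by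
  unfold rad
  rw [show 2 * π * (y + 1) = 2 * π * y + 2 * π by ring, cos_add_two_pi, sin_add_two_pi]

theorem polar_add_one (p1 p2 r L l y th : ℝ) :
    polar p1 p2 r L (l, y + 1, th) = polar p1 p2 r L (l, y, th) := by
  unfold polar
  simp only [rad_add_one]
  rw [show 2 * π * (y + 1) = 2 * π * y + 2 * π by ring, cos_add_two_pi, sin_add_two_pi]

theorem polar_mem {p1 p2 r L : ℝ} (hr : 0 < r) (hL : r ≤ L) {q : ℝ × ℝ × ℝ} (h0 : 0 ≤ q.1)
    (h1 : q.1 ≤ 1) : polar p1 p2 r L q ∈ Ann p1 p2 r L := by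
  obtain ⟨l, y, th⟩ := q
  simp only at h0 h1
  have hm := max_pos (2 * π * y)
  have hm1 := max_le_one (2 * π * y)
  set m := max |cos (2 * π * y)| |sin (2 * π * y)| with hmdef
  have hc : |cos (2 * π * y)| ≤ m := le_max_left _ _
  have hs : |sin (2 * π * y)| ≤ m := le_max_right _ _
  have hLm : L ≤ L / m := by
    rw [le_div_iff₀ hm]; nlinarith
  have hrad : rad r L l y = (1 - l) * r + l * (L / m) := rfl
  have hradr : r ≤ rad r L l y := by
    rw [hrad]; nlinarith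
  have key : ∀ c : ℝ, |c| ≤ m → |rad r L l y * c| ≤ L := by
    intro c hc
    rw [abs_mul, abs_of_pos (lt_of_lt_of_le hr hradr)]
    have h2 : rad r L l y * m ≤ L := by
      rw [hrad, add_mul, mul_assoc l, div_mul_cancel₀ _ hm.ne']
      have : (1 - l) * r * m ≤ (1 - l) * L := by
        have : r * m ≤ L := by nlinarith
        nlinarith
      nlinarith
    calc rad r L l y * |c| ≤ rad r L l y * m := by
          apply mul_le_mul_of_nonneg_left hc (by linarith)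
      _ ≤ L := h2
  refine ⟨?_, ?_, ?_⟩
  · simp only [polar, add_sub_cancel_left]; exact key _ hc
  · simp only [polar, add_sub_cancel_left]; exact key _ hs
  · simp only [polar, add_sub_cancel_left]
    have h2 := sin_sq_add_cos_sq (2 * π * y)
    have e : (rad r L l y * cos (2 * π * y)) ^ 2 + (rad r L l y * sin (2 * π * y)) ^ 2
        = (rad r L l y) ^ 2 := by
      linear_combination (rad r L l y) ^ 2 * h2
    rw [e]
    nlinarith

/-- trig inequality on the right arc -/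
theorem right_arc {y : ℝ} (h0 : -(1/8) ≤ y) (h1 : y ≤ 1/8) :
    |sin (2 * π * y)| ≤ cos (2 * π * y) := by
  have hpi := pi_pos
  have h2 : 0 < √2 := by positivity
  rw [abs_le]
  constructor
  · have h : 0 ≤ cos (2 * π * y - π / 4) :=
      cos_nonneg_of_mem_Icc ⟨by nlinarith, by nlinarith⟩
    rw [cos_sub, cos_pi_div_four, sin_pi_div_four] at h
    nlinarith
  · have h : 0 ≤ cos (2 * π * y + π / 4) :=
      cos_nonneg_of_mem_Icc ⟨by nlinarith, by nlinarith⟩
    rw [cos_add, cos_pi_div_four, sin_pi_div_four] at h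
    nlinarith

theorem top_arc {y : ℝ} (h0 : 1/8 ≤ y) (h1 : y ≤ 3/8) :
    |cos (2 * π * y)| ≤ sin (2 * π * y) := by
  have h := right_arc (y := y - 1/4) (by linarith) (by linarith)
  rw [show 2 * π * (y - 1/4) = 2 * π * y - π / 2 by ring, sin_sub_pi_div_two,
    cos_sub_pi_div_two, abs_neg] at h
  exact h

theorem left_arc {y : ℝ} (h0 : 3/8 ≤ y) (h1 : y ≤ 5/8) :
    |sin (2 * π * y)| ≤ -cos (2 * π * y) := by
  have h := right_arc (y := y - 1/2) (by linarith) (by linarith)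
  rw [show 2 * π * (y - 1/2) = 2 * π * y - π by ring, sin_sub_pi,
    cos_sub_pi, abs_neg] at h
  exact h

theorem bottom_arc {y : ℝ} (h0 : -(3/8) ≤ y) (h1 : y ≤ -(1/8)) :
    |cos (2 * π * y)| ≤ -sin (2 * π * y) := by
  have h := right_arc (y := y + 1/4) (by linarith) (by linarith)
  rw [show 2 * π * (y + 1/4) = 2 * π * y + π / 2 by ring, sin_add_pi_div_two,
    cos_add_pi_div_two] at h
  exact h

theorem polar_bottom {p1 p2 r L y th : ℝ} (hL : 0 < L) (h0 : -(3/8) ≤ y) (h1 : y ≤ -(1/8)) :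
    (polar p1 p2 r L (1, y, th)).2.1 = p2 - L ∧ |(polar p1 p2 r L (1, y, th)).1 - p1| ≤ L := by
  have h := bottom_arc h0 h1
  have hm := max_pos (2 * π * y)
  have hs : |sin (2 * π * y)| = -sin (2 * π * y) :=
    abs_of_nonpos (by linarith [abs_nonneg (cos (2 * π * y))])
  have hmax : max |cos (2 * π * y)| |sin (2 * π * y)| = -sin (2 * π * y) := by
    rw [hs]; exact max_eq_right h
  rw [hmax] at hm
  have hr : rad r L 1 y = L / (-sin (2 * π * y)) := by
    unfold rad; rw [hmax]; ring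
  constructor
  · simp only [polar, hr]
    have : sin (2 * π * y) ≠ 0 := by intro h2; rw [h2] at hm; norm_num at hm
    field_simp
    ring
  · simp only [polar, hr, add_sub_cancel_left]
    rw [abs_mul, abs_div, abs_of_pos hL, abs_of_pos hm, div_mul_eq_mul_div, div_le_iff₀ hm]
    exact mul_le_mul_of_nonneg_left h hL.le

theorem polar_top {p1 p2 r L y th : ℝ} (hL : 0 < L) (h0 : 1/8 ≤ y) (h1 : y ≤ 3/8) :
    (polar p1 p2 r L (1, y, th)).2.1 = p2 + L ∧ |(polar p1 p2 r L (1, y, th)).1 - p1| ≤ L := by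
  have h := top_arc h0 h1
  have hm := max_pos (2 * π * y)
  have hs : |sin (2 * π * y)| = sin (2 * π * y) :=
    abs_of_nonneg (by linarith [abs_nonneg (cos (2 * π * y))])
  have hmax : max |cos (2 * π * y)| |sin (2 * π * y)| = sin (2 * π * y) := by
    rw [hs]; exact max_eq_right h
  rw [hmax] at hm
  have hr : rad r L 1 y = L / (sin (2 * π * y)) := by
    unfold rad; rw [hmax]; ring
  constructor
  · simp only [polar, hr]
    rw [div_mul_cancel₀ _ hm.ne']
  · simp only [polar, hr, add_sub_cancel_left]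
    rw [abs_mul, abs_div, abs_of_pos hL, abs_of_pos hm, div_mul_eq_mul_div, div_le_iff₀ hm]
    exact mul_le_mul_of_nonneg_left h hL.le

theorem polar_right {p1 p2 r L y th : ℝ} (hL : 0 < L) (h0 : -(1/8) ≤ y) (h1 : y ≤ 1/8) :
    (polar p1 p2 r L (1, y, th)).1 = p1 + L ∧ |(polar p1 p2 r L (1, y, th)).2.1 - p2| ≤ L := by
  have h := right_arc h0 h1
  have hm := max_pos (2 * π * y)
  have hs : |cos (2 * π * y)| = cos (2 * π * y) :=
    abs_of_nonneg (by linarith [abs_nonneg (sin (2 * π * y))])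
  have hmax : max |cos (2 * π * y)| |sin (2 * π * y)| = cos (2 * π * y) := by
    rw [hs]; exact max_eq_left h
  rw [hmax] at hm
  have hr : rad r L 1 y = L / (cos (2 * π * y)) := by
    unfold rad; rw [hmax]; ring
  constructor
  · simp only [polar, hr]
    rw [div_mul_cancel₀ _ hm.ne']
  · simp only [polar, hr, add_sub_cancel_left]
    rw [abs_mul, abs_div, abs_of_pos hL, abs_of_pos hm, div_mul_eq_mul_div, div_le_iff₀ hm]
    exact mul_le_mul_of_nonneg_left h hL.le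

theorem polar_left {p1 p2 r L y th : ℝ} (hL : 0 < L) (h0 : 3/8 ≤ y) (h1 : y ≤ 5/8) :
    (polar p1 p2 r L (1, y, th)).1 = p1 - L ∧ |(polar p1 p2 r L (1, y, th)).2.1 - p2| ≤ L := by
  have h := left_arc h0 h1
  have hm := max_pos (2 * π * y)
  have hs : |cos (2 * π * y)| = -cos (2 * π * y) :=
    abs_of_nonpos (by linarith [abs_nonneg (sin (2 * π * y))])
  have hmax : max |cos (2 * π * y)| |sin (2 * π * y)| = -cos (2 * π * y) := by
    rw [hs]; exact max_eq_left h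
  rw [hmax] at hm
  have hr : rad r L 1 y = L / (-cos (2 * π * y)) := by
    unfold rad; rw [hmax]; ring
  constructor
  · simp only [polar, hr]
    have : cos (2 * π * y) ≠ 0 := by intro h2; rw [h2] at hm; norm_num at hm
    field_simp
    ring
  · simp only [polar, hr, add_sub_cancel_left]
    rw [abs_mul, abs_div, abs_of_pos hL, abs_of_pos hm, div_mul_eq_mul_div, div_le_iff₀ hm]
    exact mul_le_mul_of_nonneg_left h hL.le

theorem polar_c10 {p1 p2 r L th : ℝ} (hL : 0 < L) :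
    polar p1 p2 r L (1, -(1/8), th) = (p1 + L, p2 - L, th) := by
  have h1 := (polar_bottom (p1 := p1) (p2 := p2) (r := r) (th := th) hL
    (y := -(1/8)) (by norm_num) le_rfl).1
  have h2 := (polar_right (p1 := p1) (p2 := p2) (r := r) (th := th) hL
    (y := -(1/8)) le_rfl (by norm_num)).1
  exact Prod.ext h2 (Prod.ext h1 rfl)

theorem polar_c11 {p1 p2 r L th : ℝ} (hL : 0 < L) :
    polar p1 p2 r L (1, 1/8, th) = (p1 + L, p2 + L, th) := by
  have h1 := (polar_top (p1 := p1) (p2 := p2) (r := r) (th := th) hL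
    (y := 1/8) le_rfl (by norm_num)).1
  have h2 := (polar_right (p1 := p1) (p2 := p2) (r := r) (th := th) hL
    (y := 1/8) (by norm_num) le_rfl).1
  exact Prod.ext h2 (Prod.ext h1 rfl)

theorem polar_c01 {p1 p2 r L th : ℝ} (hL : 0 < L) :
    polar p1 p2 r L (1, 3/8, th) = (p1 - L, p2 + L, th) := by
  have h1 := (polar_top (p1 := p1) (p2 := p2) (r := r) (th := th) hL
    (y := 3/8) (by norm_num) le_rfl).1
  have h2 := (polar_left (p1 := p1) (p2 := p2) (r := r) (th := th) hL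
    (y := 3/8) le_rfl (by norm_num)).1
  exact Prod.ext h2 (Prod.ext h1 rfl)

theorem polar_c00 {p1 p2 r L th : ℝ} (hL : 0 < L) :
    polar p1 p2 r L (1, -(3/8), th) = (p1 - L, p2 - L, th) := by
  have h1 := (polar_bottom (p1 := p1) (p2 := p2) (r := r) (th := th) hL
    (y := -(3/8)) le_rfl (by norm_num)).1
  have h2 := (polar_left (p1 := p1) (p2 := p2) (r := r) (th := th) hL
    (y := 5/8) (by norm_num) le_rfl).1
  have h3 := polar_add_one p1 p2 r L 1 (-(3/8)) th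
  rw [show (-(3/8) + 1 : ℝ) = 5/8 by norm_num] at h3
  rw [h3] at h2
  exact Prod.ext h2 (Prod.ext h1 rfl)

theorem polar_c00' {p1 p2 r L th : ℝ} (hL : 0 < L) :
    polar p1 p2 r L (1, 5/8, th) = (p1 - L, p2 - L, th) := by
  have h3 := polar_add_one p1 p2 r L 1 (-(3/8)) th
  rw [show (-(3/8) + 1 : ℝ) = 5/8 by norm_num] at h3
  rw [h3, polar_c00 hL]

/-- the circle end -/
theorem polar_zero (p1 p2 r L y th : ℝ) :
    polar p1 p2 r L (0, y, th) = (p1 + r * cos (2 * π * y), p2 + r * sin (2 * π * y), th) := by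
  simp [polar, rad]

/-- the domain of the polar map -/
def Strip : Set (ℝ × ℝ × ℝ) := {q | 0 ≤ q.1 ∧ q.1 ≤ 1}

theorem convex_strip : Convex ℝ Strip := by
  have h : Strip = (fun q : ℝ × ℝ × ℝ => q.1) ⁻¹' Icc 0 1 := rfl
  rw [h]
  exact (convex_Icc (0 : ℝ) 1).is_linear_preimage ⟨fun _ _ => rfl, fun _ _ => rfl⟩

variable {Y : Type*} [TopologicalSpace Y]

theorem continuousOn_comp_polar {F : ℝ × ℝ × ℝ → Y} {p1 p2 r L : ℝ} (hr : 0 < r) (hL : r ≤ L)
    (hF : ContinuousOn F (Ann p1 p2 r L)) :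
    ContinuousOn (fun q => F (polar p1 p2 r L q)) Strip :=
  hF.comp (continuous_polar p1 p2 r L).continuousOn (fun _ hq => polar_mem hr hL hq.1 hq.2)

/-- horizontal edge at height `b`, times the fibre line -/
def HEdge (p1 L b : ℝ) : Set (ℝ × ℝ × ℝ) := {q | q.2.1 = b ∧ |q.1 - p1| ≤ L}
/-- vertical edge at abscissa `b`, times the fibre line -/
def VEdge (p2 L b : ℝ) : Set (ℝ × ℝ × ℝ) := {q | q.1 = b ∧ |q.2.1 - p2| ≤ L}

theorem convex_hedge (p1 L b : ℝ) : Convex ℝ (HEdge p1 L b) := by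
  intro x hx y hy s t hs ht hst
  obtain ⟨h1, h3⟩ := hx
  obtain ⟨h4, h6⟩ := hy
  refine ⟨?_, ?_⟩
  · simp only [Prod.snd_add, Prod.fst_add, Prod.smul_snd, Prod.smul_fst, smul_eq_mul, h1, h4]
    rw [← add_mul, hst, one_mul]
  · simp only [Prod.fst_add, Prod.smul_fst, smul_eq_mul]
    rw [abs_le] at h3 h6 ⊢
    have e : s * x.1 + t * y.1 - p1 = s * (x.1 - p1) + t * (y.1 - p1) := by
      linear_combination (-p1) * (-hst)
    rw [e]
    constructor <;> nlinarith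

theorem convex_vedge (p2 L b : ℝ) : Convex ℝ (VEdge p2 L b) := by
  intro x hx y hy s t hs ht hst
  obtain ⟨h1, h3⟩ := hx
  obtain ⟨h4, h6⟩ := hy
  refine ⟨?_, ?_⟩
  · simp only [Prod.fst_add, Prod.smul_fst, smul_eq_mul, h1, h4]
    rw [← add_mul, hst, one_mul]
  · simp only [Prod.fst_add, Prod.snd_add, Prod.smul_snd, Prod.smul_fst, smul_eq_mul]
    rw [abs_le] at h3 h6 ⊢
    have e : s * x.2.1 + t * y.2.1 - p2 = s * (x.2.1 - p2) + t * (y.2.1 - p2) := by
      linear_combination (-p2) * (-hst)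
    rw [e]
    constructor <;> nlinarith

theorem hedge_bottom_subset {p1 p2 r L : ℝ} (hr : 0 < r) (hL : r ≤ L) :
    HEdge p1 L (p2 - L) ⊆ Ann p1 p2 r L := by
  rintro q ⟨h1, h2⟩
  refine ⟨h2, ?_, ?_⟩
  · rw [h1, show p2 - L - p2 = -L by ring, abs_neg, abs_of_pos (by linarith)]
  · rw [h1]; nlinarith [sq_nonneg (q.1 - p1)]

theorem hedge_top_subset {p1 p2 r L : ℝ} (hr : 0 < r) (hL : r ≤ L) :
    HEdge p1 L (p2 + L) ⊆ Ann p1 p2 r L := by
  rintro q ⟨h1, h2⟩
  refine ⟨h2, ?_, ?_⟩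
  · rw [h1, show p2 + L - p2 = L by ring, abs_of_pos (by linarith)]
  · rw [h1]; nlinarith [sq_nonneg (q.1 - p1)]

theorem vedge_left_subset {p1 p2 r L : ℝ} (hr : 0 < r) (hL : r ≤ L) :
    VEdge p2 L (p1 - L) ⊆ Ann p1 p2 r L := by
  rintro q ⟨h1, h2⟩
  refine ⟨?_, h2, ?_⟩
  · rw [h1, show p1 - L - p1 = -L by ring, abs_neg, abs_of_pos (by linarith)]
  · rw [h1]; nlinarith [sq_nonneg (q.2.1 - p2)]

theorem vedge_right_subset {p1 p2 r L : ℝ} (hr : 0 < r) (hL : r ≤ L) :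
    VEdge p2 L (p1 + L) ⊆ Ann p1 p2 r L := by
  rintro q ⟨h1, h2⟩
  refine ⟨?_, h2, ?_⟩
  · rw [h1, show p1 + L - p1 = L by ring, abs_of_pos (by linarith)]
  · rw [h1]; nlinarith [sq_nonneg (q.2.1 - p2)]


theorem line_mk (a b c a' b' c' : ℝ) (t : I) :
    Hol.line (a, b, c) (a', b', c') t =
      ((1 - (t:ℝ)) * a + t * a', (1 - (t:ℝ)) * b + t * b', (1 - (t:ℝ)) * c + t * c') := by
  simp [Hol.line]

variable {G : Type*} [Group G] (H : Hol Y G)

section Square

variable {F : ℝ × ℝ × ℝ → Y} {p1 p2 r L : ℝ}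

/-- the function in polar coordinates -/
noncomputable def pol (F : ℝ × ℝ × ℝ → Y) (p1 p2 r L : ℝ) (q : ℝ × ℝ × ℝ) : Y :=
  F (polar p1 p2 r L q)

theorem continuousOn_pol (hr : 0 < r) (hL : r ≤ L)
    (hF : ContinuousOn F (Ann p1 p2 r L)) : ContinuousOn (pol F p1 p2 r L) Strip :=
  continuousOn_comp_polar hr hL hF

theorem edge_bottom (hr : 0 < r) (hL : r ≤ L) (hF : ContinuousOn F (Ann p1 p2 r L)) :
    H.S (pol F p1 p2 r L) (1, -(3/8), 0) (1, -(1/8), 0) =
      H.S F (p1 - L, p2 - L, 0) (p1 + L, p2 - L, 0) := by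
  have hL0 : 0 < L := by linarith
  rw [← polar_c00 (r := r) (th := 0) hL0, ← polar_c10 (r := r) (th := 0) hL0]
  refine H.S_comp (convex_hedge p1 L (p2 - L)) (hF.mono (hedge_bottom_subset hr hL)) _
    ((continuous_polar _ _ _ _).comp (Hol.continuous_line _ _)) ?_ (fun t => rfl)
  intro t
  rw [line_mk]
  rw [show (1 - (t:ℝ)) * 1 + (t:ℝ) * 1 = 1 by ring]
  have h := polar_bottom (p1 := p1) (p2 := p2) (r := r) (y := (1 - (t:ℝ)) * -(3/8) + t * -(1/8))
    (th := (1 - (t:ℝ)) * 0 + t * 0) hL0 (by linarith [t.2.1]) (by linarith [t.2.2])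
  exact ⟨h.1, h.2⟩

theorem edge_right (hr : 0 < r) (hL : r ≤ L) (hF : ContinuousOn F (Ann p1 p2 r L)) :
    H.S (pol F p1 p2 r L) (1, -(1/8), 0) (1, 1/8, 0) =
      H.S F (p1 + L, p2 - L, 0) (p1 + L, p2 + L, 0) := by
  have hL0 : 0 < L := by linarith
  rw [← polar_c11 (r := r) (th := 0) hL0, ← polar_c10 (r := r) (th := 0) hL0]
  refine H.S_comp (convex_vedge p2 L (p1 + L)) (hF.mono (vedge_right_subset hr hL)) _
    ((continuous_polar _ _ _ _).comp (Hol.continuous_line _ _)) ?_ (fun t => rfl)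
  intro t
  rw [line_mk]
  rw [show (1 - (t:ℝ)) * 1 + (t:ℝ) * 1 = 1 by ring]
  have h := polar_right (p1 := p1) (p2 := p2) (r := r) (y := (1 - (t:ℝ)) * -(1/8) + t * (1/8))
    (th := (1 - (t:ℝ)) * 0 + t * 0) hL0 (by linarith [t.2.1]) (by linarith [t.2.2])
  exact ⟨h.1, h.2⟩

theorem edge_top (hr : 0 < r) (hL : r ≤ L) (hF : ContinuousOn F (Ann p1 p2 r L)) :
    H.S (pol F p1 p2 r L) (1, 1/8, 0) (1, 3/8, 0) =
      H.S F (p1 + L, p2 + L, 0) (p1 - L, p2 + L, 0) := by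
  have hL0 : 0 < L := by linarith
  rw [← polar_c11 (r := r) (th := 0) hL0, ← polar_c01 (r := r) (th := 0) hL0]
  refine H.S_comp (convex_hedge p1 L (p2 + L)) (hF.mono (hedge_top_subset hr hL)) _
    ((continuous_polar _ _ _ _).comp (Hol.continuous_line _ _)) ?_ (fun t => rfl)
  intro t
  rw [line_mk]
  rw [show (1 - (t:ℝ)) * 1 + (t:ℝ) * 1 = 1 by ring]
  have h := polar_top (p1 := p1) (p2 := p2) (r := r) (y := (1 - (t:ℝ)) * (1/8) + t * (3/8))
    (th := (1 - (t:ℝ)) * 0 + t * 0) hL0 (by linarith [t.2.1]) (by linarith [t.2.2])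
  exact ⟨h.1, h.2⟩

theorem edge_left (hr : 0 < r) (hL : r ≤ L) (hF : ContinuousOn F (Ann p1 p2 r L)) :
    H.S (pol F p1 p2 r L) (1, 3/8, 0) (1, 5/8, 0) =
      H.S F (p1 - L, p2 + L, 0) (p1 - L, p2 - L, 0) := by
  have hL0 : 0 < L := by linarith
  rw [← polar_c01 (r := r) (th := 0) hL0, ← polar_c00' (r := r) (th := 0) hL0]
  refine H.S_comp (convex_vedge p2 L (p1 - L)) (hF.mono (vedge_left_subset hr hL)) _
    ((continuous_polar _ _ _ _).comp (Hol.continuous_line _ _)) ?_ (fun t => rfl)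
  intro t
  rw [line_mk]
  rw [show (1 - (t:ℝ)) * 1 + (t:ℝ) * 1 = 1 by ring]
  have h := polar_left (p1 := p1) (p2 := p2) (r := r) (y := (1 - (t:ℝ)) * (3/8) + t * (5/8))
    (th := (1 - (t:ℝ)) * 0 + t * 0) hL0 (by linarith [t.2.1]) (by linarith [t.2.2])
  exact ⟨h.1, h.2⟩

theorem pol_shift (q : ℝ × ℝ × ℝ) : pol F p1 p2 r L (q + (0, 1, 0)) = pol F p1 p2 r L q := by
  obtain ⟨l, y, th⟩ := q
  unfold pol
  congr 1
  simpa using polar_add_one p1 p2 r L l y th

/-- connecting path from the corner to the circle -/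
noncomputable def dlt (F : ℝ × ℝ × ℝ → Y) (p1 p2 r L : ℝ) : G :=
  H.S (pol F p1 p2 r L) (1, -(3/8), 0) (0, 0, 0)

/-- the boundary circle -/
noncomputable def bd (F : ℝ × ℝ × ℝ → Y) (p1 p2 r L : ℝ) : G :=
  H.S (pol F p1 p2 r L) (0, 0, 0) (0, 1, 0)

/-- **Square lemma.** -/
theorem square (hr : 0 < r) (hL : r ≤ L) (hF : ContinuousOn F (Ann p1 p2 r L)) :
    H.S F (p1 - L, p2 - L, 0) (p1 + L, p2 - L, 0) * H.S F (p1 + L, p2 - L, 0) (p1 + L, p2 + L, 0)
      * (H.S F (p1 - L, p2 + L, 0) (p1 + L, p2 + L, 0))⁻¹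
      * (H.S F (p1 - L, p2 - L, 0) (p1 - L, p2 + L, 0))⁻¹
    = dlt H F p1 p2 r L * bd H F p1 p2 r L * (dlt H F p1 p2 r L)⁻¹ := by
  have hL0 : 0 < L := by linarith
  have hA := continuousOn_pol hr hL hF
  have m : ∀ {l y th : ℝ}, 0 ≤ l → l ≤ 1 → ((l, y, th) : ℝ × ℝ × ℝ) ∈ Strip :=
    fun h0 h1 => ⟨h0, h1⟩
  have e3 : (H.S F (p1 - L, p2 + L, 0) (p1 + L, p2 + L, 0))⁻¹
      = H.S F (p1 + L, p2 + L, 0) (p1 - L, p2 + L, 0) := by
    refine (H.S_inv (convex_hedge p1 L (p2 + L)) (hF.mono (hedge_top_subset hr hL)) ?_ ?_).symm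
    · refine ⟨rfl, ?_⟩
      simp only; rw [show p1 - L - p1 = -L by ring, abs_neg, abs_of_pos hL0]
    · refine ⟨rfl, ?_⟩
      simp only; rw [show p1 + L - p1 = L by ring, abs_of_pos hL0]
  have e4 : (H.S F (p1 - L, p2 - L, 0) (p1 - L, p2 + L, 0))⁻¹
      = H.S F (p1 - L, p2 + L, 0) (p1 - L, p2 - L, 0) := by
    refine (H.S_inv (convex_vedge p2 L (p1 - L)) (hF.mono (vedge_left_subset hr hL)) ?_ ?_).symm
    · refine ⟨rfl, ?_⟩
      simp only; rw [show p2 - L - p2 = -L by ring, abs_neg, abs_of_pos hL0]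
    · refine ⟨rfl, ?_⟩
      simp only; rw [show p2 + L - p2 = L by ring, abs_of_pos hL0]
  rw [e3, e4, ← edge_bottom H hr hL hF, ← edge_right H hr hL hF, ← edge_top H hr hL hF,
    ← edge_left H hr hL hF]
  rw [H.S_mul convex_strip hA (m zero_le_one le_rfl) (m zero_le_one le_rfl) (m zero_le_one le_rfl),
    H.S_mul convex_strip hA (m zero_le_one le_rfl) (m zero_le_one le_rfl) (m zero_le_one le_rfl),
    H.S_mul convex_strip hA (m zero_le_one le_rfl) (m zero_le_one le_rfl) (m zero_le_one le_rfl)]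
  have e5 : (dlt H F p1 p2 r L)⁻¹ = H.S (pol F p1 p2 r L) (0, 1, 0) (1, 5/8, 0) := by
    unfold dlt
    rw [← H.S_inv convex_strip hA (m zero_le_one le_rfl) (m le_rfl zero_le_one)]
    have h := H.S_comp (F := pol F p1 p2 r L) (F' := pol F p1 p2 r L) convex_strip hA
      (fun q => q + (0, 1, 0)) (a := (0, 0, 0)) (b := (1, -(3/8), 0))
      ((Hol.continuous_line _ _).add continuous_const) ?_ (fun t => (pol_shift _).symm)
    · rw [h]; congr 1
      · norm_num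
      · norm_num
    · intro t
      rw [line_mk]
      refine ⟨?_, ?_⟩
      · simp only [Prod.mk_add_mk]; linarith [t.2.1]
      · simp only [Prod.mk_add_mk]; linarith [t.2.2]
  rw [e5]
  unfold dlt bd
  rw [H.S_mul convex_strip hA (m zero_le_one le_rfl) (m le_rfl zero_le_one) (m le_rfl zero_le_one),
    H.S_mul convex_strip hA (m zero_le_one le_rfl) (m le_rfl zero_le_one) (m zero_le_one le_rfl)]

end Square

end Crest.Agent.R244.Loops
end

-- ▼ part R244/LoopsBlock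
section

set_option autoImplicit false

namespace Crest.Agent.R244.Loops

open unitInterval Set Real
open scoped commutatorElement

variable {Y : Type*} [TopologicalSpace Y] {G : Type*} [Group G] (H : Hol Y G)

section Shift

variable {E : Type*} [AddCommGroup E] [Module ℝ E] [TopologicalSpace E]
  [ContinuousAdd E] [ContinuousSMul ℝ E]

/-- Invariance of the holonomy under a translation leaving `F` invariant. -/
theorem S_shift {F : E → Y} {K : Set E} (hK : Convex ℝ K) (hF : ContinuousOn F K) (v : E)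
    {a b : E} (ha : a + v ∈ K) (hb : b + v ∈ K)
    (hv : ∀ t : I, F (Hol.line a b t + v) = F (Hol.line a b t)) :
    H.S F a b = H.S F (a + v) (b + v) := by
  have key : ∀ t : I, Hol.line a b t + v = Hol.line (a + v) (b + v) t := by
    intro t
    simp only [Hol.line, smul_add, sub_smul, one_smul]
    abel
  refine H.S_comp hK hF (fun x => x + v) ((Hol.continuous_line a b).add continuous_const) ?_
    (fun t => (hv t).symm)
  intro t
  rw [key t]
  exact Hol.line_mem hK ha hb t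

/-- The loops `F` along `v` based at `a` and `b` are conjugate by the path from `a` to `b`. -/
theorem S_transport {F : E → Y} {K : Set E} (hK : Convex ℝ K) (hF : ContinuousOn F K) (v : E)
    {a b : E} (ha : a ∈ K) (hb : b ∈ K) (hav : a + v ∈ K) (hbv : b + v ∈ K)
    (hv : ∀ t : I, F (Hol.line a b t + v) = F (Hol.line a b t)) :
    H.S F a (a + v) * H.S F a b = H.S F a b * H.S F b (b + v) := by
  have h := S_shift H hK hF v hav hbv hv
  calc H.S F a (a + v) * H.S F a b = H.S F a (a + v) * H.S F (a + v) (b + v) := by rw [← h]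
    _ = H.S F a (b + v) := H.S_mul hK hF ha hav hbv
    _ = H.S F a b * H.S F b (b + v) := (H.S_mul hK hF ha hb hbv).symm

end Shift

section Fibre

variable {F : ℝ × ℝ × ℝ → Y} {p1 p2 r L a : ℝ}

theorem mem_hedge {p1 L b z th : ℝ} (h : |z - p1| ≤ L) : ((z, b, th) : ℝ × ℝ × ℝ) ∈ HEdge p1 L b :=
  ⟨rfl, h⟩
theorem mem_vedge {p2 L b z th : ℝ} (h : |z - p2| ≤ L) : ((b, z, th) : ℝ × ℝ × ℝ) ∈ VEdge p2 L b :=
  ⟨rfl, h⟩

theorem abs_left {p L : ℝ} (hL : 0 < L) : |p - L - p| ≤ L := by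
  rw [show p - L - p = -L by ring, abs_neg, abs_of_pos hL]
theorem abs_right {p L : ℝ} (hL : 0 < L) : |p + L - p| ≤ L := by
  rw [show p + L - p = L by ring, abs_of_pos hL]

/-- fibre period -/
def FibPer (F : ℝ × ℝ × ℝ → Y) (p1 p2 r L a : ℝ) : Prop :=
  ∀ q ∈ Ann p1 p2 r L, F (q + (0, 0, a)) = F q

/-- fibre loop at `(z1, z2)` -/
noncomputable def fib (F : ℝ × ℝ × ℝ → Y) (a z1 z2 : ℝ) : G := H.S F (z1, z2, 0) (z1, z2, a)

theorem fib_bottom (hr : 0 < r) (hL : r ≤ L) (hF : ContinuousOn F (Ann p1 p2 r L))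
    (ha : FibPer F p1 p2 r L a) :
    fib H F a (p1 - L) (p2 - L) * H.S F (p1 - L, p2 - L, 0) (p1 + L, p2 - L, 0)
      = H.S F (p1 - L, p2 - L, 0) (p1 + L, p2 - L, 0) * fib H F a (p1 + L) (p2 - L) := by
  have hL0 : 0 < L := by linarith
  have h := S_transport H (convex_hedge p1 L (p2 - L)) (hF.mono (hedge_bottom_subset hr hL))
    (0, 0, a) (a := (p1 - L, p2 - L, 0)) (b := (p1 + L, p2 - L, 0))
    (mem_hedge (abs_left hL0)) (mem_hedge (abs_right hL0))
    (by simpa using mem_hedge (th := a) (b := p2 - L) (abs_left (p := p1) hL0))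
    (by simpa using mem_hedge (th := a) (b := p2 - L) (abs_right (p := p1) hL0))
    (fun t => ha _ (hedge_bottom_subset hr hL (Hol.line_mem (convex_hedge p1 L (p2 - L))
      (mem_hedge (abs_left hL0)) (mem_hedge (abs_right hL0)) t)))
  simpa [fib] using h

theorem fib_left (hr : 0 < r) (hL : r ≤ L) (hF : ContinuousOn F (Ann p1 p2 r L))
    (ha : FibPer F p1 p2 r L a) :
    fib H F a (p1 - L) (p2 - L) * H.S F (p1 - L, p2 - L, 0) (p1 - L, p2 + L, 0)
      = H.S F (p1 - L, p2 - L, 0) (p1 - L, p2 + L, 0) * fib H F a (p1 - L) (p2 + L) := by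
  have hL0 : 0 < L := by linarith
  have h := S_transport H (convex_vedge p2 L (p1 - L)) (hF.mono (vedge_left_subset hr hL))
    (0, 0, a) (a := (p1 - L, p2 - L, 0)) (b := (p1 - L, p2 + L, 0))
    (mem_vedge (abs_left hL0)) (mem_vedge (abs_right hL0))
    (by simpa using mem_vedge (th := a) (b := p1 - L) (abs_left (p := p2) hL0))
    (by simpa using mem_vedge (th := a) (b := p1 - L) (abs_right (p := p2) hL0))
    (fun t => ha _ (vedge_left_subset hr hL (Hol.line_mem (convex_vedge p2 L (p1 - L))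
      (mem_vedge (abs_left hL0)) (mem_vedge (abs_right hL0)) t)))
  simpa [fib] using h

/-- fibre loop on the boundary circle -/
noncomputable def fibc (F : ℝ × ℝ × ℝ → Y) (p1 p2 r L a : ℝ) : G :=
  H.S (pol F p1 p2 r L) (0, 0, 0) (0, 0, a)

theorem strip_add {q : ℝ × ℝ × ℝ} (hq : q ∈ Strip) (m n : ℝ) : q + (0, m, n) ∈ Strip := by
  obtain ⟨l, y, th⟩ := q
  obtain ⟨h0, h1⟩ := hq
  exact ⟨by simpa using h0, by simpa using h1⟩

theorem polar_add_fib (p1 p2 r L a : ℝ) (q : ℝ × ℝ × ℝ) :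
    polar p1 p2 r L (q + (0, 0, a)) = polar p1 p2 r L q + (0, 0, a) := by
  obtain ⟨l, y, th⟩ := q
  simp [polar]

theorem fib_dlt (hr : 0 < r) (hL : r ≤ L) (hF : ContinuousOn F (Ann p1 p2 r L))
    (ha : FibPer F p1 p2 r L a) :
    fib H F a (p1 - L) (p2 - L) * dlt H F p1 p2 r L
      = dlt H F p1 p2 r L * fibc H F p1 p2 r L a := by
  have hL0 : 0 < L := by linarith
  have s0 : ((0, 0, 0) : ℝ × ℝ × ℝ) ∈ Strip := ⟨le_rfl, zero_le_one⟩
  have s1 : ((1, -(3/8), 0) : ℝ × ℝ × ℝ) ∈ Strip := ⟨zero_le_one, le_rfl⟩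
  have h := S_transport H convex_strip (continuousOn_pol hr hL hF)
    (0, 0, a) (a := (1, -(3/8), 0)) (b := (0, 0, 0)) s1 s0 (strip_add s1 0 a) (strip_add s0 0 a)
    (fun t => by
      have hm : polar p1 p2 r L (Hol.line (1, -(3/8), 0) (0, 0, 0) t) ∈ Ann p1 p2 r L := by
        have := Hol.line_mem convex_strip s1 s0 t
        exact polar_mem hr hL this.1 this.2
      unfold pol
      rw [polar_add_fib]
      exact ha _ hm)
  have e : H.S (pol F p1 p2 r L) (1, -(3/8), 0) (1, -(3/8), a) = fib H F a (p1 - L) (p2 - L) := by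
    unfold fib
    rw [← polar_c00 (r := r) (th := 0) hL0, ← polar_c00 (r := r) (th := a) hL0]
    refine H.S_comp (convex_vedge p2 L (p1 - L)) (hF.mono (vedge_left_subset hr hL)) _
      ((continuous_polar _ _ _ _).comp (Hol.continuous_line _ _)) ?_ (fun t => rfl)
    intro t
    rw [line_mk, show (1 - (t:ℝ)) * 1 + (t:ℝ) * 1 = 1 by ring,
      show (1 - (t:ℝ)) * -(3/8) + (t:ℝ) * -(3/8) = -(3/8) by ring, polar_c00 hL0]
    exact mem_vedge (abs_left hL0)
  simp only [Prod.mk_add_mk, add_zero, zero_add] at h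
  rw [e] at h
  exact h

theorem vert_eq {b b' : ℝ} (hF' : ContinuousOn F (VEdge p2 L b'))
    (hx : ∀ z th, |z - p2| ≤ L → F (b, z, th) = F (b', z, th)) {y th y' th' : ℝ}
    (h1 : |y - p2| ≤ L) (h2 : |y' - p2| ≤ L) :
    H.S F (b, y, th) (b, y', th') = H.S F (b', y, th) (b', y', th') := by
  have hm : ∀ t : I, Hol.line (b, y, th) (b, y', th') t ∈ VEdge p2 L b :=
    Hol.line_mem (convex_vedge p2 L b) (mem_vedge h1) (mem_vedge h2)
  refine H.S_comp (convex_vedge p2 L b') hF' (fun q : ℝ × ℝ × ℝ => (b', q.2)) ?_ ?_ ?_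
  · exact (continuous_const.prodMk continuous_snd).comp (Hol.continuous_line _ _)
  · intro t
    exact ⟨rfl, (hm t).2⟩
  · intro t
    have e : Hol.line (b, y, th) (b, y', th') t = (b, (Hol.line (b, y, th) (b, y', th') t).2) :=
      Prod.ext (hm t).1 rfl
    rw [e]
    exact hx _ _ (hm t).2

theorem horiz_eq {b b' : ℝ} (hF' : ContinuousOn F (HEdge p1 L b'))
    (hy : ∀ z th, |z - p1| ≤ L → F (z, b, th) = F (z, b', th)) {x th x' th' : ℝ}
    (h1 : |x - p1| ≤ L) (h2 : |x' - p1| ≤ L) :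
    H.S F (x, b, th) (x', b, th') = H.S F (x, b', th) (x', b', th') := by
  have hm : ∀ t : I, Hol.line (x, b, th) (x', b, th') t ∈ HEdge p1 L b :=
    Hol.line_mem (convex_hedge p1 L b) (mem_hedge h1) (mem_hedge h2)
  refine H.S_comp (convex_hedge p1 L b') hF' (fun q : ℝ × ℝ × ℝ => (q.1, b', q.2.2)) ?_ ?_ ?_
  · exact (continuous_fst.prodMk (continuous_const.prodMk (continuous_snd.comp
      continuous_snd))).comp (Hol.continuous_line _ _)
  · intro t
    exact ⟨rfl, (hm t).2⟩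
  · intro t
    have e : Hol.line (x, b, th) (x', b, th') t = ((Hol.line (x, b, th) (x', b, th') t).1, b,
        (Hol.line (x, b, th) (x', b, th') t).2.2) :=
      Prod.ext rfl (Prod.ext (hm t).1 rfl)
    rw [e]
    exact hy _ _ (hm t).2

/-- Hypotheses on the map `F : (square annulus) x R → Y` of an outer block. -/
structure Outer (F : ℝ × ℝ × ℝ → Y) (p1 p2 r L a : ℝ) : Prop where
  hr : 0 < r
  hL : r ≤ L
  hF : ContinuousOn F (Ann p1 p2 r L)
  hx : ∀ z th, |z - p2| ≤ L → F (p1 + L, z, th) = F (p1 - L, z, th)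
  hy : ∀ z th, |z - p1| ≤ L → F (z, p2 + L, th) = F (z, p2 - L, th)
  ha : FibPer F p1 p2 r L a

/-- horizontal generator -/
noncomputable def hgen (F : ℝ × ℝ × ℝ → Y) (p1 p2 L : ℝ) : G :=
  H.S F (p1 - L, p2 - L, 0) (p1 + L, p2 - L, 0)
/-- vertical generator -/
noncomputable def vgen (F : ℝ × ℝ × ℝ → Y) (p1 p2 L : ℝ) : G :=
  H.S F (p1 - L, p2 - L, 0) (p1 - L, p2 + L, 0)

theorem Outer.relations {F : ℝ × ℝ × ℝ → Y} {p1 p2 r L a : ℝ} (h : Outer F p1 p2 r L a) :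
    Commute (fib H F a (p1 - L) (p2 - L)) (hgen H F p1 p2 L) ∧
    Commute (fib H F a (p1 - L) (p2 - L)) (vgen H F p1 p2 L) ∧
    hgen H F p1 p2 L * vgen H F p1 p2 L * (hgen H F p1 p2 L)⁻¹ * (vgen H F p1 p2 L)⁻¹ =
      dlt H F p1 p2 r L * bd H F p1 p2 r L * (dlt H F p1 p2 r L)⁻¹ ∧
    fib H F a (p1 - L) (p2 - L) * dlt H F p1 p2 r L
      = dlt H F p1 p2 r L * fibc H F p1 p2 r L a := by
  obtain ⟨hr, hL, hF, hx, hy, ha⟩ := h
  have hL0 : 0 < L := by linarith
  have e1 : H.S F (p1 + L, p2 - L, 0) (p1 + L, p2 + L, 0) = vgen H F p1 p2 L :=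
    vert_eq H (hF.mono (vedge_left_subset hr hL)) hx (abs_left hL0) (abs_right hL0)
  have e2 : H.S F (p1 - L, p2 + L, 0) (p1 + L, p2 + L, 0) = hgen H F p1 p2 L :=
    horiz_eq H (hF.mono (hedge_bottom_subset hr hL)) hy (abs_left hL0) (abs_right hL0)
  have e3 : fib H F a (p1 + L) (p2 - L) = fib H F a (p1 - L) (p2 - L) :=
    vert_eq H (hF.mono (vedge_left_subset hr hL)) hx (abs_left hL0) (abs_left hL0)
  have e4 : fib H F a (p1 - L) (p2 + L) = fib H F a (p1 - L) (p2 - L) :=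
    horiz_eq H (hF.mono (hedge_bottom_subset hr hL)) hy (abs_left hL0) (abs_left hL0)
  refine ⟨?_, ?_, ?_, fib_dlt H hr hL hF ha⟩
  · have := fib_bottom H hr hL hF ha
    rw [e3] at this
    exact this
  · have := fib_left H hr hL hF ha
    rw [e4] at this
    exact this
  · have := square H hr hL hF
    rw [e1, e2] at this
    exact this

/-- Hypotheses on the map `F` of the centre block (two square annuli side by side). -/
structure Centre (F : ℝ × ℝ × ℝ → Y) (p1 p2 r L a : ℝ) : Prop where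
  hr : 0 < r
  hL : r ≤ L
  hF : ContinuousOn F (Ann p1 p2 r L)
  hF' : ContinuousOn F (Ann (p1 + 2 * L) p2 r L)
  hx : ∀ z th, |z - p2| ≤ L → F (p1 + 3 * L, z, th) = F (p1 - L, z, th)
  hy : ∀ z th, |z - p1| ≤ L → F (z, p2 + L, th) = F (z, p2 - L, th)
  hy' : ∀ z th, |z - (p1 + 2 * L)| ≤ L → F (z, p2 + L, th) = F (z, p2 - L, th)
  ha : FibPer F p1 p2 r L a
  ha' : FibPer F (p1 + 2 * L) p2 r L a

theorem Centre.relations {F : ℝ × ℝ × ℝ → Y} {p1 p2 r L a : ℝ} (h : Centre F p1 p2 r L a) :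
    Commute (fib H F a (p1 - L) (p2 - L)) (hgen H F p1 p2 L * hgen H F (p1 + 2 * L) p2 L) ∧
    Commute (fib H F a (p1 - L) (p2 - L)) (vgen H F p1 p2 L) ∧
    ⁅hgen H F p1 p2 L * hgen H F (p1 + 2 * L) p2 L, vgen H F p1 p2 L⁆ =
      ((hgen H F p1 p2 L * dlt H F (p1 + 2 * L) p2 r L) * bd H F (p1 + 2 * L) p2 r L *
        (hgen H F p1 p2 L * dlt H F (p1 + 2 * L) p2 r L)⁻¹) *
      (dlt H F p1 p2 r L * bd H F p1 p2 r L * (dlt H F p1 p2 r L)⁻¹) ∧
    fib H F a (p1 - L) (p2 - L) * dlt H F p1 p2 r L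
      = dlt H F p1 p2 r L * fibc H F p1 p2 r L a ∧
    fib H F a (p1 - L) (p2 - L) * (hgen H F p1 p2 L * dlt H F (p1 + 2 * L) p2 r L)
      = (hgen H F p1 p2 L * dlt H F (p1 + 2 * L) p2 r L) * fibc H F (p1 + 2 * L) p2 r L a := by
  obtain ⟨hr, hL, hF, hF', hx, hy, hy', ha, ha'⟩ := h
  have hL0 : 0 < L := by linarith
  have c1 : p1 + 2 * L - L = p1 + L := by ring
  have c2 : p1 + 2 * L + L = p1 + 3 * L := by ring
  have e1 : H.S F (p1 + 3 * L, p2 - L, 0) (p1 + 3 * L, p2 + L, 0) = vgen H F p1 p2 L :=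
    vert_eq H (hF.mono (vedge_left_subset hr hL)) hx (abs_left hL0) (abs_right hL0)
  have e2 : H.S F (p1 - L, p2 + L, 0) (p1 + L, p2 + L, 0) = hgen H F p1 p2 L :=
    horiz_eq H (hF.mono (hedge_bottom_subset hr hL)) hy (abs_left hL0) (abs_right hL0)
  have e2' : H.S F (p1 + 2 * L - L, p2 + L, 0) (p1 + 2 * L + L, p2 + L, 0)
      = hgen H F (p1 + 2 * L) p2 L :=
    horiz_eq H (hF'.mono (hedge_bottom_subset hr hL)) hy' (abs_left hL0) (abs_right hL0)
  have e3 : fib H F a (p1 + 3 * L) (p2 - L) = fib H F a (p1 - L) (p2 - L) :=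
    vert_eq H (hF.mono (vedge_left_subset hr hL)) hx (abs_left hL0) (abs_left hL0)
  have e4 : fib H F a (p1 - L) (p2 + L) = fib H F a (p1 - L) (p2 - L) :=
    horiz_eq H (hF.mono (hedge_bottom_subset hr hL)) hy (abs_left hL0) (abs_left hL0)
  have b1 := fib_bottom H hr hL hF ha
  have b2 := fib_bottom H hr hL hF' ha'
  have l1 := fib_left H hr hL hF ha
  have s1 := square H hr hL hF
  have s2 := square H hr hL hF'
  have d1 := fib_dlt H hr hL hF ha
  have d2 := fib_dlt H hr hL hF' ha'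
  rw [e2'] at s2
  rw [c2, e1] at s2
  rw [c1] at s2
  rw [e2] at s1
  rw [c1, c2, e3] at b2
  rw [c1] at d2
  rw [e4] at l1
  have g2 : hgen H F (p1 + 2 * L) p2 L = H.S F (p1 + L, p2 - L, 0) (p1 + 3 * L, p2 - L, 0) := by
    unfold hgen; rw [c1, c2]
  have g1 : H.S F (p1 - L, p2 - L, 0) (p1 + L, p2 - L, 0) = hgen H F p1 p2 L := rfl
  have g3 : H.S F (p1 - L, p2 - L, 0) (p1 - L, p2 + L, 0) = vgen H F p1 p2 L := rfl
  rw [← g2] at b2 s2
  rw [g1] at b1 s1
  rw [g3] at s1 l1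
  generalize hgen H F p1 p2 L = α₁ at *
  generalize hgen H F (p1 + 2 * L) p2 L = α₂ at *
  generalize vgen H F p1 p2 L = β at *
  generalize fib H F a (p1 - L) (p2 - L) = f at *
  generalize fib H F a (p1 + L) (p2 - L) = f' at *
  generalize dlt H F p1 p2 r L = δ₁ at *
  generalize dlt H F (p1 + 2 * L) p2 r L = δ₂ at *
  generalize bd H F p1 p2 r L = b₁ at *
  generalize bd H F (p1 + 2 * L) p2 r L = b₂ at *
  generalize H.S F (p1 + L, p2 - L, 0) (p1 + L, p2 + L, 0) = m at *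
  refine ⟨?_, l1, ?_, d1, ?_⟩
  · show f * (α₁ * α₂) = (α₁ * α₂) * f
    rw [← mul_assoc, b1, mul_assoc, b2, mul_assoc]
  · rw [commutatorElement_def]
    rw [← s1]
    have : α₁ * δ₂ * b₂ * (α₁ * δ₂)⁻¹ = α₁ * (δ₂ * b₂ * δ₂⁻¹) * α₁⁻¹ := by group
    rw [this, ← s2]
    group
  · rw [← mul_assoc, b1, mul_assoc, d2, mul_assoc]

end Fibre

end Crest.Agent.R244.Loops
end

-- ▼ part R244/LoopsMain
section

set_option autoImplicit false

namespace Crest.Agent.R244.Loops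

open unitInterval Set Real
open scoped commutatorElement

variable {Y : Type*} [TopologicalSpace Y]

/-- Collar domain -/
def Col (t₀ t₁ : ℝ) : Set (ℝ × ℝ × ℝ) := {q | t₀ ≤ q.1 ∧ q.1 ≤ t₁}

theorem convex_col (t₀ t₁ : ℝ) : Convex ℝ (Col t₀ t₁) := by
  have h : Col t₀ t₁ = (fun q : ℝ × ℝ × ℝ => q.1) ⁻¹' Icc t₀ t₁ := rfl
  rw [h]
  exact (convex_Icc t₀ t₁).is_linear_preimage ⟨fun _ _ => rfl, fun _ _ => rfl⟩

/-- Hypotheses on the map `K : [t₀,t₁] x R x R → Y` of the collar connecting the hole `(p1, p2)` of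
block 1 to the hole `(o1, o2)` of block 2. -/
structure Collar (K : ℝ × ℝ × ℝ → Y) (t₀ t₁ : ℝ) (F₁ : ℝ × ℝ × ℝ → Y) (p1 p2 r : ℝ)
    (F₂ : ℝ × ℝ × ℝ → Y) (o1 o2 ro : ℝ) : Prop where
  hT : t₀ ≤ t₁
  hK : ContinuousOn K (Col t₀ t₁)
  perx : ∀ q ∈ Col t₀ t₁, K (q + (0, 2 * π, 0)) = K q
  pery : ∀ q ∈ Col t₀ t₁, K (q + (0, 0, 2 * π)) = K q
  left : ∀ x y, K (t₀, x, y) = F₁ (p1 + r * cos y, p2 + r * sin y, x)
  right : ∀ x y, K (t₁, x, y) = F₂ (o1 + ro * cos x, o2 + ro * sin x, x + y)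

variable {G : Type*} [Group G] (H : Hol Y G)

/-- the three basic holonomies of the collar -/
noncomputable def cX (K : ℝ × ℝ × ℝ → Y) (t₀ : ℝ) : G := H.S K (t₀, 0, 0) (t₀, 2 * π, 0)
noncomputable def cY (K : ℝ × ℝ × ℝ → Y) (t₀ : ℝ) : G := H.S K (t₀, 0, 0) (t₀, 0, 2 * π)
noncomputable def cT (K : ℝ × ℝ × ℝ → Y) (t₀ t₁ : ℝ) : G := H.S K (t₀, 0, 0) (t₁, 0, 0)

theorem Collar.relations {K : ℝ × ℝ × ℝ → Y} {t₀ t₁ : ℝ} {F₁ : ℝ × ℝ × ℝ → Y} {p1 p2 r L : ℝ}
    {F₂ : ℝ × ℝ × ℝ → Y} {o1 o2 ro Lo : ℝ} (h : Collar K t₀ t₁ F₁ p1 p2 r F₂ o1 o2 ro)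
    (hr : 0 < r) (hL : r ≤ L) (hF : ContinuousOn F₁ (Ann p1 p2 r L))
    (hro : 0 < ro) (hLo : ro ≤ Lo) (hFO : ContinuousOn F₂ (Ann o1 o2 ro Lo)) :
    Commute (cX H K t₀) (cY H K t₀) ∧
    fibc H F₁ p1 p2 r L (2 * π) = cX H K t₀ ∧
    bd H F₁ p1 p2 r L = cY H K t₀ ∧
    fibc H F₂ o1 o2 ro Lo (2 * π) = (cT H K t₀ t₁)⁻¹ * cY H K t₀ * cT H K t₀ t₁ ∧
    bd H F₂ o1 o2 ro Lo =
      (cT H K t₀ t₁)⁻¹ * (cX H K t₀ * (cY H K t₀)⁻¹) * cT H K t₀ t₁ := by
  obtain ⟨hT, hK, perx, pery, left, right⟩ := h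
  have hpi : (2 * π) ≠ 0 := by positivity
  have hA := continuousOn_pol hr hL hF
  have hB := continuousOn_pol hro hLo hFO
  have m0 : ∀ u v : ℝ, ((t₀, u, v) : ℝ × ℝ × ℝ) ∈ Col t₀ t₁ := fun u v => ⟨le_rfl, hT⟩
  have mT : ∀ u v : ℝ, ((t₁, u, v) : ℝ × ℝ × ℝ) ∈ Col t₀ t₁ := fun u v => ⟨hT, le_rfl⟩
  -- left end
  have eL : ∀ x0 y0 x1 y1 : ℝ, H.S K (t₀, x0, y0) (t₀, x1, y1)
      = H.S (pol F₁ p1 p2 r L) (0, y0 / (2 * π), x0) (0, y1 / (2 * π), x1) := by
    intro x0 y0 x1 y1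
    refine H.S_comp convex_strip hA (fun q : ℝ × ℝ × ℝ => ((0 : ℝ), q.2.2 / (2 * π), q.2.1))
      (by have hc := Hol.continuous_line (E := ℝ × ℝ × ℝ) (t₀, x0, y0) (t₀, x1, y1); fun_prop) ?_ ?_
    · intro t; exact ⟨le_rfl, zero_le_one⟩
    · intro t
      rw [line_mk, show (1 - (t:ℝ)) * t₀ + t * t₀ = t₀ by ring]
      simp only [pol, polar_zero, mul_div_cancel₀ _ hpi]
      exact left _ _
  -- right end
  have eR : ∀ x0 y0 x1 y1 : ℝ, H.S K (t₁, x0, y0) (t₁, x1, y1)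
      = H.S (pol F₂ o1 o2 ro Lo) (0, x0 / (2 * π), x0 + y0) (0, x1 / (2 * π), x1 + y1) := by
    intro x0 y0 x1 y1
    refine H.S_comp convex_strip hB
      (fun q : ℝ × ℝ × ℝ => ((0 : ℝ), q.2.1 / (2 * π), q.2.1 + q.2.2))
      (by have hc := Hol.continuous_line (E := ℝ × ℝ × ℝ) (t₁, x0, y0) (t₁, x1, y1); fun_prop) ?_ ?_
    · intro t; exact ⟨le_rfl, zero_le_one⟩
    · intro t
      rw [line_mk, show (1 - (t:ℝ)) * t₁ + t * t₁ = t₁ by ring]
      simp only [pol, polar_zero, mul_div_cancel₀ _ hpi]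
      exact right _ _
  -- transport of the two periods
  have tX : ∀ {q q' : ℝ × ℝ × ℝ}, q ∈ Col t₀ t₁ → q' ∈ Col t₀ t₁ →
      H.S K q (q + (0, 2 * π, 0)) * H.S K q q' = H.S K q q' * H.S K q' (q' + (0, 2 * π, 0)) := by
    intro q q' hq hq'
    refine S_transport H (convex_col t₀ t₁) hK _ hq hq' ?_ ?_ ?_
    · exact ⟨by simpa using hq.1, by simpa using hq.2⟩
    · exact ⟨by simpa using hq'.1, by simpa using hq'.2⟩
    · intro t; exact perx _ (Hol.line_mem (convex_col t₀ t₁) hq hq' t)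
  have tY : ∀ {q q' : ℝ × ℝ × ℝ}, q ∈ Col t₀ t₁ → q' ∈ Col t₀ t₁ →
      H.S K q (q + (0, 0, 2 * π)) * H.S K q q' = H.S K q q' * H.S K q' (q' + (0, 0, 2 * π)) := by
    intro q q' hq hq'
    refine S_transport H (convex_col t₀ t₁) hK _ hq hq' ?_ ?_ ?_
    · exact ⟨by simpa using hq.1, by simpa using hq.2⟩
    · exact ⟨by simpa using hq'.1, by simpa using hq'.2⟩
    · intro t; exact pery _ (Hol.line_mem (convex_col t₀ t₁) hq hq' t)
  have tX0 := tX (m0 0 0) (mT 0 0)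
  have tY0 := tY (m0 0 0) (mT 0 0)
  have tYX := tY (m0 0 0) (m0 (2 * π) 0)
  have sY0 : H.S K (t₀, 2 * π, 0) (t₀, 2 * π, 2 * π) = cY H K t₀ := by
    have := S_shift H (convex_col t₀ t₁) hK (0, 2 * π, 0) (a := (t₀, 0, 0)) (b := (t₀, 0, 2 * π))
      (by simpa using m0 (2 * π) 0) (by simpa using m0 (2 * π) (2 * π))
      (fun t => perx _ (Hol.line_mem (convex_col t₀ t₁) (m0 0 0) (m0 0 (2 * π)) t))
    simpa [cY] using this.symm
  have sYT : H.S K (t₁, 2 * π, -(2 * π)) (t₁, 2 * π, 0) = H.S K (t₁, 0, 0) (t₁, 0, 2 * π) := by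
    have h1 := S_shift H (convex_col t₀ t₁) hK (0, 2 * π, 0) (a := (t₁, 0, 0))
      (b := (t₁, 0, 2 * π))
      (by simpa using mT (2 * π) 0) (by simpa using mT (2 * π) (2 * π))
      (fun t => perx _ (Hol.line_mem (convex_col t₀ t₁) (mT 0 0) (mT 0 (2 * π)) t))
    have h2 := S_shift H (convex_col t₀ t₁) hK (0, 0, 2 * π) (a := (t₁, 2 * π, -(2 * π)))
      (b := (t₁, 2 * π, 0))
      (by simpa using mT (2 * π) 0) (by simpa using mT (2 * π) (2 * π))
      (fun t => pery _ (Hol.line_mem (convex_col t₀ t₁) (mT (2 * π) (-(2 * π))) (mT (2 * π) 0) t))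
    rw [h1, h2]
    congr 1
    · norm_num
    · norm_num
  simp only [Prod.mk_add_mk, add_zero, zero_add] at tX0 tY0 tYX
  rw [sY0] at tYX
  change cX H K t₀ * cT H K t₀ t₁ = cT H K t₀ t₁ * _ at tX0
  change cY H K t₀ * cT H K t₀ t₁ = cT H K t₀ t₁ * _ at tY0
  change cY H K t₀ * cX H K t₀ = cX H K t₀ * cY H K t₀ at tYX
  refine ⟨tYX.symm, ?_, ?_, ?_, ?_⟩
  · have := eL 0 0 (2 * π) 0
    rw [zero_div] at this
    exact this.symm
  · have := eL 0 0 0 (2 * π)
    rw [zero_div, div_self hpi] at this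
    exact this.symm
  · have := eR 0 0 0 (2 * π)
    rw [zero_div, add_zero, zero_add] at this
    unfold fibc
    rw [← this, mul_assoc, tY0]; group
  · have := eR 0 0 (2 * π) (-(2 * π))
    rw [zero_div, add_zero, div_self hpi, add_neg_cancel] at this
    unfold bd
    have e3 : H.S K (t₁, 0, 0) (t₁, 2 * π, -(2 * π)) * H.S K (t₁, 2 * π, -(2 * π)) (t₁, 2 * π, 0)
        = H.S K (t₁, 0, 0) (t₁, 2 * π, 0) :=
      H.S_mul (convex_col t₀ t₁) hK (mT 0 0) (mT (2 * π) (-(2 * π))) (mT (2 * π) 0)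
    rw [sYT] at e3
    have e1 : H.S K (t₁, 0, 0) (t₁, 2 * π, 0) =
        (cT H K t₀ t₁)⁻¹ * (cX H K t₀ * cT H K t₀ t₁) := by
      rw [tX0]; group
    have e2 : H.S K (t₁, 0, 0) (t₁, 0, 2 * π) =
        (cT H K t₀ t₁)⁻¹ * (cY H K t₀ * cT H K t₀ t₁) := by
      rw [tY0]; group
    rw [← this, eq_mul_inv_of_mul_eq e3, e1, e2]; group

/-- Data of block maps into `Y` : two blocks and one collar (2-block version of `M`). -/
structure Blocks (Y : Type*) [TopologicalSpace Y] where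
  F₁ : ℝ × ℝ × ℝ → Y
  (p1 p2 r L : ℝ)
  hO₁ : Outer F₁ p1 p2 r L (2 * π)
  F₂ : ℝ × ℝ × ℝ → Y
  (o1 o2 ro Lo : ℝ)
  hO₂ : Outer F₂ o1 o2 ro Lo (2 * π)
  K : ℝ × ℝ × ℝ → Y
  (t₀ t₁ : ℝ)
  hK : Collar K t₀ t₁ F₁ p1 p2 r F₂ o1 o2 ro

/-- **Output of B4, group form**: `f₁`, `f₂` are the `x`-loop and the `y`-loop of the collar. -/
theorem Blocks.relations (B : Blocks Y) (H : Hol Y G) :
    ∃ a₁ c₁ a₂ c₂ : G,
      Commute (cX H B.K B.t₀) a₁ ∧ Commute (cX H B.K B.t₀) c₁ ∧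
      cY H B.K B.t₀ = a₁ * c₁ * a₁⁻¹ * c₁⁻¹ ∧
      Commute (cY H B.K B.t₀) a₂ ∧ Commute (cY H B.K B.t₀) c₂ ∧
      cX H B.K B.t₀ * (cY H B.K B.t₀)⁻¹ = a₂ * c₂ * a₂⁻¹ * c₂⁻¹ := by
  obtain ⟨o1, o2, o3, o4⟩ := B.hO₁.relations H
  obtain ⟨u1, u2, u3, u4⟩ := B.hO₂.relations H
  obtain ⟨k1, k2, k3, k4, k5⟩ := B.hK.relations H B.hO₁.hr B.hO₁.hL B.hO₁.hF B.hO₂.hr B.hO₂.hL
    B.hO₂.hF
  rw [k3] at o3
  rw [k2] at o4
  rw [k5] at u3
  rw [k4] at u4
  generalize fib H B.F₁ (2 * π) (B.p1 - B.L) (B.p2 - B.L) = φ₁ at *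
  generalize fib H B.F₂ (2 * π) (B.o1 - B.Lo) (B.o2 - B.Lo) = φ₂ at *
  generalize hgen H B.F₁ B.p1 B.p2 B.L = α₁ at *
  generalize vgen H B.F₁ B.p1 B.p2 B.L = β₁ at *
  generalize hgen H B.F₂ B.o1 B.o2 B.Lo = α₂ at *
  generalize vgen H B.F₂ B.o1 B.o2 B.Lo = β₂ at *
  generalize dlt H B.F₁ B.p1 B.p2 B.r B.L = δ₁ at *
  generalize dlt H B.F₂ B.o1 B.o2 B.ro B.Lo = δ₂ at *
  generalize cX H B.K B.t₀ = X at *
  generalize cY H B.K B.t₀ = Z at *
  generalize cT H B.K B.t₀ B.t₁ = τ at *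
  refine ⟨δ₁⁻¹ * α₁ * δ₁, δ₁⁻¹ * β₁ * δ₁, (τ * δ₂⁻¹) * α₂ * (τ * δ₂⁻¹)⁻¹,
    (τ * δ₂⁻¹) * β₂ * (τ * δ₂⁻¹)⁻¹, ?_, ?_, ?_, ?_, ?_, ?_⟩
  · have e : X = δ₁⁻¹ * φ₁ * (δ₁⁻¹)⁻¹ := by rw [inv_inv, mul_assoc, o4]; group
    have e' : δ₁⁻¹ * α₁ * δ₁ = δ₁⁻¹ * α₁ * (δ₁⁻¹)⁻¹ := by rw [inv_inv]
    rw [e, e']; exact (Commute.conj_iff _).mpr o1
  · have e : X = δ₁⁻¹ * φ₁ * (δ₁⁻¹)⁻¹ := by rw [inv_inv, mul_assoc, o4]; group
    have e' : δ₁⁻¹ * β₁ * δ₁ = δ₁⁻¹ * β₁ * (δ₁⁻¹)⁻¹ := by rw [inv_inv]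
    rw [e, e']; exact (Commute.conj_iff _).mpr o2
  · have : δ₁⁻¹ * α₁ * δ₁ * (δ₁⁻¹ * β₁ * δ₁) * (δ₁⁻¹ * α₁ * δ₁)⁻¹ * (δ₁⁻¹ * β₁ * δ₁)⁻¹
        = δ₁⁻¹ * (α₁ * β₁ * α₁⁻¹ * β₁⁻¹) * δ₁ := by group
    rw [this, o3]; group
  · have e : Z = (τ * δ₂⁻¹) * φ₂ * (τ * δ₂⁻¹)⁻¹ := by
      have : φ₂ = δ₂ * (τ⁻¹ * Z * τ) * δ₂⁻¹ := by rw [← u4]; group
      rw [this]; group
    rw [e]; exact (Commute.conj_iff _).mpr u1
  · have e : Z = (τ * δ₂⁻¹) * φ₂ * (τ * δ₂⁻¹)⁻¹ := by
      have : φ₂ = δ₂ * (τ⁻¹ * Z * τ) * δ₂⁻¹ := by rw [← u4]; group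
      rw [this]; group
    rw [e]; exact (Commute.conj_iff _).mpr u2
  · have : τ * δ₂⁻¹ * α₂ * (τ * δ₂⁻¹)⁻¹ * (τ * δ₂⁻¹ * β₂ * (τ * δ₂⁻¹)⁻¹) *
        (τ * δ₂⁻¹ * α₂ * (τ * δ₂⁻¹)⁻¹)⁻¹ * (τ * δ₂⁻¹ * β₂ * (τ * δ₂⁻¹)⁻¹)⁻¹
        = (τ * δ₂⁻¹) * (α₂ * β₂ * α₂⁻¹ * β₂⁻¹) * (τ * δ₂⁻¹)⁻¹ := by group
    rw [this, u3]; group

end Crest.Agent.R244.Loops
end

-- ▼ part R244/LoopsFinal

set_option autoImplicit false

namespace Crest.Agent.R244.Loops

open unitInterval Set Real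
open Crest.Agent.R244.B4

/-- The holonomy with values in the fundamental group. -/
noncomputable def piHol {Y : Type*} [TopologicalSpace Y] [PathConnectedSpace Y] (x₀ : Y) :
    Hol Y (FundamentalGroup Y x₀) where
  hol := fun p => (Th x₀ (Path.Homotopic.Quotient.mk p))⁻¹
  hol_trans := by
    intro x y z p q
    rw [Path.Homotopic.Quotient.mk_trans, Th_trans, mul_inv_rev]
  hol_homotopic := by
    intro x y p q h
    rw [Path.Homotopic.Quotient.eq.mpr h]

/-- **Final output of B4 (2-block M).**  The relations required by `NoNPC.lean`, where `f₂` is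
nontrivial because the `y`-loop of the collar is not null-homotopic. -/
theorem Blocks.exists_relations {Y : Type*} [TopologicalSpace Y] [PathConnectedSpace Y]
    (B : Blocks Y) (x₀ : Y)
    (hne : ∀ γ : Path (B.K (B.t₀, 0, 0)) (B.K (B.t₀, 0, 0)),
      (∀ s : I, γ s = B.K (B.t₀, 0, 2 * π * s)) → ¬ γ.Homotopic (Path.refl _)) :
    ∃ f₁ f₂ a₁ c₁ a₂ c₂ : FundamentalGroup Y x₀,
      Commute f₁ a₁ ∧ Commute f₁ c₁ ∧ f₂ = a₁ * c₁ * a₁⁻¹ * c₁⁻¹ ∧
      Commute f₂ a₂ ∧ Commute f₂ c₂ ∧ f₁ * f₂⁻¹ = a₂ * c₂ * a₂⁻¹ * c₂⁻¹ ∧ f₂ ≠ 1 := by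
  obtain ⟨a₁, c₁, a₂, c₂, h1, h2, h3, h4, h5, h6⟩ := B.relations (piHol x₀)
  refine ⟨_, _, a₁, c₁, a₂, c₂, h1, h2, h3, h4, h5, h6, ?_⟩
  intro h
  have hT := B.hK.hT
  have hcont : Continuous fun t : I => B.K (Hol.line (B.t₀, 0, 0) (B.t₀, 0, 2 * π) t) := by
    rw [← continuousOn_univ]
    exact B.hK.hK.comp (Hol.continuous_line _ _).continuousOn
      (fun t _ => Hol.line_mem (p := ((B.t₀, 0, 0) : ℝ × ℝ × ℝ)) (q := (B.t₀, 0, 2 * π))
        (convex_col B.t₀ B.t₁) ⟨le_rfl, hT⟩ ⟨le_rfl, hT⟩ t)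
  have hend : B.K (B.t₀, 0, 2 * π) = B.K (B.t₀, 0, 0) := by
    have := B.hK.pery (B.t₀, 0, 0) ⟨le_rfl, hT⟩
    simpa using this
  let γ : Path (B.K (B.t₀, 0, 0)) (B.K (B.t₀, 0, 0)) :=
    ⟨⟨fun t : I => B.K (Hol.line (B.t₀, 0, 0) (B.t₀, 0, 2 * π) t), hcont⟩, by simp, by
      simp [hend]⟩
  have hγ : ∀ s : I, γ s = B.K (B.t₀, 0, 2 * π * s) := by
    intro s
    change B.K (Hol.line (B.t₀, 0, 0) (B.t₀, 0, 2 * π) s) = _
    rw [line_mk]
    congr 1
    ext <;> simp <;> ring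
  refine hne γ hγ ?_
  unfold cY at h
  rw [Hol.S_of_continuous _ _ _ _ hcont] at h
  rw [(piHol x₀).hol_congr (Hol.curve _ hcont) γ (fun t => rfl)] at h
  have h' : (Th x₀ (Path.Homotopic.Quotient.mk γ))⁻¹ = 1 := h
  rw [inv_eq_one] at h'
  exact Path.Homotopic.Quotient.eq.mp (eq_of_Th_eq_one x₀ _ h')

end Crest.Agent.R244.Loops
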