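import Mathlib
import Crest.Prelude.Def_Geodesic

-- ▼ part R244/Man
section

/-!
# R244 package MAN, part 1: manifolds glued from open pieces of `ℝⁿ`

`Glue ι n` : open sets `U i ⊆ ℝⁿ` and an étale equivalence relation on their disjoint union.
`G.M` is the quotient; it is a smooth manifold whose preferred charts are local inverses of the
parametrisations `G.F i : ℝⁿ → G.M`.
-/

set_option autoImplicit false
open Bundle Set Filter Topology
open scoped ContDiff Manifold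

noncomputable section

namespace Crest.Agent.R244.Man

/-- Gluing data: open pieces `U i ⊆ ℝⁿ` and an étale equivalence relation on `Σ i, U i`. -/
structure Glue (ι : Type) (n : ℕ) where
  U : ι → Set (EuclideanSpace ℝ (Fin n))
  isOpen_U : ∀ i, IsOpen (U i)
  r : Setoid (Σ i, U i)
  etale : ∀ (i j : ι) (p : U i) (q : U j), r ⟨i, p⟩ ⟨j, q⟩ →
    ∃ τ : EuclideanSpace ℝ (Fin n) → EuclideanSpace ℝ (Fin n),
      ContDiffAt ℝ ∞ τ p ∧ τ p = q ∧
      ∀ᶠ z in 𝓝 (p : EuclideanSpace ℝ (Fin n)),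
        ∃ (hz : z ∈ U i) (hτ : τ z ∈ U j), r ⟨i, z, hz⟩ ⟨j, τ z, hτ⟩
  inj : ∀ (i : ι) (p : U i), ∃ V ∈ 𝓝 (p : EuclideanSpace ℝ (Fin n)),
    ∀ (z w : EuclideanSpace ℝ (Fin n)) (hz : z ∈ U i) (hw : w ∈ U i), z ∈ V → w ∈ V →
      r ⟨i, z, hz⟩ ⟨i, w, hw⟩ → z = w
  base : Σ i, U i

namespace Glue

variable {ι : Type} {n : ℕ} (G : Glue ι n)

local notation "E" => EuclideanSpace ℝ (Fin n)

/-- The glued space. -/
def M : Type := Quotient G.r

instance : TopologicalSpace G.M := inferInstanceAs (TopologicalSpace (Quotient G.r))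

/-- The quotient map. -/
def proj (x : Σ i, G.U i) : G.M := Quotient.mk G.r x

theorem proj_eq_proj {x y : Σ i, G.U i} : G.proj x = G.proj y ↔ G.r x y := Quotient.eq

theorem proj_surjective : Function.Surjective G.proj := Quotient.mk_surjective

theorem continuous_proj : Continuous G.proj := continuous_quotient_mk'

/-- `G.Trans i j p q τ`: `τ` is a local smooth representative of the gluing near `p`, with
`τ p = q`. -/
def Trans (i j : ι) (p q : E) (τ : E → E) : Prop :=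
  ContDiffAt ℝ ∞ τ p ∧ τ p = q ∧
      ∀ᶠ z in 𝓝 p, ∃ (hz : z ∈ G.U i) (hτ : τ z ∈ G.U j), G.r ⟨i, z, hz⟩ ⟨j, τ z, hτ⟩

theorem exists_trans {i j : ι} {p : G.U i} {q : G.U j} (h : G.r ⟨i, p⟩ ⟨j, q⟩) :
    ∃ τ, G.Trans i j p q τ := G.etale i j p q h

theorem Trans.rel {i j : ι} {p q : E} {τ : E → E} (h : G.Trans i j p q τ) :
    ∃ (hp : p ∈ G.U i) (hq : q ∈ G.U j), G.r ⟨i, p, hp⟩ ⟨j, q, hq⟩ := by
  obtain ⟨-, h1, h2⟩ := h
  obtain ⟨hz, hτ, hr⟩ := h2.self_of_nhds
  subst h1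
  exact ⟨hz, hτ, hr⟩

/-- two local transitions with the same value agree near the point. -/
theorem Trans.eventuallyEq {i j : ι} {p q : E} {τ τ' : E → E} (h : G.Trans i j p q τ)
    (h' : G.Trans i j p q τ') : τ =ᶠ[𝓝 p] τ' := by
  obtain ⟨hp, hq, hr⟩ := h.rel
  obtain ⟨V, hV, hinj⟩ := G.inj j ⟨q, hq⟩
  have h1 : ∀ᶠ z in 𝓝 p, τ z ∈ V := by
    have := h.1.continuousAt
    rw [ContinuousAt, h.2.1] at this
    exact this hV
  have h2 : ∀ᶠ z in 𝓝 p, τ' z ∈ V := by
    have := h'.1.continuousAt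
    rw [ContinuousAt, h'.2.1] at this
    exact this hV
  filter_upwards [h1, h2, h.2.2, h'.2.2] with z hz1 hz2 hz3 hz4
  obtain ⟨a, b, c⟩ := hz3
  obtain ⟨a', b', c'⟩ := hz4
  exact hinj _ _ b b' hz1 hz2 (G.r.trans (G.r.symm c) c')

theorem Trans.comp {i j k : ι} {p q s : E} {τ σ : E → E} (h : G.Trans i j p q τ)
    (h' : G.Trans j k q s σ) : G.Trans i k p s (σ ∘ τ) := by
  obtain ⟨h1, h2, h3⟩ := h
  obtain ⟨h1', h2', h3'⟩ := h'
  subst h2
  refine ⟨h1'.comp p h1, h2', ?_⟩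
  filter_upwards [h3, h1.continuousAt.eventually h3'] with z hz hz'
  obtain ⟨a, b, c⟩ := hz
  obtain ⟨a', b', c'⟩ := hz'
  exact ⟨a, b', G.r.trans c c'⟩

theorem trans_id {i : ι} {p : E} (hp : p ∈ G.U i) : G.Trans i i p p id := by
  refine ⟨contDiffAt_id, rfl, ?_⟩
  filter_upwards [(G.isOpen_U i).mem_nhds hp] with z hz
  exact ⟨hz, hz, G.r.refl _⟩

theorem Trans.congr {i j : ι} {p q : E} {τ τ' : E → E} (h : G.Trans i j p q τ)
    (h' : τ' =ᶠ[𝓝 p] τ) : G.Trans i j p q τ' := by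
  refine ⟨h.1.congr_of_eventuallyEq h', ?_, ?_⟩
  · rw [h'.self_of_nhds, h.2.1]
  · filter_upwards [h', h.2.2] with z hz hz'
    rw [hz]; exact hz'

theorem isOpenMap_proj : IsOpenMap G.proj := by
  intro W hW
  have hq : IsQuotientMap G.proj := isQuotientMap_quotient_mk'
  rw [← hq.isOpen_preimage, isOpen_sigma_iff]
  intro j
  rw [isOpen_iff_mem_nhds]
  intro q hq
  obtain ⟨⟨i, p⟩, hp, hpq⟩ := hq
  have hr : G.r ⟨j, q⟩ ⟨i, p⟩ := G.r.symm (G.proj_eq_proj.1 hpq)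
  obtain ⟨τ, h1, h2, h3⟩ := G.etale _ _ _ _ hr
  have hWi : IsOpen (Sigma.mk i ⁻¹' W) := hW.preimage continuous_sigmaMk
  obtain ⟨W', hW', hWW'⟩ := isOpen_induced_iff.1 hWi
  have hpW' : (p : E) ∈ W' := by
    have : p ∈ Sigma.mk i ⁻¹' W := hp
    rw [← hWW'] at this; exact this
  have h4 : ∀ᶠ z in 𝓝 (q : E), τ z ∈ W' := by
    apply h1.continuousAt.eventually
    rw [h2]; exact hW'.mem_nhds hpW'
  have h5 := (continuous_subtype_val.continuousAt (x := q)).eventually (h3.and h4)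
  filter_upwards [h5] with z hz
  obtain ⟨⟨hz1, hz2, hz3⟩, hz4⟩ := hz
  refine ⟨⟨i, τ z, hz2⟩, ?_, (G.proj_eq_proj.2 ?_)⟩
  · have : (⟨τ z, hz2⟩ : G.U i) ∈ Sigma.mk i ⁻¹' W := by
      rw [← hWW']; exact hz4
    exact this
  · exact G.r.symm hz3

theorem isOpenQuotientMap_proj : IsOpenQuotientMap G.proj :=
  ⟨G.proj_surjective, G.continuous_proj, G.isOpenMap_proj⟩

open Classical in
/-- The `i`-th parametrisation (meaningful on `U i`). -/
def F (i : ι) (z : E) : G.M := if h : z ∈ G.U i then G.proj ⟨i, z, h⟩ else G.proj G.base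

theorem F_of_mem {i : ι} {z : E} (h : z ∈ G.U i) : G.F i z = G.proj ⟨i, z, h⟩ := dif_pos h

theorem F_eq_F {i j : ι} {z w : E} (hz : z ∈ G.U i) (hw : w ∈ G.U j) :
    G.F i z = G.F j w ↔ G.r ⟨i, z, hz⟩ ⟨j, w, hw⟩ := by
  rw [G.F_of_mem hz, G.F_of_mem hw, G.proj_eq_proj]

theorem continuousOn_F (i : ι) : ContinuousOn (G.F i) (G.U i) := by
  rw [continuousOn_iff_continuous_domRestrict]
  have : (G.U i).domRestrict (G.F i) = G.proj ∘ Sigma.mk i := by
    funext z
    exact G.F_of_mem z.2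
  rw [this]
  exact G.continuous_proj.comp continuous_sigmaMk

theorem isOpen_image_F {i : ι} {V : Set E} (hV : IsOpen V) (hVU : V ⊆ G.U i) :
    IsOpen (G.F i '' V) := by
  have : G.F i '' V = G.proj '' (Sigma.mk i '' (Subtype.val ⁻¹' V)) := by
    ext m
    constructor
    · rintro ⟨z, hz, rfl⟩
      exact ⟨⟨i, z, hVU hz⟩, ⟨⟨z, hVU hz⟩, hz, rfl⟩, (G.F_of_mem _).symm⟩
    · rintro ⟨_, ⟨z, hz, rfl⟩, rfl⟩
      exact ⟨z, hz, G.F_of_mem z.2⟩
  rw [this]
  exact G.isOpenMap_proj _ (isOpenMap_sigmaMk _ (hV.preimage continuous_subtype_val))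

theorem exists_inj_nhd {i : ι} {p : E} (hp : p ∈ G.U i) :
    ∃ V : Set E, IsOpen V ∧ p ∈ V ∧ V ⊆ G.U i ∧ InjOn (G.F i) V := by
  obtain ⟨V, hV, hinj⟩ := G.inj i ⟨p, hp⟩
  obtain ⟨W, hWV, hW, hpW⟩ := mem_nhds_iff.1 hV
  refine ⟨W ∩ G.U i, hW.inter (G.isOpen_U i), ⟨hpW, hp⟩, inter_subset_right, ?_⟩
  intro z hz w hw hzw
  rw [G.F_eq_F hz.2 hw.2] at hzw
  exact hinj _ _ hz.2 hw.2 (hWV hz.1) (hWV hw.1) hzw

/-- the index of the piece used for the preferred chart at `m`. -/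
def idx (m : G.M) : ι := (Quotient.out (s := G.r) m).1

/-- the point of the piece used for the preferred chart at `m`. -/
def pt (m : G.M) : E := (Quotient.out (s := G.r) m).2

theorem pt_mem (m : G.M) : G.pt m ∈ G.U (G.idx m) := (Quotient.out (s := G.r) m).2.2

theorem F_pt (m : G.M) : G.F (G.idx m) (G.pt m) = m := by
  rw [G.F_of_mem (G.pt_mem m)]
  exact Quotient.out_eq (s := G.r) m

/-- the domain (in the piece) of the preferred chart at `m`. -/
def nb (m : G.M) : Set E := (G.exists_inj_nhd (G.pt_mem m)).choose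

theorem isOpen_nb (m : G.M) : IsOpen (G.nb m) := (G.exists_inj_nhd (G.pt_mem m)).choose_spec.1

theorem pt_mem_nb (m : G.M) : G.pt m ∈ G.nb m := (G.exists_inj_nhd (G.pt_mem m)).choose_spec.2.1

theorem nb_subset (m : G.M) : G.nb m ⊆ G.U (G.idx m) :=
  (G.exists_inj_nhd (G.pt_mem m)).choose_spec.2.2.1

theorem injOn_nb (m : G.M) : InjOn (G.F (G.idx m)) (G.nb m) :=
  (G.exists_inj_nhd (G.pt_mem m)).choose_spec.2.2.2

/-- local parametrisation around `m`. -/
def param (m : G.M) : OpenPartialHomeomorph E G.M :=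
  OpenPartialHomeomorph.ofContinuousOpenRestrict
    (InjOn.toPartialEquiv (G.F (G.idx m)) (G.nb m) (G.injOn_nb m))
    ((G.continuousOn_F _).mono (G.nb_subset m))
    (by
      intro W hW
      obtain ⟨W', hW', rfl⟩ := isOpen_induced_iff.1 hW
      have : ((InjOn.toPartialEquiv (G.F (G.idx m)) (G.nb m) (G.injOn_nb m)).source.domRestrict
          (InjOn.toPartialEquiv (G.F (G.idx m)) (G.nb m) (G.injOn_nb m))) ''
          (Subtype.val ⁻¹' W') = G.F (G.idx m) '' (W' ∩ G.nb m) := by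
        ext y
        constructor
        · rintro ⟨z, hz, rfl⟩
          exact ⟨z, ⟨hz, z.2⟩, rfl⟩
        · rintro ⟨z, hz, rfl⟩
          exact ⟨⟨z, hz.2⟩, hz.1, rfl⟩
      rw [this]
      exact G.isOpen_image_F (hW'.inter (G.isOpen_nb m))
        (inter_subset_right.trans (G.nb_subset m)))
    (G.isOpen_nb m)

@[simp] theorem coe_param (m : G.M) : ⇑(G.param m) = G.F (G.idx m) := rfl

@[simp] theorem param_source (m : G.M) : (G.param m).source = G.nb m := rfl

@[simp] theorem param_target (m : G.M) : (G.param m).target = G.F (G.idx m) '' G.nb m := rfl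

instance : ChartedSpace (EuclideanSpace ℝ (Fin n)) G.M where
  atlas := range fun m => (G.param m).symm
  chartAt m := (G.param m).symm
  mem_chart_source m := ⟨G.pt m, G.pt_mem_nb m, G.F_pt m⟩
  chart_mem_atlas m := ⟨m, rfl⟩


@[simp] theorem coe_chartAt_symm (m : G.M) :
    ⇑(chartAt (EuclideanSpace ℝ (Fin n)) m).symm = G.F (G.idx m) := rfl

@[simp] theorem chartAt_target (m : G.M) :
    (chartAt (EuclideanSpace ℝ (Fin n)) m).target = G.nb m := rfl

@[simp] theorem chartAt_source (m : G.M) :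
    (chartAt (EuclideanSpace ℝ (Fin n)) m).source = G.F (G.idx m) '' G.nb m := rfl

@[simp] theorem chartAt_self (m : G.M) : chartAt (EuclideanSpace ℝ (Fin n)) m m = G.pt m := by
  have h : (G.param m).symm (G.param m (G.pt m)) = G.pt m :=
    (G.param m).left_inv (G.pt_mem_nb m)
  rw [coe_param, G.F_pt] at h
  exact h

theorem F_chartAt {m x : G.M} (hx : x ∈ (chartAt (EuclideanSpace ℝ (Fin n)) m).source) :
    G.F (G.idx m) (chartAt (EuclideanSpace ℝ (Fin n)) m x) = x :=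
  (chartAt (EuclideanSpace ℝ (Fin n)) m).left_inv hx

theorem chartAt_mem_nb {m x : G.M} (hx : x ∈ (chartAt (EuclideanSpace ℝ (Fin n)) m).source) :
    chartAt (EuclideanSpace ℝ (Fin n)) m x ∈ G.nb m :=
  (chartAt (EuclideanSpace ℝ (Fin n)) m).map_source hx

theorem chartAt_F {m : G.M} {z : E} (hz : z ∈ G.nb m) :
    chartAt (EuclideanSpace ℝ (Fin n)) m (G.F (G.idx m) z) = z :=
  (G.param m).left_inv hz

/-- Main transition lemma: for a point `z` in a piece whose image lies in the domain of the chart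
at `m`, the chart composed with the parametrisation is locally a transition map. -/
theorem trans_chartAt_F {i : ι} {z : E} (hz : z ∈ G.U i) {m : G.M}
    (hm : G.F i z ∈ (chartAt (EuclideanSpace ℝ (Fin n)) m).source) :
    G.Trans i (G.idx m) z (chartAt (EuclideanSpace ℝ (Fin n)) m (G.F i z))
      (chartAt (EuclideanSpace ℝ (Fin n)) m ∘ G.F i) := by
  set e := chartAt (EuclideanSpace ℝ (Fin n)) m with he
  have h1 : e (G.F i z) ∈ G.nb m := G.chartAt_mem_nb hm
  have h2 : G.F (G.idx m) (e (G.F i z)) = G.F i z := G.F_chartAt hm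
  have h3 : G.r ⟨i, z, hz⟩ ⟨G.idx m, e (G.F i z), G.nb_subset m h1⟩ := by
    rw [← G.F_eq_F]; exact h2.symm
  obtain ⟨τ, hτ⟩ := G.exists_trans h3
  refine Trans.congr G hτ ?_
  have h4 : ∀ᶠ w in 𝓝 z, τ w ∈ G.nb m := by
    apply hτ.1.continuousAt.eventually
    rw [hτ.2.1]
    exact (G.isOpen_nb m).mem_nhds h1
  filter_upwards [h4, hτ.2.2] with w hw1 hw2
  obtain ⟨a, b, c⟩ := hw2
  have : G.F i w = G.F (G.idx m) (τ w) := (G.F_eq_F a b).2 c
  rw [Function.comp_apply, this]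
  exact G.chartAt_F hw1

theorem contDiffAt_chartAt_F {i : ι} {z : E} (hz : z ∈ G.U i) {m : G.M}
    (hm : G.F i z ∈ (chartAt (EuclideanSpace ℝ (Fin n)) m).source) :
    ContDiffAt ℝ ∞ (chartAt (EuclideanSpace ℝ (Fin n)) m ∘ G.F i) z :=
  (G.trans_chartAt_F hz hm).1

instance : IsManifold 𝓘(ℝ, EuclideanSpace ℝ (Fin n)) ∞ G.M := by
  apply isManifold_of_contDiffOn
  rintro _ _ ⟨m, rfl⟩ ⟨m', rfl⟩
  simp only [modelWithCornersSelf_coe, modelWithCornersSelf_coe_symm, Function.id_comp,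
    Function.comp_id, preimage_id, range_id, inter_univ]
  intro z hz
  have hz1 : z ∈ G.nb m := hz.1
  have hz2 : G.F (G.idx m) z ∈ (chartAt (EuclideanSpace ℝ (Fin n)) m').source := hz.2
  exact (G.contDiffAt_chartAt_F (G.nb_subset m hz1) hz2).contDiffWithinAt

/-! ### Hausdorff, second countable, compact -/

/-- `G.M` is Hausdorff if the relation is closed, tested piece by piece. -/
theorem t2Space
    (h : ∀ i j, IsClosed {x : G.U i × G.U j | G.r ⟨i, x.1⟩ ⟨j, x.2⟩}) : T2Space G.M := by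
  rw [t2Space_iff_of_isOpenQuotientMap G.isOpenQuotientMap_proj]
  rw [← isOpen_compl_iff, isOpen_iff_mem_nhds]
  rintro ⟨⟨i, p⟩, ⟨j, q⟩⟩ hpq
  have hc := h i j
  have hpq' : (p, q) ∉ {x : G.U i × G.U j | G.r ⟨i, x.1⟩ ⟨j, x.2⟩} := by
    intro h'
    exact hpq (G.proj_eq_proj.2 h')
  have h1 : {x : G.U i × G.U j | G.r ⟨i, x.1⟩ ⟨j, x.2⟩}ᶜ ∈ 𝓝 (p, q) := hc.isOpen_compl.mem_nhds hpq'
  rw [nhds_prod_eq, Filter.mem_prod_iff] at h1 ⊢
  obtain ⟨s, hs, t, ht, hst⟩ := h1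
  refine ⟨Sigma.mk i '' s, (isOpenMap_sigmaMk (i := i)).image_mem_nhds hs, Sigma.mk j '' t,
    (isOpenMap_sigmaMk (i := j)).image_mem_nhds ht, ?_⟩
  rintro ⟨_, _⟩ ⟨⟨x, hx, rfl⟩, ⟨y, hy, rfl⟩⟩ h'
  exact hst (show (x, y) ∈ s ×ˢ t from ⟨hx, hy⟩) (G.proj_eq_proj.1 h')


theorem secondCountable [Countable ι] : SecondCountableTopology G.M :=
  (G.isOpenQuotientMap_proj.isQuotientMap).secondCountableTopology G.isOpenMap_proj

/-- continuity of a function out of `G.M`, tested in the pieces. -/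
theorem continuous_iff {Z : Type*} [TopologicalSpace Z] {f : G.M → Z} :
    Continuous f ↔ ∀ i, ContinuousOn (fun z => f (G.F i z)) (G.U i) := by
  constructor
  · intro h i
    exact h.comp_continuousOn (G.continuousOn_F i)
  · intro h
    rw [← G.isOpenQuotientMap_proj.continuous_comp_iff, continuous_sigma_iff]
    intro i
    have := (continuousOn_iff_continuous_domRestrict.1 (h i))
    refine this.congr ?_
    intro z
    show f (G.F i z) = f (G.proj ⟨i, z⟩)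
    rw [G.F_of_mem z.2]

/-- every point is `F i z` for some `z ∈ U i`. -/
theorem exists_F (m : G.M) : ∃ i, ∃ z ∈ G.U i, G.F i z = m :=
  ⟨G.idx m, G.pt m, G.pt_mem m, G.F_pt m⟩

theorem compactSpace [Finite ι] (K : ι → Set E) (hK : ∀ i, IsCompact (K i))
    (hKU : ∀ i, K i ⊆ G.U i) (hcov : ∀ i, ∀ z ∈ G.U i, ∃ j, ∃ w ∈ K j, G.F j w = G.F i z) :
    CompactSpace G.M := by
  have : (univ : Set G.M) = ⋃ j, G.F j '' K j := by
    symm
    rw [eq_univ_iff_forall]
    intro m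
    obtain ⟨i, z, hz, rfl⟩ := G.exists_F m
    obtain ⟨j, w, hw, h⟩ := hcov i z hz
    exact mem_iUnion.2 ⟨j, w, hw, h⟩
  refine ⟨?_⟩
  rw [this]
  exact isCompact_iUnion fun j => (hK j).image_of_continuousOn ((G.continuousOn_F j).mono (hKU j))

/-! ### Orientability -/

theorem isOrientable
    (h : ∀ (i j : ι) (p q : E) (τ : E → E), G.Trans i j p q τ →
      0 < LinearMap.det (fderiv ℝ τ p : E →ₗ[ℝ] E)) :
    Crest.GeometryTopology.Geodesic.IsOrientable n G.M := by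
  refine ⟨atlas (EuclideanSpace ℝ (Fin n)) G.M, IsManifold.subset_maximalAtlas,
    fun x => ⟨chartAt _ x, chart_mem_atlas _ x, mem_chart_source _ x⟩, ?_⟩
  rintro _ ⟨m, rfl⟩ _ ⟨m', rfl⟩ x ⟨hx, hx'⟩
  have h1 := G.F_chartAt (m := m) (x := x) hx
  have h2 := G.chartAt_mem_nb (m := m) (x := x) hx
  have h3 := G.trans_chartAt_F (m := m') (z := chartAt (EuclideanSpace ℝ (Fin n)) m x)
    (G.nb_subset m h2) (by rw [h1]; exact hx')
  exact h _ _ _ _ _ h3

/-- It is enough to test one transition for each related pair. -/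
theorem isOrientable'
    (h : ∀ (i j : ι) (p : G.U i) (q : G.U j), G.r ⟨i, p⟩ ⟨j, q⟩ → ∃ τ : E → E, G.Trans i j p q τ ∧
      0 < LinearMap.det (fderiv ℝ τ p : E →ₗ[ℝ] E)) :
    Crest.GeometryTopology.Geodesic.IsOrientable n G.M := by
  refine G.isOrientable ?_
  intro i j p q τ hτ
  obtain ⟨hp, hq, hr⟩ := hτ.rel
  obtain ⟨τ', hτ', hdet⟩ := h i j ⟨p, hp⟩ ⟨q, hq⟩ hr
  rw [(hτ.eventuallyEq G hτ').fderiv_eq]
  exact hdet

end Glue

end Crest.Agent.R244.Man
end
end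

-- ▼ part R244/ManMetric

/-!
# R244 package MAN, part 2: invariant metrics on glued manifolds
-/

set_option autoImplicit false
open Bundle Set Filter Topology Bornology
open scoped ContDiff Manifold
open Crest.GeometryTopology.CoordMetric Crest.GeometryTopology.ChartCurvature
open Crest.GeometryTopology.Geodesic

noncomputable section

namespace Crest.Agent.R244.Man

namespace Glue

variable {ι : Type} {n : ℕ} (G : Glue ι n)

local notation "E" => EuclideanSpace ℝ (Fin n)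

/-- An invariant family of smooth metrics on the pieces. -/
structure MetricData where
  g : ι → E → E →L[ℝ] E →L[ℝ] ℝ
  contDiffOn : ∀ i, ContDiffOn ℝ ∞ (g i) (G.U i)
  symm : ∀ i, ∀ z ∈ G.U i, ∀ u v, g i z u v = g i z v u
  pos : ∀ i, ∀ z ∈ G.U i, ∀ v, v ≠ 0 → 0 < g i z v v
  inv : ∀ (i j : ι) (p : G.U i) (q : G.U j), G.r ⟨i, p⟩ ⟨j, q⟩ →
    ∃ τ, G.Trans i j p q τ ∧ ∀ u v, g i p u v = g j q (fderiv ℝ τ p u) (fderiv ℝ τ p v)

variable {G}

theorem MetricData.inv' (D : G.MetricData) {i j : ι} {p q : E} {τ : E → E}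
    (h : G.Trans i j p q τ) (u v : E) :
    D.g i p u v = D.g j q (fderiv ℝ τ p u) (fderiv ℝ τ p v) := by
  obtain ⟨hp, hq, hr⟩ := h.rel
  obtain ⟨τ', h1, h2⟩ := D.inv i j ⟨p, hp⟩ ⟨q, hq⟩ hr
  rw [(h.eventuallyEq G h1).fderiv_eq]
  exact h2 u v

theorem isVonNBounded_of_pos {B : E →L[ℝ] E →L[ℝ] ℝ} (hB : ∀ v, v ≠ 0 → 0 < B v v) :
    IsVonNBounded ℝ {v : E | B v v < 1} := by
  rw [NormedSpace.isVonNBounded_iff']
  rcases subsingleton_or_nontrivial E with hE | hE
  · exact ⟨0, fun x _ => by rw [Subsingleton.elim x 0, norm_zero]⟩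
  · have hcomp : IsCompact (Metric.sphere (0 : E) 1) := isCompact_sphere 0 1
    have hne : (Metric.sphere (0 : E) 1).Nonempty := NormedSpace.sphere_nonempty.2 zero_le_one
    have hcont : Continuous fun v : E => B v v := by fun_prop
    obtain ⟨v₀, hv₀, hmin⟩ := hcomp.exists_isMinOn hne hcont.continuousOn
    have hv₀' : ‖v₀‖ = 1 := by simpa using hv₀
    have hc : 0 < B v₀ v₀ := hB v₀ (by rintro rfl; simp at hv₀')
    set c := B v₀ v₀ with hcdef
    refine ⟨Real.sqrt (1 / c), fun x hx => ?_⟩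
    rcases eq_or_ne x 0 with rfl | hx0
    · rw [norm_zero]; exact Real.sqrt_nonneg _
    · have hxn : 0 < ‖x‖ := norm_pos_iff.2 hx0
      have h1 : c ≤ B (‖x‖⁻¹ • x) (‖x‖⁻¹ • x) := by
        apply hmin
        simp [norm_smul, hxn.ne']
      have h2 : B (‖x‖⁻¹ • x) (‖x‖⁻¹ • x) = ‖x‖⁻¹ * (‖x‖⁻¹ * B x x) := by
        simp
      rw [h2] at h1
      have hx' : B x x < 1 := hx
      have h3 : c * ‖x‖ ^ 2 ≤ B x x := by
        have : ‖x‖⁻¹ * (‖x‖⁻¹ * B x x) * ‖x‖ ^ 2 = B x x := by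
          field_simp
        nlinarith [mul_le_mul_of_nonneg_right h1 (sq_nonneg ‖x‖)]
      apply Real.le_sqrt_of_sq_le
      rw [le_div_iff₀ hc]
      nlinarith

/-- the coordinate change of the tangent bundle of `G.M` is the derivative of the transition. -/
theorem coordChange_eq (m₀ m : G.M) :
    (tangentBundleCore 𝓘(ℝ, EuclideanSpace ℝ (Fin n)) G.M).coordChange
      (achart _ m₀) (achart _ m) m =
    fderiv ℝ (chartAt (EuclideanSpace ℝ (Fin n)) m ∘ G.F (G.idx m₀))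
      (chartAt (EuclideanSpace ℝ (Fin n)) m₀ m) := by
  rw [tangentBundleCore_coordChange_achart]
  simp only [modelWithCornersSelf_coe, range_id, fderivWithin_univ]
  rfl

theorem trans_center (m₀ m : G.M)
    (hm : m ∈ (chartAt (EuclideanSpace ℝ (Fin n)) m₀).source) :
    G.Trans (G.idx m₀) (G.idx m) (chartAt (EuclideanSpace ℝ (Fin n)) m₀ m) (G.pt m)
      (chartAt (EuclideanSpace ℝ (Fin n)) m ∘ G.F (G.idx m₀)) := by
  have h1 := G.F_chartAt hm
  have h2 := G.chartAt_mem_nb hm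
  have := G.trans_chartAt_F (m := m) (G.nb_subset m₀ h2) (by rw [h1]; exact mem_chart_source _ m)
  rwa [h1, G.chartAt_self] at this

/-- the bilinear form at a point. -/
def MetricData.innerAt (D : G.MetricData) (m : G.M) :
    TangentSpace 𝓘(ℝ, EuclideanSpace ℝ (Fin n)) m →L[ℝ]
      TangentSpace 𝓘(ℝ, EuclideanSpace ℝ (Fin n)) m →L[ℝ] ℝ :=
  D.g (G.idx m) (G.pt m)

theorem MetricData.innerAt_inCoordinates (D : G.MetricData) (m₀ m : G.M)
    (hm : m ∈ (chartAt (EuclideanSpace ℝ (Fin n)) m₀).source) :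
    (trivializationAt (E →L[ℝ] E →L[ℝ] ℝ)
        (fun x : G.M => TangentSpace 𝓘(ℝ, E) x →L[ℝ] TangentSpace 𝓘(ℝ, E) x →L[ℝ] ℝ) m₀
          ⟨m, D.innerAt m⟩).2
        = D.g (G.idx m₀) (chartAt (EuclideanSpace ℝ (Fin n)) m₀ m) := by
  rw [hom_trivializationAt_apply]
  ext u v
  have hb : m ∈ (trivializationAt E (TangentSpace 𝓘(ℝ, E)) m₀).baseSet := hm
  rw [inCoordinates_apply_eq₂ hb hb (Set.mem_univ _)]
  have h1 : ∀ w : E, (trivializationAt E (TangentSpace 𝓘(ℝ, E)) m₀).symm m w =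
      fderiv ℝ (chartAt (EuclideanSpace ℝ (Fin n)) m ∘ G.F (G.idx m₀))
        (chartAt (EuclideanSpace ℝ (Fin n)) m₀ m) w := by
    intro w
    have h2 := TangentBundle.symmL_trivializationAt_eq_core (I := 𝓘(ℝ, E)) (b₀ := m₀) (b := m) hm
    rw [coordChange_eq] at h2
    rw [← h2]
    exact (Trivialization.symmL_apply _ hb w).symm
  rw [h1, h1]
  have h3 := D.inv' (trans_center m₀ m hm) u v
  rw [h3]
  have h4 : ∀ y : ℝ, (Trivialization.linearMapAt ℝ (trivializationAt ℝ (fun _ : G.M => ℝ) m₀) m) y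
      = y := by
    intro y
    rw [Trivialization.coe_linearMapAt_of_mem _ (mem_univ _)]
    rfl
  exact h4 _

/-- The Riemannian metric on `G.M` defined by invariant metric data. -/
def MetricData.toMetric (D : G.MetricData) :
    ContMDiffRiemannianMetric 𝓘(ℝ, EuclideanSpace ℝ (Fin n)) ∞ (EuclideanSpace ℝ (Fin n))
      (fun x : G.M => TangentSpace 𝓘(ℝ, EuclideanSpace ℝ (Fin n)) x) where
  inner m := D.innerAt m
  symm m u v := D.symm _ _ (G.pt_mem m) u v
  pos m v hv := D.pos _ _ (G.pt_mem m) v hv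
  isVonNBounded m := isVonNBounded_of_pos (D.pos _ _ (G.pt_mem m))
  contMDiff := by
    intro m₀
    rw [contMDiffAt_section]
    have hev : ∀ᶠ m in 𝓝 m₀, (trivializationAt (E →L[ℝ] E →L[ℝ] ℝ)
        (fun x : G.M => TangentSpace 𝓘(ℝ, E) x →L[ℝ] TangentSpace 𝓘(ℝ, E) x →L[ℝ] ℝ) m₀
          ⟨m, D.innerAt m⟩).2
        = D.g (G.idx m₀) (chartAt (EuclideanSpace ℝ (Fin n)) m₀ m) := by
      filter_upwards [(chartAt (EuclideanSpace ℝ (Fin n)) m₀).open_source.mem_nhds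
        (mem_chart_source _ m₀)] with m hm
      exact D.innerAt_inCoordinates m₀ m hm
    refine ContMDiffAt.congr_of_eventuallyEq ?_ hev
    have h1 : ContMDiffAt 𝓘(ℝ, E) 𝓘(ℝ, E →L[ℝ] E →L[ℝ] ℝ) ∞ (D.g (G.idx m₀))
        (chartAt (EuclideanSpace ℝ (Fin n)) m₀ m₀) := by
      rw [G.chartAt_self]
      exact ((D.contDiffOn _).contDiffAt ((G.isOpen_U _).mem_nhds (G.pt_mem m₀))).contMDiffAt
    exact h1.comp m₀ ((contMDiffOn_chart (I := 𝓘(ℝ, E)) (x := m₀)).contMDiffAt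
      ((chartAt (EuclideanSpace ℝ (Fin n)) m₀).open_source.mem_nhds (mem_chart_source _ m₀)))

end Glue

end Crest.Agent.R244.Man
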