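import Mathlib
import Crest.Prelude.Def_Geodesic
import Crest.Agent.R244.ManMetric

/-!
# R244 package MAN, part 3: coordinate expressions on glued manifolds
-/

set_option autoImplicit false
open Bundle Set Filter Topology Bornology
open scoped ContDiff Manifold
open Crest.GeometryTopology.CoordMetric Crest.GeometryTopology.ChartCurvature
open Crest.GeometryTopology.Geodesic

noncomputable section

namespace Crest.Agent.R244.Man

namespace Glue

variable {ι : Type} {n : ℕ} {G : Glue ι n}

local notation "E" => EuclideanSpace ℝ (Fin n)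

/-- the Gram matrix field of the metric data on the piece `i`. -/
def MetricData.mat (D : G.MetricData) (i : ι) : MetricField n := fun z =>
  Matrix.of fun a b => D.g i z (EuclideanSpace.single a 1) (EuclideanSpace.single b 1)

theorem mfderiv_chartAt_symm (m : G.M) {y : E} (hy : y ∈ G.nb m) (u : E) :
    (mfderiv 𝓘(ℝ, EuclideanSpace ℝ (Fin n)) 𝓘(ℝ, EuclideanSpace ℝ (Fin n))
        (chartAt (EuclideanSpace ℝ (Fin n)) m).symm y : E → E) u
      = fderiv ℝ (chartAt (EuclideanSpace ℝ (Fin n)) (G.F (G.idx m) y) ∘ G.F (G.idx m)) y u := by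
  have h1 : MDifferentiableAt 𝓘(ℝ, EuclideanSpace ℝ (Fin n)) 𝓘(ℝ, EuclideanSpace ℝ (Fin n))
      (chartAt (EuclideanSpace ℝ (Fin n)) m).symm y :=
    mdifferentiableAt_atlas_symm (chart_mem_atlas _ m) hy
  rw [MDifferentiableAt.mfderiv h1]
  simp only [modelWithCornersSelf_coe, range_id, fderivWithin_univ]
  rfl

theorem mfderiv_chartAt (m x : G.M) (hx : x ∈ (chartAt (EuclideanSpace ℝ (Fin n)) m).source)
    (u : E) :
    (mfderiv 𝓘(ℝ, EuclideanSpace ℝ (Fin n)) 𝓘(ℝ, EuclideanSpace ℝ (Fin n))
        (chartAt (EuclideanSpace ℝ (Fin n)) m) x : E → E) u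
      = fderiv ℝ (chartAt (EuclideanSpace ℝ (Fin n)) m ∘ G.F (G.idx x)) (G.pt x) u := by
  have h1 : MDifferentiableAt 𝓘(ℝ, EuclideanSpace ℝ (Fin n)) 𝓘(ℝ, EuclideanSpace ℝ (Fin n))
      (chartAt (EuclideanSpace ℝ (Fin n)) m) x :=
    mdifferentiableAt_atlas (chart_mem_atlas _ m) hx
  rw [MDifferentiableAt.mfderiv h1]
  simp only [modelWithCornersSelf_coe, range_id, fderivWithin_univ]
  have h2 : extChartAt 𝓘(ℝ, EuclideanSpace ℝ (Fin n)) x x = G.pt x := G.chartAt_self x
  rw [h2]
  rfl

/-- In the preferred chart at `m`, the metric is the Gram matrix field of the piece. -/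
theorem MetricData.metricInChart_eq (D : G.MetricData) (m : G.M) {y : E} (hy : y ∈ G.nb m) :
    metricInChart D.toMetric m y = D.mat (G.idx m) y := by
  ext a b
  simp only [metricInChart, MetricData.mat, Matrix.of_apply]
  have h1 := mfderiv_chartAt_symm m hy (EuclideanSpace.single a 1)
  have h2 := mfderiv_chartAt_symm m hy (EuclideanSpace.single b 1)
  have h3 := G.trans_chartAt_F (G.nb_subset m hy) (mem_chart_source (EuclideanSpace ℝ (Fin n))
    (G.F (G.idx m) y))
  rw [G.chartAt_self] at h3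
  have h4 := D.inv' h3 (EuclideanSpace.single a 1) (EuclideanSpace.single b 1)
  rw [h4, ← h1, ← h2]
  rfl


end Glue

end Crest.Agent.R244.Man
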