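import Mathlib
import Crest.Prelude.Def_Geodesic
import Crest.Agent.R244.ManMetric
import Crest.Agent.R244.ManChart
import Crest.Agent.R244.ColDefs

-- ▼ part R244/ManEt
section

/-!
# R244 package MAN, part 4: the groupoid of local orientation preserving isometries

`Et U r g i j p q`: a germ of a smooth orientation preserving isometry from the piece `i` at `p`
to the piece `j` at `q`, compatible with the relation.  It is symmetric and transitive, hence it
is enough to check generators of the relation.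
-/

set_option autoImplicit false
open Bundle Set Filter Topology Bornology
open scoped ContDiff Manifold

noncomputable section

namespace Crest.Agent.R244.Man

variable {ι : Type} {n : ℕ}

local notation "E" => EuclideanSpace ℝ (Fin n)

/-- germ of a smooth orientation preserving isometry compatible with `r`. -/
def Et (U : ι → Set (EuclideanSpace ℝ (Fin n))) (r : Setoid (Σ i, U i))
    (g : ι → EuclideanSpace ℝ (Fin n) → EuclideanSpace ℝ (Fin n) →L[ℝ]
      EuclideanSpace ℝ (Fin n) →L[ℝ] ℝ)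
    (i j : ι) (p q : EuclideanSpace ℝ (Fin n)) : Prop :=
  ∃ τ : EuclideanSpace ℝ (Fin n) → EuclideanSpace ℝ (Fin n),
    ContDiffAt ℝ ∞ τ p ∧ τ p = q ∧ 0 < LinearMap.det (fderiv ℝ τ p : E →ₗ[ℝ] E) ∧
    (∀ᶠ z in 𝓝 p, ∃ (hz : z ∈ U i) (hτ : τ z ∈ U j), r ⟨i, z, hz⟩ ⟨j, τ z, hτ⟩) ∧
    (∀ u v, g i p u v = g j q (fderiv ℝ τ p u) (fderiv ℝ τ p v))

variable {U : ι → Set (EuclideanSpace ℝ (Fin n))} {r : Setoid (Σ i, U i)}
    {g : ι → EuclideanSpace ℝ (Fin n) → EuclideanSpace ℝ (Fin n) →L[ℝ]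
      EuclideanSpace ℝ (Fin n) →L[ℝ] ℝ}

theorem Et.trans {i j k : ι} {p q s : E} (h : Et U r g i j p q) (h' : Et U r g j k q s) :
    Et U r g i k p s := by
  obtain ⟨τ, h1, h2, h3, h4, h5⟩ := h
  obtain ⟨σ, h1', h2', h3', h4', h5'⟩ := h'
  subst h2
  have hd : DifferentiableAt ℝ τ p := h1.differentiableAt (by simp)
  have hd' : DifferentiableAt ℝ σ (τ p) := h1'.differentiableAt (by simp)
  have hf : fderiv ℝ (σ ∘ τ) p = (fderiv ℝ σ (τ p)).comp (fderiv ℝ τ p) := fderiv_comp p hd' hd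
  refine ⟨σ ∘ τ, h1'.comp p h1, h2', ?_, ?_, ?_⟩
  · rw [hf, ContinuousLinearMap.toLinearMap_comp, LinearMap.det_comp]
    exact mul_pos h3' h3
  · filter_upwards [h4, h1.continuousAt.eventually h4'] with z hz hz'
    obtain ⟨a, b, c⟩ := hz
    obtain ⟨a', b', c'⟩ := hz'
    exact ⟨a, b', r.trans c c'⟩
  · intro u v
    rw [hf, h5, h5']
    rfl

theorem Et.symm {i j : ι} {p q : E} (h : Et U r g i j p q) : Et U r g j i q p := by
  obtain ⟨τ, h1, h2, h3, h4, h5⟩ := h
  subst h2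
  have hd : DifferentiableAt ℝ τ p := h1.differentiableAt (by simp)
  have hne : (fderiv ℝ τ p).det ≠ 0 := by
    have : (fderiv ℝ τ p).det = LinearMap.det (fderiv ℝ τ p : E →ₗ[ℝ] E) := rfl
    rw [this]; exact h3.ne'
  set A := (fderiv ℝ τ p).toContinuousLinearEquivOfDetNeZero hne with hA
  have hA' : HasFDerivAt τ (A : E →L[ℝ] E) p := by
    have : (A : E →L[ℝ] E) = fderiv ℝ τ p := by
      ext v; simp [hA]
    rw [this]; exact hd.hasFDerivAt
  have hs : HasStrictFDerivAt τ (A : E →L[ℝ] E) p := h1.hasStrictFDerivAt' hA' (by simp)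
  set σ := hs.localInverse τ A p with hσ
  have hσ1 : ContDiffAt ℝ ∞ σ (τ p) := h1.to_localInverse hA' (by simp)
  have hσ2 : σ (τ p) = p := hs.localInverse_apply_image
  have hσ3 : ∀ᶠ w in 𝓝 (τ p), τ (σ w) = w := hs.eventually_right_inverse
  have hσ4 : fderiv ℝ σ (τ p) = (A.symm : E →L[ℝ] E) := hs.to_localInverse.hasFDerivAt.fderiv
  have hAA : (A : E →L[ℝ] E) = fderiv ℝ τ p := by
    ext v; simp [hA]
  have hcomp : (fderiv ℝ τ p).comp (A.symm : E →L[ℝ] E) = ContinuousLinearMap.id ℝ E := by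
    rw [← hAA]; ext v; simp
  refine ⟨σ, hσ1, hσ2, ?_, ?_, ?_⟩
  · rw [hσ4]
    have h6 : LinearMap.det (fderiv ℝ τ p : E →ₗ[ℝ] E) *
        LinearMap.det ((A.symm : E →L[ℝ] E) : E →ₗ[ℝ] E) = 1 := by
      rw [← LinearMap.det_comp, ← ContinuousLinearMap.toLinearMap_comp, hcomp]
      simp
    by_contra hcon
    push Not at hcon
    have := mul_nonpos_of_nonneg_of_nonpos h3.le hcon
    linarith
  · have h7 : ∀ᶠ w in 𝓝 (τ p), ∃ (hz : σ w ∈ U i) (hτ : τ (σ w) ∈ U j),
        r ⟨i, σ w, hz⟩ ⟨j, τ (σ w), hτ⟩ := by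
      have h9 : Tendsto σ (𝓝 (τ p)) (𝓝 p) := by
        have := hσ1.continuousAt
        rwa [ContinuousAt, hσ2] at this
      exact h9.eventually h4
    filter_upwards [hσ3, h7] with w hw hw'
    obtain ⟨a, b, c⟩ := hw'
    have hb : w ∈ U j := by rw [← hw]; exact b
    refine ⟨hb, a, ?_⟩
    have : (⟨j, τ (σ w), b⟩ : Σ i, U i) = ⟨j, w, hb⟩ := by
      congr 1
      exact Subtype.ext hw
    rw [this] at c
    exact r.symm c
  · intro u v
    rw [hσ4, h5]
    have h8 : ∀ w, fderiv ℝ τ p ((A.symm : E →L[ℝ] E) w) = w := fun w =>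
      congrArg (fun f : E →L[ℝ] E => f w) hcomp
    rw [h8, h8]

/-- gluing data from germs. -/
def Glue.ofEt (U : ι → Set (EuclideanSpace ℝ (Fin n))) (hU : ∀ i, IsOpen (U i))
    (r : Setoid (Σ i, U i))
    (g : ι → EuclideanSpace ℝ (Fin n) → EuclideanSpace ℝ (Fin n) →L[ℝ]
      EuclideanSpace ℝ (Fin n) →L[ℝ] ℝ)
    (h : ∀ (i j : ι) (p : U i) (q : U j), r ⟨i, p⟩ ⟨j, q⟩ → Et U r g i j p q)
    (inj : ∀ (i : ι) (p : U i), ∃ V ∈ 𝓝 (p : EuclideanSpace ℝ (Fin n)),
      ∀ (z w : EuclideanSpace ℝ (Fin n)) (hz : z ∈ U i) (hw : w ∈ U i), z ∈ V → w ∈ V →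
        r ⟨i, z, hz⟩ ⟨i, w, hw⟩ → z = w)
    (base : Σ i, U i) : Glue ι n where
  U := U
  isOpen_U := hU
  r := r
  etale i j p q hr := by
    obtain ⟨τ, h1, h2, -, h4, -⟩ := h i j p q hr
    exact ⟨τ, h1, h2, h4⟩
  inj := inj
  base := base

theorem Glue.ofEt_isOrientable (U : ι → Set (EuclideanSpace ℝ (Fin n))) (hU : ∀ i, IsOpen (U i))
    (r : Setoid (Σ i, U i))
    (g : ι → EuclideanSpace ℝ (Fin n) → EuclideanSpace ℝ (Fin n) →L[ℝ]
      EuclideanSpace ℝ (Fin n) →L[ℝ] ℝ)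
    (h : ∀ (i j : ι) (p : U i) (q : U j), r ⟨i, p⟩ ⟨j, q⟩ → Et U r g i j p q)
    (inj : ∀ (i : ι) (p : U i), ∃ V ∈ 𝓝 (p : EuclideanSpace ℝ (Fin n)),
      ∀ (z w : EuclideanSpace ℝ (Fin n)) (hz : z ∈ U i) (hw : w ∈ U i), z ∈ V → w ∈ V →
        r ⟨i, z, hz⟩ ⟨i, w, hw⟩ → z = w)
    (base : Σ i, U i) :
    Crest.GeometryTopology.Geodesic.IsOrientable n (Glue.ofEt U hU r g h inj base).M := by
  apply Glue.isOrientable'
  intro i j p q hr
  obtain ⟨τ, h1, h2, h3, h4, -⟩ := h i j p q hr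
  exact ⟨τ, ⟨h1, h2, h4⟩, h3⟩

/-- metric data from germs. -/
def Glue.ofEtMetric (U : ι → Set (EuclideanSpace ℝ (Fin n))) (hU : ∀ i, IsOpen (U i))
    (r : Setoid (Σ i, U i))
    (g : ι → EuclideanSpace ℝ (Fin n) → EuclideanSpace ℝ (Fin n) →L[ℝ]
      EuclideanSpace ℝ (Fin n) →L[ℝ] ℝ)
    (h : ∀ (i j : ι) (p : U i) (q : U j), r ⟨i, p⟩ ⟨j, q⟩ → Et U r g i j p q)
    (inj : ∀ (i : ι) (p : U i), ∃ V ∈ 𝓝 (p : EuclideanSpace ℝ (Fin n)),
      ∀ (z w : EuclideanSpace ℝ (Fin n)) (hz : z ∈ U i) (hw : w ∈ U i), z ∈ V → w ∈ V →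
        r ⟨i, z, hz⟩ ⟨i, w, hw⟩ → z = w)
    (base : Σ i, U i)
    (hg : ∀ i, ContDiffOn ℝ ∞ (g i) (U i))
    (hsymm : ∀ i, ∀ z ∈ U i, ∀ u v, g i z u v = g i z v u)
    (hpos : ∀ i, ∀ z ∈ U i, ∀ v, v ≠ 0 → 0 < g i z v v) :
    (Glue.ofEt U hU r g h inj base).MetricData where
  g := g
  contDiffOn := hg
  symm := hsymm
  pos := hpos
  inv i j p q hr := by
    obtain ⟨τ, h1, h2, -, h4, h5⟩ := h i j p q hr
    exact ⟨τ, ⟨h1, h2, h4⟩, h5⟩

/-- Connectedness criterion. -/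
theorem Glue.connectedSpace (G : Glue ι n) (A : Set G.M) (hA : IsPreconnected A)
    (hne : A.Nonempty)
    (h : ∀ i, ∀ z ∈ G.U i, ∃ C ⊆ G.U i, IsPreconnected C ∧ z ∈ C ∧ ∃ w ∈ C, G.F i w ∈ A) :
    ConnectedSpace G.M := by
  obtain ⟨a, ha⟩ := hne
  have : IsPreconnected (univ : Set G.M) := by
    apply isPreconnected_of_forall a
    intro m _
    obtain ⟨i, z, hz, rfl⟩ := G.exists_F m
    obtain ⟨C, hCU, hC, hzC, w, hw, hwA⟩ := h i z hz
    refine ⟨A ∪ G.F i '' C, subset_univ _, Or.inl ha, Or.inr ⟨z, hzC, rfl⟩, ?_⟩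
    exact IsPreconnected.union (G.F i w) hwA ⟨w, hw, rfl⟩ hA
      (hC.image _ ((G.continuousOn_F i).mono hCU))
  exact { isPreconnected_univ := this, toNonempty := ⟨a⟩ }

end Crest.Agent.R244.Man
end
end

-- ▼ part R244/ManC1
section

/-!
# R244 MAN-C : the concrete 3-patch manifold, part 1: patches, polar maps, invariants
-/

set_option autoImplicit false

open Set Filter Topology
open scoped ContDiff Real

noncomputable section

namespace Crest.Agent.R244.ManC

/-- coordinates space -/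
abbrev E3 := EuclideanSpace ℝ (Fin 3)

/-- parameters of the 3-patch manifold -/
structure Par where
  S : ℝ
  c1 : ℝ
  c2 : ℝ
  tL : ℝ
  tR : ℝ
  hLR : tL < tR
  h1 : 0 < c1 - tL
  h2 : 0 < c2 + tR
  hS1 : 2 * (c1 - tL + 2) < S
  hS2 : 2 * (c2 + tR + 2) < S

namespace Par

variable (D : Par)

lemma S_pos : 0 < D.S := by have := D.h1; have := D.hS1; linarith

/-- class of a real in `ℝ / Sℤ` -/
abbrev tc (a : ℝ) : AddCircle D.S := (a : AddCircle D.S)

/-- distance of `(u,v)` to the lattice `(S/2,S/2) + S ℤ²` -/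
def rho (u v : ℝ) : ℝ :=
  Real.sqrt (‖D.tc (u - D.S / 2)‖ ^ 2 + ‖D.tc (v - D.S / 2)‖ ^ 2)

lemma continuous_tc : Continuous D.tc := AddCircle.continuous_mk' _


lemma tc_add_int (a : ℝ) (k : ℤ) : D.tc (a + D.S * k) = D.tc a := by
  simp only [tc, AddCircle.coe_add]
  have : ((D.S * k : ℝ) : AddCircle D.S) = 0 := by
    rw [AddCircle.coe_eq_zero_iff]
    exact ⟨k, by simp [mul_comm]⟩
  rw [this, add_zero]

lemma tc_eq_iff {a b : ℝ} : D.tc a = D.tc b ↔ ∃ k : ℤ, b = a + D.S * k := by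
  constructor
  · intro h
    have : ((b - a : ℝ) : AddCircle D.S) = 0 := by
      rw [AddCircle.coe_sub]; exact sub_eq_zero.2 h.symm
    rw [AddCircle.coe_eq_zero_iff] at this
    obtain ⟨n, hn⟩ := this
    refine ⟨n, ?_⟩
    simp only [zsmul_eq_mul] at hn
    linarith
  · rintro ⟨k, rfl⟩
    exact (D.tc_add_int a k).symm

lemma norm_tc {a : ℝ} (h : |a| ≤ D.S / 2) : ‖D.tc a‖ = |a| := by
  rw [tc, AddCircle.norm_coe_eq_abs_iff _ D.S_pos.ne']
  rwa [abs_of_pos D.S_pos]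

lemma rho_add_int (u v : ℝ) (k l : ℤ) : D.rho (u + D.S * k) (v + D.S * l) = D.rho u v := by
  unfold rho
  rw [show u + D.S * k - D.S / 2 = (u - D.S / 2) + D.S * k by ring,
    show v + D.S * l - D.S / 2 = (v - D.S / 2) + D.S * l by ring, tc_add_int, tc_add_int]

lemma rho_of_small {a b : ℝ} (ha : |a| ≤ D.S / 2) (hb : |b| ≤ D.S / 2) :
    D.rho (D.S / 2 + a) (D.S / 2 + b) = Real.sqrt (a ^ 2 + b ^ 2) := by
  unfold rho
  rw [show D.S / 2 + a - D.S / 2 = a by ring, show D.S / 2 + b - D.S / 2 = b by ring,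
    D.norm_tc ha, D.norm_tc hb, sq_abs, sq_abs]

lemma rho_polar {r y : ℝ} (hr : 0 ≤ r) (hr' : r ≤ D.S / 2) :
    D.rho (D.S / 2 + r * Real.cos y) (D.S / 2 + r * Real.sin y) = r := by
  have hc : |r * Real.cos y| ≤ D.S / 2 := by
    rw [abs_mul, abs_of_nonneg hr]
    nlinarith [Real.abs_cos_le_one y, abs_nonneg (Real.cos y)]
  have hs : |r * Real.sin y| ≤ D.S / 2 := by
    rw [abs_mul, abs_of_nonneg hr]
    nlinarith [Real.abs_sin_le_one y, abs_nonneg (Real.sin y)]
  rw [D.rho_of_small hc hs]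
  rw [show (r * Real.cos y) ^ 2 + (r * Real.sin y) ^ 2 = r ^ 2 by
    nlinarith [Real.sin_sq_add_cos_sq y]]
  exact Real.sqrt_sq hr



/-- equality mod `S` of polar points with the same small radius -/
lemma polar_inj {r y y' : ℝ} (hr : 0 < r) (hr' : r < D.S / 2)
    (h1 : D.tc (D.S / 2 + r * Real.cos y) = D.tc (D.S / 2 + r * Real.cos y'))
    (h2 : D.tc (D.S / 2 + r * Real.sin y) = D.tc (D.S / 2 + r * Real.sin y')) :
    ∃ n : ℤ, y' = y + 2 * π * n := by
  have hS := D.S_pos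
  obtain ⟨k, hk⟩ := D.tc_eq_iff.1 h1
  obtain ⟨l, hl⟩ := D.tc_eq_iff.1 h2
  have key : ∀ (c c' : ℝ) (k : ℤ), |c| ≤ 1 → |c'| ≤ 1 →
      D.S / 2 + r * c' = D.S / 2 + r * c + D.S * k → c = c' := by
    intro c c' k hc hc' h
    have h3 : r * (c' - c) = D.S * k := by linarith
    have h4 : |(k : ℝ)| < 1 := by
      have h5 : D.S * |(k : ℝ)| < D.S := by
        calc D.S * |(k : ℝ)| = |D.S * k| := by rw [abs_mul, abs_of_pos hS]
          _ = |r * (c' - c)| := by rw [h3]
          _ = r * |c' - c| := by rw [abs_mul, abs_of_pos hr]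
          _ ≤ r * 2 := by
            apply mul_le_mul_of_nonneg_left _ hr.le
            calc |c' - c| ≤ |c'| + |c| := abs_sub _ _
              _ ≤ 2 := by linarith
          _ < D.S := by linarith
      nlinarith [abs_nonneg (k : ℝ)]
    have h6 : k = 0 := by
      have : |k| < 1 := by exact_mod_cast h4
      exact Int.abs_lt_one_iff.1 this
    rw [h6] at h3
    simp only [Int.cast_zero, mul_zero, mul_eq_zero] at h3
    rcases h3 with h3 | h3
    · exact absurd h3 hr.ne'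
    · linarith
  have hcos := key _ _ k (Real.abs_cos_le_one y) (Real.abs_cos_le_one y') hk
  have hsin := key _ _ l (Real.abs_sin_le_one y) (Real.abs_sin_le_one y') hl
  have h := Real.Angle.cos_sin_inj hcos.symm hsin.symm
  rw [Real.Angle.angle_eq_iff_two_pi_dvd_sub] at h
  obtain ⟨n, hn⟩ := h
  exact ⟨n, by linarith⟩


/-! ## Patches -/

/-- The three patches: `0` = block 1, `1` = collar, `2` = block 2. -/
def P : Fin 3 → Set E3 :=
  ![{z | D.c1 - D.tL < D.rho (z 0) (z 1)},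
    {z | D.tL - 2 < z 0 ∧ z 0 < D.tR + 2},
    {z | D.c2 + D.tR < D.rho (z 0) (z 1)}]

lemma mem_P0 {z : E3} : z ∈ D.P 0 ↔ D.c1 - D.tL < D.rho (z 0) (z 1) := Iff.rfl
lemma mem_P1 {z : E3} : z ∈ D.P 1 ↔ D.tL - 2 < z 0 ∧ z 0 < D.tR + 2 := Iff.rfl
lemma mem_P2 {z : E3} : z ∈ D.P 2 ↔ D.c2 + D.tR < D.rho (z 0) (z 1) := Iff.rfl

lemma continuous_rho' : Continuous fun z : E3 => D.rho (z 0) (z 1) := by
  unfold rho
  have h1 : Continuous fun p : E3 => D.tc (p 0 - D.S / 2) :=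
    D.continuous_tc.comp (by fun_prop)
  have h2 : Continuous fun p : E3 => D.tc (p 1 - D.S / 2) :=
    D.continuous_tc.comp (by fun_prop)
  exact (((continuous_norm.comp h1).pow 2).add ((continuous_norm.comp h2).pow 2)).sqrt

lemma isOpen_P (i : Fin 3) : IsOpen (D.P i) := by
  fin_cases i
  · exact isOpen_lt continuous_const D.continuous_rho'
  · have h1 : Continuous fun z : E3 => z 0 := by fun_prop
    exact (isOpen_lt continuous_const h1).inter (isOpen_lt h1 continuous_const)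
  · exact isOpen_lt continuous_const D.continuous_rho'

/-- lattice vector for the two blocks -/
def lam (k l n : ℤ) : E3 := !₂[D.S * k, D.S * l, 2 * π * n]

/-- lattice vector for the collar -/
def lamc (m n : ℤ) : E3 := !₂[0, 2 * π * m, 2 * π * n]

/-- collar → block 1 -/
def pol1 (z : E3) : E3 :=
  !₂[D.S / 2 + (D.c1 - z 0) * Real.cos (z 2), D.S / 2 + (D.c1 - z 0) * Real.sin (z 2), z 1]

/-- collar → block 2 -/
def pol2 (z : E3) : E3 :=
  !₂[D.S / 2 + (z 0 + D.c2) * Real.cos (z 1), D.S / 2 + (z 0 + D.c2) * Real.sin (z 1), z 1 + z 2]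

@[simp] lemma lam_0 (k l n : ℤ) : D.lam k l n 0 = D.S * k := by simp [lam]
@[simp] lemma lam_1 (k l n : ℤ) : D.lam k l n 1 = D.S * l := by simp [lam]
@[simp] lemma lam_2 (k l n : ℤ) : D.lam k l n 2 = 2 * π * n := by simp [lam]
@[simp] lemma lamc_0 (m n : ℤ) : lamc m n 0 = 0 := by simp [lamc]
@[simp] lemma lamc_1 (m n : ℤ) : lamc m n 1 = 2 * π * m := by simp [lamc]
@[simp] lemma lamc_2 (m n : ℤ) : lamc m n 2 = 2 * π * n := by simp [lamc]
@[simp] lemma pol1_0 (z : E3) : D.pol1 z 0 = D.S / 2 + (D.c1 - z 0) * Real.cos (z 2) := by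
  simp [pol1]
@[simp] lemma pol1_1 (z : E3) : D.pol1 z 1 = D.S / 2 + (D.c1 - z 0) * Real.sin (z 2) := by
  simp [pol1]
@[simp] lemma pol1_2 (z : E3) : D.pol1 z 2 = z 1 := by simp [pol1]
@[simp] lemma pol2_0 (z : E3) : D.pol2 z 0 = D.S / 2 + (z 0 + D.c2) * Real.cos (z 1) := by
  simp [pol2]
@[simp] lemma pol2_1 (z : E3) : D.pol2 z 1 = D.S / 2 + (z 0 + D.c2) * Real.sin (z 1) := by
  simp [pol2]
@[simp] lemma pol2_2 (z : E3) : D.pol2 z 2 = z 1 + z 2 := by simp [pol2]

/-! ## The separating invariants -/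

/-- The target of the separating invariants. -/
abbrev Y : Type :=
  ℝ × (AddCircle D.S × AddCircle D.S) × (ℝ × ℝ) × (AddCircle D.S × AddCircle D.S) × (ℝ × ℝ)

/-- cut-off `1` for `t ≤ tL`, `0` for `t ≥ tR` -/
def chi1 (t : ℝ) : ℝ := max 0 (min 1 ((D.tR - t) / (D.tR - D.tL)))
/-- cut-off `0` for `t ≤ tL`, `1` for `t ≥ tR` -/
def chi2 (t : ℝ) : ℝ := max 0 (min 1 ((t - D.tL) / (D.tR - D.tL)))
/-- radius in block 1 of the collar point -/
def g1 (t : ℝ) : ℝ := D.chi1 t * (D.c1 - min t D.tL)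
/-- radius in block 2 of the collar point -/
def g2 (t : ℝ) : ℝ := D.chi2 t * (D.c2 + max t D.tR)




















/-- invariants on block 1 -/
def F0 (z : E3) : D.Y :=
  (max (D.tL - 2) (D.c1 - D.rho (z 0) (z 1)), (D.tc (z 0), D.tc (z 1)),
    (Real.cos (z 2), Real.sin (z 2)), (D.tc (D.S / 2), D.tc (D.S / 2)), (0, 0))

/-- invariants on the collar -/
def F1 (z : E3) : D.Y :=
  (z 0, (D.tc (D.S / 2 + D.g1 (z 0) * Real.cos (z 2)), D.tc (D.S / 2 + D.g1 (z 0) * Real.sin (z 2))),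
    (D.chi1 (z 0) * Real.cos (z 1), D.chi1 (z 0) * Real.sin (z 1)),
    (D.tc (D.S / 2 + D.g2 (z 0) * Real.cos (z 1)), D.tc (D.S / 2 + D.g2 (z 0) * Real.sin (z 1))),
    (D.chi2 (z 0) * Real.cos (z 1 + z 2), D.chi2 (z 0) * Real.sin (z 1 + z 2)))

/-- invariants on block 2 -/
def F2 (z : E3) : D.Y :=
  (min (D.tR + 2) (D.rho (z 0) (z 1) - D.c2), (D.tc (D.S / 2), D.tc (D.S / 2)), (0, 0),
    (D.tc (z 0), D.tc (z 1)), (Real.cos (z 2), Real.sin (z 2)))

/-- the invariants -/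
def F : Fin 3 → E3 → D.Y := ![D.F0, D.F1, D.F2]


end Par

end Crest.Agent.R244.ManC
end
end

-- ▼ part R244/ManC

/-!
# R244 MAN-C : the concrete glued 3-manifold (3 patches: 0 = block 1, 1 = collar, 2 = block 2)
-/

set_option autoImplicit false
set_option maxSynthPendingDepth 3

open Bundle Set Filter Topology
open scoped ContDiff Manifold Real

noncomputable section

namespace Crest.Agent.R244.ManC

open Crest.Agent.R244.Man

/-- class of a real modulo `2π`. -/
abbrev an (a : ℝ) : Real.Angle := (a : Real.Angle)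

lemma an_eq_iff {a b : ℝ} : an a = an b ↔ ∃ n : ℤ, b = a + 2 * π * n := by
  rw [eq_comm, Real.Angle.angle_eq_iff_two_pi_dvd_sub]
  constructor
  · rintro ⟨n, hn⟩; exact ⟨n, by linarith⟩
  · rintro ⟨n, hn⟩; exact ⟨n, by linarith⟩

namespace Par

variable (D : Par)

/-- lattice equivalence in the two blocks. -/
def latB (p q : E3) : Prop := D.tc (p 0) = D.tc (q 0) ∧ D.tc (p 1) = D.tc (q 1) ∧ an (p 2) = an (q 2)

lemma latB_refl (p : E3) : D.latB p p := ⟨rfl, rfl, rfl⟩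

/-- lattice equivalence in the collar. -/
def latC (p q : E3) : Prop := p 0 = q 0 ∧ an (p 1) = an (q 1) ∧ an (p 2) = an (q 2)

/-- lattice equivalence. -/
def lat (i : Fin 3) (p q : E3) : Prop := if i = 1 then latC p q else D.latB p q

lemma lat_refl (i : Fin 3) (p : E3) : D.lat i p p := by
  unfold lat latC latB; split_ifs <;> simp

lemma lat_symm {i : Fin 3} {p q : E3} (h : D.lat i p q) : D.lat i q p := by
  unfold lat latC latB at *
  split_ifs at * <;> exact ⟨h.1.symm, h.2.1.symm, h.2.2.symm⟩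

lemma lat_trans {i : Fin 3} {p q s : E3} (h : D.lat i p q) (h' : D.lat i q s) : D.lat i p s := by
  unfold lat latC latB at *
  split_ifs at * <;> exact ⟨h.1.trans h'.1, h.2.1.trans h'.2.1, h.2.2.trans h'.2.2⟩

/-- normal form: collar points in the polar zones are moved to the blocks. -/
def nf (i : Fin 3) (p : E3) : Fin 3 × E3 :=
  if i = 1 then (if p 0 < D.tL then (0, D.pol1 p) else if D.tR < p 0 then (2, D.pol2 p)
    else (1, p)) else (i, p)

lemma nf_zero (p : E3) : D.nf 0 p = (0, p) := by simp [nf]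
lemma nf_two (p : E3) : D.nf 2 p = (2, p) := by simp [nf]
lemma nf_one_left {p : E3} (h : p 0 < D.tL) : D.nf 1 p = (0, D.pol1 p) := by simp [nf, h]
lemma nf_one_right {p : E3} (h : D.tR < p 0) : D.nf 1 p = (2, D.pol2 p) := by
  have : ¬ p 0 < D.tL := by have := D.hLR; linarith
  simp [nf, h, this]
lemma nf_one_mid {p : E3} (h : D.tL ≤ p 0) (h' : p 0 ≤ D.tR) : D.nf 1 p = (1, p) := by
  simp [nf, not_lt.2 h, not_lt.2 h']

/-- the gluing relation. -/
def rel (i : Fin 3) (p : E3) (j : Fin 3) (q : E3) : Prop :=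
  (D.nf i p).1 = (D.nf j q).1 ∧ D.lat (D.nf i p).1 (D.nf i p).2 (D.nf j q).2

lemma rel_refl (i : Fin 3) (p : E3) : D.rel i p i p := ⟨rfl, D.lat_refl _ _⟩

lemma rel_symm {i : Fin 3} {p : E3} {j : Fin 3} {q : E3} (h : D.rel i p j q) : D.rel j q i p := by
  obtain ⟨h1, h2⟩ := h
  exact ⟨h1.symm, by rw [← h1]; exact D.lat_symm h2⟩

lemma rel_trans {i : Fin 3} {p : E3} {j : Fin 3} {q : E3} {k : Fin 3} {s : E3}
    (h : D.rel i p j q) (h' : D.rel j q k s) : D.rel i p k s := by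
  obtain ⟨h1, h2⟩ := h
  obtain ⟨h1', h2'⟩ := h'
  refine ⟨h1.trans h1', ?_⟩
  rw [← h1] at h2'
  exact D.lat_trans h2 h2'

/-- the gluing relation as a setoid on the disjoint union of the patches. -/
def setoid : Setoid (Σ i, D.P i) where
  r x y := D.rel x.1 x.2 y.1 y.2
  iseqv := ⟨fun x => D.rel_refl _ _, fun h => D.rel_symm h, fun h h' => D.rel_trans h h'⟩


lemma rel_00 {p q : E3} : D.rel 0 p 0 q ↔ D.latB p q := by
  simp [rel, nf_zero, lat]

lemma rel_22 {p q : E3} : D.rel 2 p 2 q ↔ D.latB p q := by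
  simp [rel, nf_two, lat]

lemma rel_02 {p q : E3} : ¬ D.rel 0 p 2 q := by
  simp [rel, nf_two, nf_zero]

lemma rel_20 {p q : E3} : ¬ D.rel 2 p 0 q := by
  simp [rel, nf_two, nf_zero]

lemma rel_01 {p q : E3} : D.rel 0 p 1 q ↔ q 0 < D.tL ∧ D.latB p (D.pol1 q) := by
  constructor
  · rintro ⟨h1, h2⟩
    rw [nf_zero] at h1 h2
    rcases lt_or_ge (q 0) D.tL with h | h
    · rw [D.nf_one_left h] at h2
      exact ⟨h, by simpa [lat] using h2⟩
    · rcases lt_or_ge D.tR (q 0) with h' | h'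
      · rw [D.nf_one_right h'] at h1; simp at h1
      · rw [D.nf_one_mid h h'] at h1; simp at h1
  · rintro ⟨h, h'⟩
    simp [rel, D.nf_one_left h, nf_zero, lat, h']

lemma rel_21 {p q : E3} : D.rel 2 p 1 q ↔ D.tR < q 0 ∧ D.latB p (D.pol2 q) := by
  constructor
  · rintro ⟨h1, h2⟩
    rw [nf_two] at h1 h2
    rcases lt_or_ge (q 0) D.tL with h | h
    · rw [D.nf_one_left h] at h1; simp at h1
    · rcases lt_or_ge D.tR (q 0) with h' | h'
      · rw [D.nf_one_right h'] at h2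
        exact ⟨h', by simpa [lat] using h2⟩
      · rw [D.nf_one_mid h h'] at h1; simp at h1
  · rintro ⟨h, h'⟩
    simp [rel, D.nf_one_right h, nf_two, lat, h']

lemma rho_congr {p q : E3} (h1 : D.tc (p 0) = D.tc (q 0)) (h2 : D.tc (p 1) = D.tc (q 1)) :
    D.rho (p 0) (p 1) = D.rho (q 0) (q 1) := by
  obtain ⟨k, hk⟩ := D.tc_eq_iff.1 h1
  obtain ⟨l, hl⟩ := D.tc_eq_iff.1 h2
  rw [hk, hl, D.rho_add_int]

lemma rho_pol1 {z : E3} (h : D.tL - 2 < z 0) (h' : z 0 < D.tL) :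
    D.rho (D.pol1 z 0) (D.pol1 z 1) = D.c1 - z 0 := by
  rw [pol1_0, pol1_1]
  apply D.rho_polar
  · have := D.h1; linarith
  · have := D.hS1; linarith

lemma rho_pol1' {z : E3} (h : D.tL - 2 < z 0) (h' : z 0 ≤ D.tL) :
    D.rho (D.pol1 z 0) (D.pol1 z 1) = D.c1 - z 0 := by
  rw [pol1_0, pol1_1]
  apply D.rho_polar
  · have := D.h1; linarith
  · have := D.hS1; linarith

lemma rho_pol2' {z : E3} (h : D.tR ≤ z 0) (h' : z 0 < D.tR + 2) :
    D.rho (D.pol2 z 0) (D.pol2 z 1) = z 0 + D.c2 := by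
  rw [pol2_0, pol2_1]
  apply D.rho_polar
  · have := D.h2; linarith
  · have := D.hS2; linarith

/-- On the collar the relation is exactly the lattice relation. -/
lemma rel_11 {p q : E3} (hp : p ∈ D.P 1) (hq : q ∈ D.P 1) : D.rel 1 p 1 q ↔ latC p q := by
  rw [mem_P1] at hp hq
  constructor
  · rintro ⟨h1, h2⟩
    rcases lt_or_ge (p 0) D.tL with hp1 | hp1
    · rw [D.nf_one_left hp1] at h1 h2
      rcases lt_or_ge (q 0) D.tL with hq1 | hq1
      · rw [D.nf_one_left hq1] at h2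
        simp only [lat, Fin.reduceEq, if_false] at h2
        obtain ⟨h3, h4, h5⟩ := h2
        have h6 := D.rho_congr h3 h4
        rw [D.rho_pol1 hp.1 hp1, D.rho_pol1 hq.1 hq1] at h6
        have h7 : p 0 = q 0 := by linarith
        refine ⟨h7, by simpa using h5, ?_⟩
        rw [an_eq_iff]
        rw [pol1_0, pol1_0, ← h7] at h3
        rw [pol1_1, pol1_1, ← h7] at h4
        have hr : 0 < D.c1 - p 0 := by have := D.h1; linarith
        have hr' : D.c1 - p 0 < D.S / 2 := by have := D.hS1; linarith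
        exact D.polar_inj hr hr' h3 h4
      · rcases lt_or_ge D.tR (q 0) with hq2 | hq2
        · rw [D.nf_one_right hq2] at h1; simp at h1
        · rw [D.nf_one_mid hq1 hq2] at h1; simp at h1
    · rcases lt_or_ge D.tR (p 0) with hp2 | hp2
      · rw [D.nf_one_right hp2] at h1 h2
        rcases lt_or_ge (q 0) D.tL with hq1 | hq1
        · rw [D.nf_one_left hq1] at h1; simp at h1
        · rcases lt_or_ge D.tR (q 0) with hq2 | hq2
          · rw [D.nf_one_right hq2] at h2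
            simp only [lat, Fin.reduceEq, if_false] at h2
            obtain ⟨h3, h4, h5⟩ := h2
            have h6 := D.rho_congr h3 h4
            rw [D.rho_pol2' hp2.le hp.2, D.rho_pol2' hq2.le hq.2] at h6
            have h7 : p 0 = q 0 := by linarith
            rw [pol2_0, pol2_0, ← h7] at h3
            rw [pol2_1, pol2_1, ← h7] at h4
            have hr : 0 < p 0 + D.c2 := by have := D.h2; linarith
            have hr' : p 0 + D.c2 < D.S / 2 := by have := D.hS2; linarith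
            have h8 := an_eq_iff.2 (D.polar_inj hr hr' h3 h4)
            refine ⟨h7, h8, ?_⟩
            simp only [pol2_2] at h5
            have h9 : an (p 1 + p 2) = an (p 1) + an (p 2) := Real.Angle.coe_add _ _
            have h10 : an (q 1 + q 2) = an (q 1) + an (q 2) := Real.Angle.coe_add _ _
            rw [h9, h10, h8] at h5
            exact add_left_cancel h5
          · rw [D.nf_one_mid hq1 hq2] at h1; simp at h1
      · rw [D.nf_one_mid hp1 hp2] at h1 h2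
        rcases lt_or_ge (q 0) D.tL with hq1 | hq1
        · rw [D.nf_one_left hq1] at h1; simp at h1
        · rcases lt_or_ge D.tR (q 0) with hq2 | hq2
          · rw [D.nf_one_right hq2] at h1; simp at h1
          · rw [D.nf_one_mid hq1 hq2] at h2
            simpa [lat] using h2
  · rintro ⟨h1, h2, h3⟩
    rcases lt_or_ge (p 0) D.tL with hp1 | hp1
    · have hq1 : q 0 < D.tL := by rw [← h1]; exact hp1
      rw [rel, D.nf_one_left hp1, D.nf_one_left hq1]
      refine ⟨rfl, ?_⟩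
      simp only [lat, Fin.reduceEq, if_false]
      obtain ⟨n, hn⟩ := an_eq_iff.1 h3
      have hc : Real.cos (q 2) = Real.cos (p 2) := by
        rw [hn, show p 2 + 2 * π * n = p 2 + n * (2 * π) by ring, Real.cos_add_int_mul_two_pi]
      have hs : Real.sin (q 2) = Real.sin (p 2) := by
        rw [hn, show p 2 + 2 * π * n = p 2 + n * (2 * π) by ring, Real.sin_add_int_mul_two_pi]
      refine ⟨?_, ?_, ?_⟩
      · rw [pol1_0, pol1_0, hc, h1]
      · rw [pol1_1, pol1_1, hs, h1]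
      · simpa using h2
    · rcases lt_or_ge D.tR (p 0) with hp2 | hp2
      · have hq2 : D.tR < q 0 := by rw [← h1]; exact hp2
        rw [rel, D.nf_one_right hp2, D.nf_one_right hq2]
        refine ⟨rfl, ?_⟩
        simp only [lat, Fin.reduceEq, if_false]
        obtain ⟨n, hn⟩ := an_eq_iff.1 h2
        have hc : Real.cos (q 1) = Real.cos (p 1) := by
          rw [hn, show p 1 + 2 * π * n = p 1 + n * (2 * π) by ring, Real.cos_add_int_mul_two_pi]
        have hs : Real.sin (q 1) = Real.sin (p 1) := by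
          rw [hn, show p 1 + 2 * π * n = p 1 + n * (2 * π) by ring, Real.sin_add_int_mul_two_pi]
        refine ⟨?_, ?_, ?_⟩
        · rw [pol2_0, pol2_0, hc, h1]
        · rw [pol2_1, pol2_1, hs, h1]
        · simp only [pol2_2]
          have h9 : an (p 1 + p 2) = an (p 1) + an (p 2) := Real.Angle.coe_add _ _
          have h10 : an (q 1 + q 2) = an (q 1) + an (q 2) := Real.Angle.coe_add _ _
          rw [h9, h10, h2, h3]
      · have hq1 : D.tL ≤ q 0 := by rw [← h1]; exact hp1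
        have hq2 : q 0 ≤ D.tR := by rw [← h1]; exact hp2
        rw [rel, D.nf_one_mid hp1 hp2, D.nf_one_mid hq1 hq2]
        exact ⟨rfl, by simp [lat, latC, h1, h2, h3]⟩

lemma pol1_mem {z : E3} (hz : z ∈ D.P 1) (h : z 0 < D.tL) : D.pol1 z ∈ D.P 0 := by
  rw [mem_P0, D.rho_pol1 hz.1 h]; linarith

lemma pol2_mem {z : E3} (hz : z ∈ D.P 1) (h : D.tR < z 0) : D.pol2 z ∈ D.P 2 := by
  rw [mem_P2, D.rho_pol2' h.le hz.2]; linarith

lemma mem_of_latB0 {p q : E3} (h : D.latB p q) (hp : p ∈ D.P 0) : q ∈ D.P 0 := by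
  rw [mem_P0] at *
  rwa [← D.rho_congr h.1 h.2.1]

lemma mem_of_latB2 {p q : E3} (h : D.latB p q) (hp : p ∈ D.P 2) : q ∈ D.P 2 := by
  rw [mem_P2] at *
  rwa [← D.rho_congr h.1 h.2.1]

lemma latB_add {p q : E3} (h : D.latB p q) (z : E3) : D.latB z (z + (q - p)) := by
  obtain ⟨h0, h1, h2⟩ := h
  obtain ⟨k, hk⟩ := D.tc_eq_iff.1 h0
  obtain ⟨l, hl⟩ := D.tc_eq_iff.1 h1
  obtain ⟨n, hn⟩ := an_eq_iff.1 h2
  refine ⟨D.tc_eq_iff.2 ⟨k, ?_⟩, D.tc_eq_iff.2 ⟨l, ?_⟩, an_eq_iff.2 ⟨n, ?_⟩⟩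
  · simp [hk]
  · simp [hl]
  · simp [hn]

lemma latC_add {p q : E3} (h : latC p q) (z : E3) : latC z (z + (q - p)) := by
  obtain ⟨h0, h1, h2⟩ := h
  obtain ⟨l, hl⟩ := an_eq_iff.1 h1
  obtain ⟨n, hn⟩ := an_eq_iff.1 h2
  refine ⟨?_, an_eq_iff.2 ⟨l, ?_⟩, an_eq_iff.2 ⟨n, ?_⟩⟩
  · simp [h0]
  · simp [hl]
  · simp [hn]

lemma lat_add {i : Fin 3} {p q : E3} (h : D.lat i p q) (z : E3) : D.lat i z (z + (q - p)) := by
  unfold lat at *
  split_ifs at *
  · exact latC_add h z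
  · exact D.latB_add h z

lemma mem_of_lat {i : Fin 3} {z w : E3} (h : D.lat i z w) (hz : z ∈ D.P i) : w ∈ D.P i := by
  fin_cases i
  · exact D.mem_of_latB0 (by simpa [lat] using h) hz
  · have h' : latC z w := by simpa [lat] using h
    exact ⟨by rw [← h'.1]; exact hz.1, by rw [← h'.1]; exact hz.2⟩
  · exact D.mem_of_latB2 (by simpa [lat] using h) hz

lemma rel_of_lat {i : Fin 3} {z w : E3} (h : D.lat i z w) (hz : z ∈ D.P i) : D.rel i z i w := by
  have hw := D.mem_of_lat h hz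
  fin_cases i
  · exact D.rel_00.2 (by simpa [lat] using h)
  · exact (D.rel_11 hz hw).2 (by simpa [lat] using h)
  · exact D.rel_22.2 (by simpa [lat] using h)

/-! ### Local injectivity -/

lemma tc_inj_of_lt {a b : ℝ} (h : D.tc a = D.tc b) (hab : |a - b| < D.S) : a = b := by
  obtain ⟨k, hk⟩ := D.tc_eq_iff.1 h
  have hS := D.S_pos
  have h1 : D.S * |(k : ℝ)| < D.S := by
    calc D.S * |(k : ℝ)| = |D.S * k| := by rw [abs_mul, abs_of_pos hS]
      _ = |a - b| := by rw [hk, abs_sub_comm]; congr 1; ring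
      _ < D.S := hab
  have h4 : |(k : ℝ)| < 1 := by nlinarith [abs_nonneg (k : ℝ)]
  have h6 : k = 0 := by
    have : |k| < 1 := by exact_mod_cast h4
    exact Int.abs_lt_one_iff.1 this
  rw [h6] at hk; simpa using hk.symm

lemma an_inj_of_lt {a b : ℝ} (h : an a = an b) (hab : |a - b| < 1) : a = b := by
  obtain ⟨k, hk⟩ := an_eq_iff.1 h
  have h1 : 2 * π * |(k : ℝ)| < 1 := by
    calc 2 * π * |(k : ℝ)| = |2 * π * k| := by
            rw [abs_mul, abs_of_pos (by positivity : (0 : ℝ) < 2 * π)]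
      _ = |a - b| := by rw [hk, abs_sub_comm]; congr 1; ring
      _ < 1 := hab
  have h4 : |(k : ℝ)| < 1 := by nlinarith [abs_nonneg (k : ℝ), Real.pi_gt_three]
  have h6 : k = 0 := by
    have : |k| < 1 := by exact_mod_cast h4
    exact Int.abs_lt_one_iff.1 this
  rw [h6] at hk; simpa using hk.symm

lemma coord_lt {p z w : E3} {δ : ℝ} (hz : dist z p < δ / 2) (hw : dist w p < δ / 2) (i : Fin 3) :
    |z i - w i| < δ := by
  have h1 : dist z w < δ := by
    calc dist z w ≤ dist z p + dist w p := dist_triangle_right _ _ _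
      _ < δ := by linarith
  rw [EuclideanSpace.dist_eq] at h1
  have h2 : dist (z i) (w i) ^ 2 ≤ ∑ j, dist (z j) (w j) ^ 2 :=
    Finset.single_le_sum (f := fun j => dist (z j) (w j) ^ 2) (fun j _ => sq_nonneg _)
      (Finset.mem_univ i)
  have h3 : dist (z i) (w i) ≤ Real.sqrt (∑ j, dist (z j) (w j) ^ 2) := by
    apply Real.le_sqrt_of_sq_le h2
  rw [Real.dist_eq] at h3
  exact h3.trans_lt h1

lemma E3_ext {z w : E3} (h0 : z 0 = w 0) (h1 : z 1 = w 1) (h2 : z 2 = w 2) : z = w := by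
  ext i; fin_cases i
  · exact h0
  · exact h1
  · exact h2

lemma loc_inj (i : Fin 3) (p : E3) : ∃ V ∈ 𝓝 p, ∀ z w : E3, z ∈ D.P i → w ∈ D.P i → z ∈ V →
    w ∈ V → D.rel i z i w → z = w := by
  set δ := min D.S 1 with hδ
  have hS := D.S_pos
  have hδ0 : 0 < δ := lt_min hS one_pos
  refine ⟨Metric.ball p (δ / 2), Metric.ball_mem_nhds p (by positivity), ?_⟩
  intro z w hz hw hzV hwV hr
  have hc : ∀ j, |z j - w j| < δ := coord_lt hzV hwV
  have hcS : ∀ j, |z j - w j| < D.S := fun j => (hc j).trans_le (min_le_left _ _)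
  have hc1 : ∀ j, |z j - w j| < 1 := fun j => (hc j).trans_le (min_le_right _ _)
  fin_cases i
  · obtain ⟨h0, h1, h2⟩ := D.rel_00.1 hr
    exact E3_ext (D.tc_inj_of_lt h0 (hcS 0)) (D.tc_inj_of_lt h1 (hcS 1)) (an_inj_of_lt h2 (hc1 2))
  · obtain ⟨h0, h1, h2⟩ := (D.rel_11 hz hw).1 hr
    exact E3_ext h0 (an_inj_of_lt h1 (hc1 1)) (an_inj_of_lt h2 (hc1 2))
  · obtain ⟨h0, h1, h2⟩ := D.rel_22.1 hr
    exact E3_ext (D.tc_inj_of_lt h0 (hcS 0)) (D.tc_inj_of_lt h1 (hcS 1)) (an_inj_of_lt h2 (hc1 2))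

/-! ### The metric -/

/-- rank one bilinear form `u i * v j`. -/
def rk (i j : Fin 3) : E3 →L[ℝ] E3 →L[ℝ] ℝ :=
  (EuclideanSpace.proj (𝕜 := ℝ) i : E3 →L[ℝ] ℝ).smulRight (EuclideanSpace.proj (𝕜 := ℝ) j : E3 →L[ℝ] ℝ)

lemma rk_apply (i j : Fin 3) (u v : E3) : rk i j u v = u i * v j := by
  simp [rk]

/-- a bilinear form with constant coefficients. -/
def bil (a b c d : ℝ) : E3 →L[ℝ] E3 →L[ℝ] ℝ :=
  a • rk 0 0 + b • rk 1 1 + c • (rk 1 2 + rk 2 1) + d • rk 2 2

lemma bil_apply (a b c d : ℝ) (u v : E3) : bil a b c d u v =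
    a * (u 0 * v 0) + b * (u 1 * v 1) + c * (u 1 * v 2 + u 2 * v 1) + d * (u 2 * v 2) := by
  simp [bil, rk_apply]
  ring

end Par

/-- parameters of the concrete manifold from the collar data. -/
def _root_.Crest.Agent.R244.CollarData.par (C : CollarData) : Par where
  S := 2 * (C.c1 - C.tL + 2) + 2 * (C.c2 + C.tR + 2) + 1
  c1 := C.c1
  c2 := C.c2
  tL := C.tL
  tR := C.tR
  hLR := (C.tL_lt_t0.trans C.t0_lt_t1).trans C.t1_lt_tR
  h1 := C.c1_pos
  h2 := C.c2_pos
  hS1 := by have := C.c2_pos; linarith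
  hS2 := by have := C.c1_pos; linarith

open Par

/-- the metric on the three patches. -/
def met (C : CollarData) : Fin 3 → E3 → E3 →L[ℝ] E3 →L[ℝ] ℝ :=
  ![fun _ => bil 1 1 0 (C.Φ0 ^ 2),
    fun z => bil 1 (C.P (z 0)) (C.B (z 0)) (C.D (z 0)),
    fun _ => bil 1 1 0 (C.R0 ^ 2)]

lemma met_0 (C : CollarData) (z : E3) : met C 0 z = bil 1 1 0 (C.Φ0 ^ 2) := rfl
lemma met_1 (C : CollarData) (z : E3) :
    met C 1 z = bil 1 (C.P (z 0)) (C.B (z 0)) (C.D (z 0)) := rfl
lemma met_2 (C : CollarData) (z : E3) : met C 2 z = bil 1 1 0 (C.R0 ^ 2) := rfl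

/-- the determinant of an endomorphism of `ℝ³` by its entries. -/
lemma det3 (f : E3 →ₗ[ℝ] E3) (a : Fin 3 → Fin 3 → ℝ)
    (h : ∀ i j, f (EuclideanSpace.single j 1) i = a i j) :
    LinearMap.det f = a 0 0 * a 1 1 * a 2 2 - a 0 0 * a 1 2 * a 2 1 - a 0 1 * a 1 0 * a 2 2 +
      a 0 1 * a 1 2 * a 2 0 + a 0 2 * a 1 0 * a 2 1 - a 0 2 * a 1 1 * a 2 0 := by
  set b := (EuclideanSpace.basisFun (Fin 3) ℝ).toBasis with hb
  rw [← LinearMap.det_toMatrix b f, Matrix.det_fin_three]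
  have hent : ∀ i j, LinearMap.toMatrix b b f i j = a i j := by
    intro i j
    rw [LinearMap.toMatrix_apply]
    simp only [hb, OrthonormalBasis.coe_toBasis, EuclideanSpace.basisFun_apply,
      OrthonormalBasis.coe_toBasis_repr_apply, EuclideanSpace.basisFun_repr]
    exact h i j
  simp only [hent]

/-- translation germs inside a patch -/
lemma et_lat (C : CollarData) {i : Fin 3} {p q : E3} (hp : p ∈ C.par.P i) (hq : q ∈ C.par.P i)
    (h : C.par.lat i p q) : Et C.par.P C.par.setoid (met C) i i p q := by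
  have hτ : ∀ z : E3, HasFDerivAt (fun z : E3 => z + (q - p)) (ContinuousLinearMap.id ℝ E3) z :=
    fun z => (hasFDerivAt_id z).add_const _
  refine ⟨fun z => z + (q - p), by fun_prop, by simp, ?_, ?_, ?_⟩
  · rw [(hτ p).fderiv]
    simp
  · filter_upwards [(C.par.isOpen_P i).mem_nhds hp] with z hz
    have h1 := C.par.lat_add h z
    exact ⟨hz, C.par.mem_of_lat h1 hz, C.par.rel_of_lat h1 hz⟩
  · intro u v
    rw [(hτ p).fderiv]
    show met C i p u v = met C i q u v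
    fin_cases i
    · rfl
    · have h' : latC p q := by simpa [lat] using h
      show met C 1 p u v = met C 1 q u v
      rw [met_1, met_1, h'.1]
    · rfl

lemma continuous_apply_coord (i : Fin 3) : Continuous fun z : E3 => z i := by fun_prop

lemma hasFDerivAt_coord (i : Fin 3) (z : E3) :
    HasFDerivAt (fun z : E3 => z i) (EuclideanSpace.proj (𝕜 := ℝ) i : E3 →L[ℝ] ℝ) z :=
  (EuclideanSpace.proj (𝕜 := ℝ) i : E3 →L[ℝ] ℝ).hasFDerivAt

lemma contDiff_pol1 (D : Par) : ContDiff ℝ ∞ D.pol1 := by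
  rw [contDiff_euclidean]
  intro i
  fin_cases i
  · show ContDiff ℝ ∞ fun z : E3 => D.S / 2 + (D.c1 - z 0) * Real.cos (z 2)
    fun_prop
  · show ContDiff ℝ ∞ fun z : E3 => D.S / 2 + (D.c1 - z 0) * Real.sin (z 2)
    fun_prop
  · show ContDiff ℝ ∞ fun z : E3 => z 1
    fun_prop

lemma contDiff_pol2 (D : Par) : ContDiff ℝ ∞ D.pol2 := by
  rw [contDiff_euclidean]
  intro i
  fin_cases i
  · show ContDiff ℝ ∞ fun z : E3 => D.S / 2 + (z 0 + D.c2) * Real.cos (z 1)
    fun_prop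
  · show ContDiff ℝ ∞ fun z : E3 => D.S / 2 + (z 0 + D.c2) * Real.sin (z 1)
    fun_prop
  · show ContDiff ℝ ∞ fun z : E3 => z 1 + z 2
    fun_prop

lemma fderiv_apply_coord {f : E3 → E3} {p : E3} (hf : DifferentiableAt ℝ f p) (i : Fin 3)
    (f' : E3 →L[ℝ] ℝ) (h : HasFDerivAt (fun z => f z i) f' p) (u : E3) :
    (fderiv ℝ f p u) i = f' u := by
  have h1 : HasFDerivAt (fun z => f z i)
      ((EuclideanSpace.proj (𝕜 := ℝ) i : E3 →L[ℝ] ℝ).comp (fderiv ℝ f p)) p :=
    (EuclideanSpace.proj (𝕜 := ℝ) i : E3 →L[ℝ] ℝ).hasFDerivAt.comp p hf.hasFDerivAt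
  have h2 := h1.unique h
  rw [← h2]
  rfl

lemma fderiv_pol1 (D : Par) (p u : E3) :
    (fderiv ℝ D.pol1 p u) 0 = - Real.cos (p 2) * u 0 - (D.c1 - p 0) * Real.sin (p 2) * u 2 ∧
    (fderiv ℝ D.pol1 p u) 1 = - Real.sin (p 2) * u 0 + (D.c1 - p 0) * Real.cos (p 2) * u 2 ∧
    (fderiv ℝ D.pol1 p u) 2 = u 1 := by
  have hd : DifferentiableAt ℝ D.pol1 p := (contDiff_pol1 D).differentiable (by simp) p
  have h0 := hasFDerivAt_coord 0 p
  have h2 := hasFDerivAt_coord 2 p
  have hA : HasFDerivAt (fun z : E3 => D.c1 - z 0)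
      (-(EuclideanSpace.proj (𝕜 := ℝ) (0 : Fin 3) : E3 →L[ℝ] ℝ)) p := h0.const_sub D.c1
  refine ⟨?_, ?_, ?_⟩
  · rw [fderiv_apply_coord hd 0 _ ((hA.mul h2.cos).const_add (D.S / 2))]
    simp
    ring
  · rw [fderiv_apply_coord hd 1 _ ((hA.mul h2.sin).const_add (D.S / 2))]
    simp
    ring
  · rw [fderiv_apply_coord hd 2 _ (hasFDerivAt_coord 1 p)]
    simp

lemma fderiv_pol2 (D : Par) (p u : E3) :
    (fderiv ℝ D.pol2 p u) 0 = Real.cos (p 1) * u 0 - (p 0 + D.c2) * Real.sin (p 1) * u 1 ∧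
    (fderiv ℝ D.pol2 p u) 1 = Real.sin (p 1) * u 0 + (p 0 + D.c2) * Real.cos (p 1) * u 1 ∧
    (fderiv ℝ D.pol2 p u) 2 = u 1 + u 2 := by
  have hd : DifferentiableAt ℝ D.pol2 p := (contDiff_pol2 D).differentiable (by simp) p
  have h0 := hasFDerivAt_coord 0 p
  have h1 := hasFDerivAt_coord 1 p
  have hA : HasFDerivAt (fun z : E3 => z 0 + D.c2)
      ((EuclideanSpace.proj (𝕜 := ℝ) (0 : Fin 3) : E3 →L[ℝ] ℝ)) p := h0.add_const D.c2
  refine ⟨?_, ?_, ?_⟩
  · rw [fderiv_apply_coord hd 0 _ ((hA.mul h1.cos).const_add (D.S / 2))]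
    simp
    ring
  · rw [fderiv_apply_coord hd 1 _ ((hA.mul h1.sin).const_add (D.S / 2))]
    simp
    ring
  · rw [fderiv_apply_coord hd 2 _ ((hasFDerivAt_coord 1 p).add (hasFDerivAt_coord 2 p))]
    simp

/-- the germ collar → block 1 -/
lemma et_pol1 (C : CollarData) {p : E3} (hp : p ∈ C.par.P 1) (h : p 0 < C.par.tL) :
    Et C.par.P C.par.setoid (met C) 1 0 p (C.par.pol1 p) := by
  set D := C.par with hD
  have hr : 0 < D.c1 - p 0 := by have := D.h1; linarith
  refine ⟨D.pol1, (contDiff_pol1 D).contDiffAt, rfl, ?_, ?_, ?_⟩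
  · rw [det3 (fderiv ℝ D.pol1 p : E3 →ₗ[ℝ] E3)
      (fun i j => (fderiv ℝ D.pol1 p (EuclideanSpace.single j 1)) i) (fun i j => rfl)]
    simp only [(fderiv_pol1 D p _).1, (fderiv_pol1 D p _).2.1, (fderiv_pol1 D p _).2.2]
    simp
    have h1 := Real.sin_sq_add_cos_sq (p 2)
    nlinarith
  · have h1 : ∀ᶠ z in 𝓝 p, z 0 < D.tL :=
      (continuous_apply_coord 0).continuousAt.eventually_lt continuousAt_const h
    filter_upwards [(D.isOpen_P 1).mem_nhds hp, h1] with z hz hz1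
    refine ⟨hz, D.pol1_mem hz hz1, ?_⟩
    exact D.rel_symm (D.rel_01.2 ⟨hz1, D.latB_refl _⟩)
  · intro u v
    obtain ⟨a1, a2, a3⟩ := fderiv_pol1 D p u
    obtain ⟨b1, b2, b3⟩ := fderiv_pol1 D p v
    rw [met_1, met_0, bil_apply, bil_apply, a1, a2, a3, b1, b2, b3]
    have hle : p 0 ≤ C.tL := h.le
    have hle0 : p 0 ≤ C.t0 := hle.trans C.tL_lt_t0.le
    rw [C.left_P _ hle0, C.left_B _ hle0, C.left_D _ hle]
    have h1 := Real.sin_sq_add_cos_sq (p 2)
    have hc1 : D.c1 = C.c1 := rfl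
    rw [hc1]
    linear_combination (-(u 0 * v 0) - (C.c1 - p 0) ^ 2 * (u 2 * v 2)) * h1

/-- the germ collar → block 2 -/
lemma et_pol2 (C : CollarData) {p : E3} (hp : p ∈ C.par.P 1) (h : C.par.tR < p 0) :
    Et C.par.P C.par.setoid (met C) 1 2 p (C.par.pol2 p) := by
  set D := C.par with hD
  have hr : 0 < p 0 + D.c2 := by have := D.h2; linarith
  refine ⟨D.pol2, (contDiff_pol2 D).contDiffAt, rfl, ?_, ?_, ?_⟩
  · rw [det3 (fderiv ℝ D.pol2 p : E3 →ₗ[ℝ] E3)
      (fun i j => (fderiv ℝ D.pol2 p (EuclideanSpace.single j 1)) i) (fun i j => rfl)]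
    simp only [(fderiv_pol2 D p _).1, (fderiv_pol2 D p _).2.1, (fderiv_pol2 D p _).2.2]
    simp
    have h1 := Real.sin_sq_add_cos_sq (p 1)
    nlinarith
  · have h1 : ∀ᶠ z in 𝓝 p, D.tR < z 0 :=
      continuousAt_const.eventually_lt (continuous_apply_coord 0).continuousAt h
    filter_upwards [(D.isOpen_P 1).mem_nhds hp, h1] with z hz hz1
    refine ⟨hz, D.pol2_mem hz hz1, ?_⟩
    exact D.rel_symm (D.rel_21.2 ⟨hz1, D.latB_refl _⟩)
  · intro u v
    obtain ⟨a1, a2, a3⟩ := fderiv_pol2 D p u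
    obtain ⟨b1, b2, b3⟩ := fderiv_pol2 D p v
    rw [met_1, met_2, bil_apply, bil_apply, a1, a2, a3, b1, b2, b3]
    have hle : C.tR ≤ p 0 := h.le
    have hle0 : C.t1 ≤ p 0 := C.t1_lt_tR.le.trans hle
    rw [C.right_P _ hle, C.right_B _ hle0, C.right_D _ hle0]
    have h1 := Real.sin_sq_add_cos_sq (p 1)
    have hc1 : D.c2 = C.c2 := rfl
    rw [hc1]
    linear_combination (-(u 0 * v 0) - (p 0 + C.c2) ^ 2 * (u 1 * v 1)) * h1

/-- related points are connected by a germ of orientation preserving isometry. -/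
theorem et_of_rel (C : CollarData) (i j : Fin 3) (p : C.par.P i) (q : C.par.P j)
    (h : C.par.setoid ⟨i, p⟩ ⟨j, q⟩) :
    Et C.par.P C.par.setoid (met C) i j p q := by
  obtain ⟨p, hp⟩ := p
  obtain ⟨q, hq⟩ := q
  have h' : C.par.rel i p j q := h
  show Et C.par.P C.par.setoid (met C) i j p q
  -- germs to the normal forms
  have key : ∀ (i : Fin 3) (p : E3), p ∈ C.par.P i →
      (C.par.nf i p).2 ∈ C.par.P (C.par.nf i p).1 ∧
      Et C.par.P C.par.setoid (met C) i (C.par.nf i p).1 p (C.par.nf i p).2 := by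
    intro i p hp
    fin_cases i
    · show (C.par.nf 0 p).2 ∈ C.par.P (C.par.nf 0 p).1 ∧
        Et C.par.P C.par.setoid (met C) 0 (C.par.nf 0 p).1 p (C.par.nf 0 p).2
      rw [C.par.nf_zero]
      exact ⟨hp, et_lat C hp hp (C.par.lat_refl _ _)⟩
    · show (C.par.nf 1 p).2 ∈ C.par.P (C.par.nf 1 p).1 ∧
        Et C.par.P C.par.setoid (met C) 1 (C.par.nf 1 p).1 p (C.par.nf 1 p).2
      rcases lt_or_ge (p 0) C.par.tL with h1 | h1
      · rw [C.par.nf_one_left h1]
        exact ⟨C.par.pol1_mem hp h1, et_pol1 C hp h1⟩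
      · rcases lt_or_ge C.par.tR (p 0) with h2 | h2
        · rw [C.par.nf_one_right h2]
          exact ⟨C.par.pol2_mem hp h2, et_pol2 C hp h2⟩
        · rw [C.par.nf_one_mid h1 h2]
          exact ⟨hp, et_lat C hp hp (C.par.lat_refl _ _)⟩
    · show (C.par.nf 2 p).2 ∈ C.par.P (C.par.nf 2 p).1 ∧
        Et C.par.P C.par.setoid (met C) 2 (C.par.nf 2 p).1 p (C.par.nf 2 p).2
      rw [C.par.nf_two]
      exact ⟨hp, et_lat C hp hp (C.par.lat_refl _ _)⟩
  obtain ⟨h1, h2⟩ := key i p hp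
  obtain ⟨h3, h4⟩ := key j q hq
  obtain ⟨h5, h6⟩ := h'
  rw [← h5] at h3 h4
  exact (h2.trans (et_lat C h1 h3 h6)).trans h4.symm

/-- a base point of the patches. -/
def basePt (C : CollarData) : Σ i, C.par.P i :=
  ⟨1, !₂[C.tL, 0, 0], by
    rw [mem_P1]
    have h := C.par.hLR
    constructor
    · simp [CollarData.par]
    · have : C.tL < C.tR := h
      simp [CollarData.par]; linarith⟩

/-- **The concrete glued 3-manifold.** -/
def theGlue (C : CollarData) : Glue (Fin 3) 3 :=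
  Glue.ofEt C.par.P C.par.isOpen_P C.par.setoid (met C) (et_of_rel C)
    (fun i p => by
      obtain ⟨V, hV, h⟩ := C.par.loc_inj i p
      exact ⟨V, hV, fun z w hz hw hzV hwV hr => h z w hz hw hzV hwV hr⟩)
    (basePt C)

@[simp] lemma theGlue_U (C : CollarData) (i : Fin 3) : (theGlue C).U i = C.par.P i := rfl


lemma theGlue_F_eq (C : CollarData) {i j : Fin 3} {z w : E3} (hz : z ∈ C.par.P i)
    (hw : w ∈ C.par.P j) :
    (theGlue C).F i z = (theGlue C).F j w ↔ C.par.rel i z j w :=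
  (theGlue C).F_eq_F hz hw

theorem theGlue_isOrientable (C : CollarData) :
    Crest.GeometryTopology.Geodesic.IsOrientable 3 (theGlue C).M :=
  Glue.ofEt_isOrientable _ _ _ _ _ _ _

theorem contDiff_met (C : CollarData) (i : Fin 3) : ContDiff ℝ ∞ (met C i) := by
  have h1 : ContDiff ℝ ∞ fun z : E3 => bil 1 (C.P (z 0)) (C.B (z 0)) (C.D (z 0)) := by
    have h0 : ContDiff ℝ ∞ fun z : E3 => z 0 := by fun_prop
    have hP : ContDiff ℝ ∞ fun z : E3 => C.P (z 0) := C.smooth_P.comp h0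
    have hB : ContDiff ℝ ∞ fun z : E3 => C.B (z 0) := C.smooth_B.comp h0
    have hD : ContDiff ℝ ∞ fun z : E3 => C.D (z 0) := C.smooth_D.comp h0
    have e1 : ContDiff ℝ ∞ fun z : E3 => C.P (z 0) • rk 1 1 := hP.smul contDiff_const
    have e2 : ContDiff ℝ ∞ fun z : E3 => C.B (z 0) • (rk 1 2 + rk 2 1) := hB.smul contDiff_const
    have e3 : ContDiff ℝ ∞ fun z : E3 => C.D (z 0) • rk 2 2 := hD.smul contDiff_const
    have e0 : ContDiff ℝ ∞ fun _ : E3 => (1 : ℝ) • rk 0 0 := contDiff_const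
    exact ((e0.add e1).add e2).add e3
  have h0 : ContDiff ℝ ∞ fun _ : E3 => bil 1 1 0 (C.Φ0 ^ 2) := contDiff_const
  have h2 : ContDiff ℝ ∞ fun _ : E3 => bil 1 1 0 (C.R0 ^ 2) := contDiff_const
  fin_cases i
  · exact h0
  · exact h1
  · exact h2

theorem contDiffOn_met (C : CollarData) (i : Fin 3) : ContDiffOn ℝ ∞ (met C i) (C.par.P i) :=
  (contDiff_met C i).contDiffOn

theorem met_symm (C : CollarData) (i : Fin 3) (z : E3) (u v : E3) :
    met C i z u v = met C i z v u := by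
  fin_cases i
  · show bil _ _ _ _ u v = bil _ _ _ _ v u
    rw [bil_apply, bil_apply]; ring
  · show bil _ _ _ _ u v = bil _ _ _ _ v u
    rw [bil_apply, bil_apply]; ring
  · show bil _ _ _ _ u v = bil _ _ _ _ v u
    rw [bil_apply, bil_apply]; ring

theorem met_pos (C : CollarData) (i : Fin 3) (z : E3) (v : E3) (hv : v ≠ 0) :
    0 < met C i z v v := by
  have hne : v 0 ≠ 0 ∨ v 1 ≠ 0 ∨ v 2 ≠ 0 := by
    by_contra hcon
    push Not at hcon
    exact hv (E3_ext hcon.1 hcon.2.1 hcon.2.2)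
  have key : ∀ a b c : ℝ, 0 < a → 0 < a * c - b ^ 2 →
      0 < v 0 * v 0 + a * (v 1 * v 1) + b * (v 1 * v 2 + v 2 * v 1) + c * (v 2 * v 2) := by
    intro a b c ha hdet
    have h1 : a * (v 0 * v 0 + a * (v 1 * v 1) + b * (v 1 * v 2 + v 2 * v 1) + c * (v 2 * v 2)) =
        a * v 0 ^ 2 + (a * v 1 + b * v 2) ^ 2 + (a * c - b ^ 2) * v 2 ^ 2 := by ring
    have h2 : 0 < a * v 0 ^ 2 + (a * v 1 + b * v 2) ^ 2 + (a * c - b ^ 2) * v 2 ^ 2 := by
      by_cases h2 : v 2 = 0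
      · by_cases h0 : v 0 = 0
        · have h3 : v 1 ≠ 0 := by
            rcases hne with h | h | h
            · exact absurd h0 h
            · exact h
            · exact absurd h2 h
          rw [h2, h0]
          have : 0 < (a * v 1) ^ 2 := by positivity
          nlinarith
        · have h3 : 0 < a * v 0 ^ 2 := by positivity
          have h4 := mul_nonneg hdet.le (sq_nonneg (v 2))
          nlinarith [sq_nonneg (a * v 1 + b * v 2)]
      · have h3 : 0 < (a * c - b ^ 2) * v 2 ^ 2 := by positivity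
        have h4 : 0 ≤ a * v 0 ^ 2 := by positivity
        nlinarith [sq_nonneg (a * v 1 + b * v 2)]
    rw [← h1] at h2
    exact (mul_pos_iff_of_pos_left ha).1 h2
  fin_cases i
  · show 0 < bil _ _ _ _ v v
    rw [bil_apply]
    have h1 := C.Φ0_pos
    have := key 1 0 (C.Φ0 ^ 2) one_pos (by have : 0 < C.Φ0 ^ 2 := by positivity
                                           linarith)
    linarith
  · show 0 < bil _ _ _ _ v v
    rw [bil_apply]
    have := key (C.P (z 0)) (C.B (z 0)) (C.D (z 0)) (C.P_pos _) (C.det_pos _)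
    linarith
  · show 0 < bil _ _ _ _ v v
    rw [bil_apply]
    have h1 := C.R0_pos
    have := key 1 0 (C.R0 ^ 2) one_pos (by have : 0 < C.R0 ^ 2 := by positivity
                                           linarith)
    linarith

/-- the invariant metric data. -/
def theMetricData (C : CollarData) : (theGlue C).MetricData :=
  Glue.ofEtMetric _ _ _ (met C) _ _ _ (contDiffOn_met C) (fun i z _ u v => met_symm C i z u v)
    (fun i z _ v hv => met_pos C i z v hv)

/-- the Riemannian metric on the concrete manifold. -/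
def theMetric (C : CollarData) := (theMetricData C).toMetric


lemma isClosed_latB (D : Par) {A B : Set E3} (f : E3 → E3) (hf : Continuous f) :
    IsClosed {x : A × B | D.latB x.1 (f x.2)} := by
  have ha : Continuous an := Real.Angle.continuous_coe
  have h1 : ∀ i : Fin 3, Continuous fun x : A × B => (x.1 : E3) i := fun i =>
    (continuous_apply_coord i).comp (continuous_subtype_val.comp continuous_fst)
  have h2 : ∀ i : Fin 3, Continuous fun x : A × B => (f x.2) i := fun i =>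
    (continuous_apply_coord i).comp (hf.comp (continuous_subtype_val.comp continuous_snd))
  exact (isClosed_eq (D.continuous_tc.comp (h1 0)) (D.continuous_tc.comp (h2 0))).inter
    ((isClosed_eq (D.continuous_tc.comp (h1 1)) (D.continuous_tc.comp (h2 1))).inter
      (isClosed_eq (ha.comp (h1 2)) (ha.comp (h2 2))))

lemma isClosed_rel01 (D : Par) : IsClosed {x : D.P 0 × D.P 1 | D.rel 0 x.1 1 x.2} := by
  have : {x : D.P 0 × D.P 1 | D.rel 0 x.1 1 x.2} =
      {x : D.P 0 × D.P 1 | (x.2 : E3) 0 ≤ D.tL} ∩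
        {x : D.P 0 × D.P 1 | D.latB x.1 (D.pol1 x.2)} := by
    ext ⟨⟨p, hp⟩, ⟨q, hq⟩⟩
    show D.rel 0 p 1 q ↔ (q 0 ≤ D.tL ∧ D.latB p (D.pol1 q))
    rw [D.rel_01]
    constructor
    · rintro ⟨h1, h2⟩; exact ⟨h1.le, h2⟩
    · rintro ⟨h1, h2⟩
      refine ⟨lt_of_le_of_ne h1 ?_, h2⟩
      intro h3
      have h4 := D.rho_congr h2.1 h2.2.1
      rw [mem_P0] at hp
      rw [D.rho_pol1' hq.1 h1, h3] at h4
      linarith
  rw [this]
  refine IsClosed.inter ?_ (isClosed_latB D _ (contDiff_pol1 D).continuous)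
  exact isClosed_le ((continuous_apply_coord 0).comp
    (continuous_subtype_val.comp continuous_snd)) continuous_const

lemma isClosed_rel21 (D : Par) : IsClosed {x : D.P 2 × D.P 1 | D.rel 2 x.1 1 x.2} := by
  have : {x : D.P 2 × D.P 1 | D.rel 2 x.1 1 x.2} =
      {x : D.P 2 × D.P 1 | D.tR ≤ (x.2 : E3) 0} ∩
        {x : D.P 2 × D.P 1 | D.latB x.1 (D.pol2 x.2)} := by
    ext ⟨⟨p, hp⟩, ⟨q, hq⟩⟩
    show D.rel 2 p 1 q ↔ (D.tR ≤ q 0 ∧ D.latB p (D.pol2 q))
    rw [D.rel_21]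
    constructor
    · rintro ⟨h1, h2⟩; exact ⟨h1.le, h2⟩
    · rintro ⟨h1, h2⟩
      refine ⟨lt_of_le_of_ne h1 ?_, h2⟩
      intro h3
      have h4 := D.rho_congr h2.1 h2.2.1
      rw [mem_P2] at hp
      rw [D.rho_pol2' h1 hq.2, ← h3] at h4
      linarith
  rw [this]
  refine IsClosed.inter ?_ (isClosed_latB D _ (contDiff_pol2 D).continuous)
  exact isClosed_le continuous_const ((continuous_apply_coord 0).comp
    (continuous_subtype_val.comp continuous_snd))

lemma isClosed_rel (D : Par) (i j : Fin 3) : IsClosed {x : D.P i × D.P j | D.rel i x.1 j x.2} := by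
  have hsw : ∀ {i j : Fin 3}, IsClosed {x : D.P i × D.P j | D.rel i x.1 j x.2} →
      IsClosed {x : D.P j × D.P i | D.rel j x.1 i x.2} := by
    intro i j h
    have h1 := h.preimage (continuous_swap (X := D.P j) (Y := D.P i))
    convert h1 using 1
    ext x
    exact ⟨fun h => D.rel_symm h, fun h => D.rel_symm h⟩
  have h00 : IsClosed {x : D.P 0 × D.P 0 | D.rel 0 x.1 0 x.2} := by
    have := isClosed_latB D (A := D.P 0) (B := D.P 0) id continuous_id
    convert this using 1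
    ext x
    exact D.rel_00
  have h22 : IsClosed {x : D.P 2 × D.P 2 | D.rel 2 x.1 2 x.2} := by
    have := isClosed_latB D (A := D.P 2) (B := D.P 2) id continuous_id
    convert this using 1
    ext x
    exact D.rel_22
  have h11 : IsClosed {x : D.P 1 × D.P 1 | D.rel 1 x.1 1 x.2} := by
    have ha : Continuous an := Real.Angle.continuous_coe
    have h1 : ∀ i : Fin 3, Continuous fun x : D.P 1 × D.P 1 => (x.1 : E3) i := fun i =>
      (continuous_apply_coord i).comp (continuous_subtype_val.comp continuous_fst)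
    have h2 : ∀ i : Fin 3, Continuous fun x : D.P 1 × D.P 1 => (x.2 : E3) i := fun i =>
      (continuous_apply_coord i).comp (continuous_subtype_val.comp continuous_snd)
    have h3 : IsClosed {x : D.P 1 × D.P 1 | latC x.1 x.2} :=
      (isClosed_eq (h1 0) (h2 0)).inter
      ((isClosed_eq (ha.comp (h1 1)) (ha.comp (h2 1))).inter
        (isClosed_eq (ha.comp (h1 2)) (ha.comp (h2 2))))
    convert h3 using 1
    ext x
    exact D.rel_11 x.1.2 x.2.2
  have h02 : IsClosed {x : D.P 0 × D.P 2 | D.rel 0 x.1 2 x.2} := by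
    convert isClosed_empty using 1
    ext x
    simp only [mem_setOf_eq, mem_empty_iff_false, iff_false]
    exact D.rel_02
  have h01 := isClosed_rel01 D
  have h21 := isClosed_rel21 D
  fin_cases i <;> fin_cases j
  · exact h00
  · exact h01
  · exact h02
  · exact hsw h01
  · exact h11
  · exact hsw h21
  · exact hsw h02
  · exact h21
  · exact h22

/-- the manifold is Hausdorff. -/
theorem theGlue_t2 (C : CollarData) : T2Space (theGlue C).M :=
  (theGlue C).t2Space (isClosed_rel C.par)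

theorem theGlue_secondCountable (C : CollarData) : SecondCountableTopology (theGlue C).M :=
  (theGlue C).secondCountable

end Crest.Agent.R244.ManC
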