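import Mathlib

/-!
# R244 MAN-C : compactness and connectedness of a 3-patch space

`Pres X`: a space `X` covered by three patches `f1, fc, f2` (block 1, collar, block 2) with the
lattice periodicities and the two polar gluings.
-/

set_option autoImplicit false

open Set Filter Topology
open scoped Real

noncomputable section

namespace Crest.Agent.R244.ManC2

local notation "E3" => EuclideanSpace ℝ (Fin 3)

/-- squared distance of `(u,v)` to the lattice `(h,h) + S ℤ²` -/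
def nn (S h u v : ℝ) : ℝ :=
  ‖((u - h : ℝ) : AddCircle S)‖ ^ 2 + ‖((v - h : ℝ) : AddCircle S)‖ ^ 2


lemma nn_add_int (S h u v : ℝ) (k l : ℤ) : nn S h (u + S * k) (v + S * l) = nn S h u v := by
  have key : ∀ (a : ℝ) (k : ℤ), ((a + S * k - h : ℝ) : AddCircle S) = ((a - h : ℝ) : AddCircle S) := by
    intro a k
    rw [show a + S * k - h = (a - h) + S * k by ring, AddCircle.coe_add]
    have : ((S * k : ℝ) : AddCircle S) = 0 := by
      rw [AddCircle.coe_eq_zero_iff]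
      exact ⟨k, by simp [mul_comm]⟩
    rw [this, add_zero]
  unfold nn
  rw [key, key]

lemma nn_of_small {S h a b : ℝ} (hS : 0 < S) (ha : |a| ≤ S / 2) (hb : |b| ≤ S / 2) :
    nn S h (h + a) (h + b) = a ^ 2 + b ^ 2 := by
  have key : ∀ a : ℝ, |a| ≤ S / 2 → ‖((a : ℝ) : AddCircle S)‖ = |a| := by
    intro a ha
    rw [AddCircle.norm_coe_eq_abs_iff _ hS.ne']
    rwa [abs_of_pos hS]
  unfold nn
  rw [show h + a - h = a by ring, show h + b - h = b by ring, key _ ha, key _ hb, sq_abs, sq_abs]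

lemma continuous_nn (S h : ℝ) : Continuous fun z : E3 => nn S h (z 0) (z 1) := by
  unfold nn
  have htc : Continuous fun a : ℝ => (a : AddCircle S) := AddCircle.continuous_mk' _
  have h1 : Continuous fun p : E3 => ((p 0 - h : ℝ) : AddCircle S) := htc.comp (by fun_prop)
  have h2 : Continuous fun p : E3 => ((p 1 - h : ℝ) : AddCircle S) := htc.comp (by fun_prop)
  exact ((continuous_norm.comp h1).pow 2).add ((continuous_norm.comp h2).pow 2)

lemma abs_scale {r ρ c b : ℝ} (hr : 0 ≤ r) (hrρ : r ≤ ρ) (h : |ρ * c| ≤ b) : |r * c| ≤ b := by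
  rw [abs_mul, abs_of_nonneg hr]
  rw [abs_mul, abs_of_nonneg (hr.trans hrρ)] at h
  exact (mul_le_mul_of_nonneg_right hrρ (abs_nonneg c)).trans h

lemma nn_polar {S h r ρ y : ℝ} (hS : 0 < S) (hr : 0 ≤ r) (hrρ : r ≤ ρ)
    (hc : |ρ * Real.cos y| ≤ S / 2) (hs : |ρ * Real.sin y| ≤ S / 2) (k l : ℤ) :
    nn S h (h + r * Real.cos y + S * k) (h + r * Real.sin y + S * l) = r ^ 2 := by
  rw [nn_add_int, nn_of_small hS (abs_scale hr hrρ hc) (abs_scale hr hrρ hs)]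
  nlinarith [Real.sin_sq_add_cos_sq y]

lemma nn_polar' {S h r y : ℝ} (hS : 0 < S) (hr : 0 ≤ r) (hr' : r ≤ S / 2) :
    nn S h (h + r * Real.cos y) (h + r * Real.sin y) = r ^ 2 := by
  have hc : |r * Real.cos y| ≤ S / 2 := by
    rw [abs_mul, abs_of_nonneg hr]
    nlinarith [Real.abs_cos_le_one y, abs_nonneg (Real.cos y)]
  have hs : |r * Real.sin y| ≤ S / 2 := by
    rw [abs_mul, abs_of_nonneg hr]
    nlinarith [Real.abs_sin_le_one y, abs_nonneg (Real.sin y)]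
  rw [nn_of_small hS hc hs]
  nlinarith [Real.sin_sq_add_cos_sq y]

/-- every point of the plane is, modulo the lattice, in polar position w.r.t. the centre. -/
lemma exists_polar {S : ℝ} (hS : 0 < S) (h u v : ℝ) : ∃ (k l : ℤ) (ρ y : ℝ),
    y ∈ Icc 0 (2 * π) ∧ 0 ≤ ρ ∧ ρ ^ 2 = nn S h u v ∧
    u = h + ρ * Real.cos y + S * k ∧ v = h + ρ * Real.sin y + S * l ∧
    |ρ * Real.cos y| ≤ S / 2 ∧ |ρ * Real.sin y| ≤ S / 2 := by
  set k : ℤ := round (S⁻¹ * (u - h)) with hk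
  set l : ℤ := round (S⁻¹ * (v - h)) with hl
  set a : ℝ := u - h - k * S with ha
  set b : ℝ := v - h - l * S with hb
  have hna : ‖((u - h : ℝ) : AddCircle S)‖ = |a| := by rw [AddCircle.norm_eq]
  have hnb : ‖((v - h : ℝ) : AddCircle S)‖ = |b| := by rw [AddCircle.norm_eq]
  have hrho : nn S h u v = a ^ 2 + b ^ 2 := by
    unfold nn; rw [hna, hnb, sq_abs, sq_abs]
  have hround : ∀ x : ℝ, |x - (round (S⁻¹ * x) : ℤ) * S| ≤ S / 2 := by
    intro x
    have h1 := abs_sub_round (S⁻¹ * x)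
    have h2 : x - (round (S⁻¹ * x) : ℤ) * S = S * (S⁻¹ * x - (round (S⁻¹ * x) : ℤ)) := by
      field_simp
    rw [h2, abs_mul, abs_of_pos hS]
    nlinarith
  have habs : |a| ≤ S / 2 := by rw [ha, hk]; exact hround (u - h)
  have hbbs : |b| ≤ S / 2 := by rw [hb, hl]; exact hround (v - h)
  set w : ℂ := ⟨a, b⟩ with hw
  have hnorm : ‖w‖ ^ 2 = nn S h u v := by
    rw [hrho, Complex.sq_norm, Complex.normSq_apply]
    simp only [hw]; ring
  have hcos : ‖w‖ * Real.cos w.arg = a := by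
    rw [Complex.norm_mul_cos_arg]
  have hsin : ‖w‖ * Real.sin w.arg = b := by
    rw [Complex.norm_mul_sin_arg]
  by_cases h0 : 0 ≤ w.arg
  · refine ⟨k, l, ‖w‖, w.arg, ⟨h0, by linarith [Complex.arg_le_pi w, Real.pi_pos]⟩,
      norm_nonneg _, hnorm, ?_, ?_, by rwa [hcos], by rwa [hsin]⟩
    · rw [hcos, ha]; ring
    · rw [hsin, hb]; ring
  · refine ⟨k, l, ‖w‖, w.arg + 2 * π, ⟨by linarith [Complex.neg_pi_lt_arg w], by linarith⟩,
      norm_nonneg _, hnorm, ?_, ?_, by rwa [Real.cos_add_two_pi, hcos],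
      by rwa [Real.sin_add_two_pi, hsin]⟩
    · rw [Real.cos_add_two_pi, hcos, ha]; ring
    · rw [Real.sin_add_two_pi, hsin, hb]; ring

/-- reduction of a real modulo a positive period -/
lemma exists_int_mem_Icc {T : ℝ} (hT : 0 < T) (a : ℝ) : ∃ k : ℤ, a + T * k ∈ Icc 0 T := by
  refine ⟨-⌊a / T⌋, ?_⟩
  have h1 := Int.floor_le (a / T)
  have h2 := (Int.lt_floor_add_one (a / T)).le
  rw [le_div_iff₀ hT] at h1
  rw [div_le_iff₀ hT] at h2
  push_cast
  constructor <;> nlinarith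

/-- a 3-patch presentation of a space. -/
structure Pres (X : Type*) [TopologicalSpace X] where
  (S h c1 c2 tm tl tr tp : ℝ)
  hml : tm < tl
  hlr : tl < tr
  hrp : tr < tp
  h1 : 0 < c1 - tl
  h2 : 0 < c2 + tr
  hS1 : c1 - tm < S / 2
  hS2 : c2 + tp < S / 2
  f1 : E3 → X
  fc : E3 → X
  f2 : E3 → X
  cont1 : ContinuousOn f1 {p | (c1 - tl) ^ 2 < nn S h (p 0) (p 1)}
  contc : ContinuousOn fc {p | tm < p 0 ∧ p 0 < tp}
  cont2 : ContinuousOn f2 {p | (c2 + tr) ^ 2 < nn S h (p 0) (p 1)}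
  surj : ∀ x, (∃ p : E3, (c1 - tl) ^ 2 < nn S h (p 0) (p 1) ∧ f1 p = x) ∨
    (∃ p : E3, (tm < p 0 ∧ p 0 < tp) ∧ fc p = x) ∨
    (∃ p : E3, (c2 + tr) ^ 2 < nn S h (p 0) (p 1) ∧ f2 p = x)
  per1 : ∀ (u v x : ℝ) (k l n : ℤ), (c1 - tl) ^ 2 < nn S h u v →
    f1 !₂[u + S * k, v + S * l, x + 2 * π * n] = f1 !₂[u, v, x]
  perc : ∀ (t x y : ℝ) (m n : ℤ), tm < t → t < tp →
    fc !₂[t, x + 2 * π * m, y + 2 * π * n] = fc !₂[t, x, y]
  per2 : ∀ (u v x : ℝ) (k l n : ℤ), (c2 + tr) ^ 2 < nn S h u v →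
    f2 !₂[u + S * k, v + S * l, x + 2 * π * n] = f2 !₂[u, v, x]
  glue1 : ∀ t x y : ℝ, tm < t → t < tl →
    f1 !₂[h + (c1 - t) * Real.cos y, h + (c1 - t) * Real.sin y, x] = fc !₂[t, x, y]
  glue2 : ∀ t x y : ℝ, tr < t → t < tp →
    f2 !₂[h + (c2 + t) * Real.cos x, h + (c2 + t) * Real.sin x, x + y] = fc !₂[t, x, y]

lemma eta3 (p : E3) : !₂[p 0, p 1, p 2] = p := by
  ext i; fin_cases i <;> rfl

/-- boxes are compact -/
lemma isCompact_box (a0 b0 a1 b1 a2 b2 : ℝ) :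
    IsCompact {p : E3 | p 0 ∈ Icc a0 b0 ∧ p 1 ∈ Icc a1 b1 ∧ p 2 ∈ Icc a2 b2} := by
  have h1 : IsCompact ((Icc a0 b0 ×ˢ (Icc a1 b1 ×ˢ Icc a2 b2)) : Set (ℝ × ℝ × ℝ)) :=
    isCompact_Icc.prod (isCompact_Icc.prod isCompact_Icc)
  have h2 : Continuous fun q : ℝ × ℝ × ℝ => (!₂[q.1, q.2.1, q.2.2] : E3) := by fun_prop
  have h3 := h1.image h2
  convert h3 using 1
  ext p
  constructor
  · rintro ⟨h0, h1, h2⟩
    exact ⟨(p 0, p 1, p 2), ⟨h0, h1, h2⟩, eta3 p⟩
  · rintro ⟨⟨a, b, c⟩, ⟨h0, h1, h2⟩, rfl⟩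
    exact ⟨h0, h1, h2⟩

namespace Pres

variable {X : Type*} [TopologicalSpace X] (D : Pres X)

lemma S_pos : 0 < D.S := by
  have := D.h1; have := D.hS1; have := D.hml; linarith

/-- the compact pieces -/
def K1 : Set E3 := {p | (p 0 ∈ Icc 0 D.S ∧ p 1 ∈ Icc 0 D.S ∧ p 2 ∈ Icc 0 (2 * π)) ∧
  (D.c1 - (D.tm + D.tl) / 2) ^ 2 ≤ nn D.S D.h (p 0) (p 1)}

def Kc : Set E3 := {p | p 0 ∈ Icc ((D.tm + D.tl) / 2) ((D.tr + D.tp) / 2) ∧
  p 1 ∈ Icc 0 (2 * π) ∧ p 2 ∈ Icc 0 (2 * π)}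

def K2 : Set E3 := {p | (p 0 ∈ Icc 0 D.S ∧ p 1 ∈ Icc 0 D.S ∧ p 2 ∈ Icc 0 (2 * π)) ∧
  (D.c2 + (D.tr + D.tp) / 2) ^ 2 ≤ nn D.S D.h (p 0) (p 1)}

lemma isCompact_K1 : IsCompact D.K1 :=
  (isCompact_box _ _ _ _ _ _).inter_right (isClosed_le continuous_const (continuous_nn _ _))

lemma isCompact_Kc : IsCompact D.Kc := isCompact_box _ _ _ _ _ _

lemma isCompact_K2 : IsCompact D.K2 :=
  (isCompact_box _ _ _ _ _ _).inter_right (isClosed_le continuous_const (continuous_nn _ _))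

lemma K1_subset : D.K1 ⊆ {p | (D.c1 - D.tl) ^ 2 < nn D.S D.h (p 0) (p 1)} := by
  rintro p ⟨-, hp⟩
  refine lt_of_lt_of_le ?_ hp
  have := D.h1; have := D.hml
  apply pow_lt_pow_left₀ _ D.h1.le two_ne_zero
  linarith

lemma Kc_subset : D.Kc ⊆ {p | D.tm < p 0 ∧ p 0 < D.tp} := by
  rintro p ⟨⟨h1, h2⟩, -⟩
  have := D.hml; have := D.hlr; have := D.hrp
  constructor <;> linarith

lemma K2_subset : D.K2 ⊆ {p | (D.c2 + D.tr) ^ 2 < nn D.S D.h (p 0) (p 1)} := by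
  rintro p ⟨-, hp⟩
  refine lt_of_lt_of_le ?_ hp
  have := D.h2; have := D.hrp
  apply pow_lt_pow_left₀ _ D.h2.le two_ne_zero
  linarith

/-- points of block 1 far from the holes -/
lemma red1 {u v x : ℝ} (hp : (D.c1 - (D.tm + D.tl) / 2) ^ 2 ≤ nn D.S D.h u v) :
    D.f1 !₂[u, v, x] ∈ D.f1 '' D.K1 := by
  obtain ⟨k, hk⟩ := exists_int_mem_Icc D.S_pos u
  obtain ⟨l, hl⟩ := exists_int_mem_Icc D.S_pos v
  obtain ⟨n, hn⟩ := exists_int_mem_Icc (by positivity : 0 < 2 * π) x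
  have hlt : (D.c1 - D.tl) ^ 2 < nn D.S D.h u v := by
    refine lt_of_lt_of_le ?_ hp
    have := D.h1; have := D.hml
    apply pow_lt_pow_left₀ _ D.h1.le two_ne_zero
    linarith
  refine ⟨!₂[u + D.S * k, v + D.S * l, x + 2 * π * n], ⟨⟨hk, hl, hn⟩, ?_⟩, D.per1 _ _ _ _ _ _ hlt⟩
  show _ ≤ nn D.S D.h (u + D.S * k) (v + D.S * l)
  rw [nn_add_int]; exact hp

lemma red2 {u v x : ℝ} (hp : (D.c2 + (D.tr + D.tp) / 2) ^ 2 ≤ nn D.S D.h u v) :
    D.f2 !₂[u, v, x] ∈ D.f2 '' D.K2 := by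
  obtain ⟨k, hk⟩ := exists_int_mem_Icc D.S_pos u
  obtain ⟨l, hl⟩ := exists_int_mem_Icc D.S_pos v
  obtain ⟨n, hn⟩ := exists_int_mem_Icc (by positivity : 0 < 2 * π) x
  have hlt : (D.c2 + D.tr) ^ 2 < nn D.S D.h u v := by
    refine lt_of_lt_of_le ?_ hp
    have := D.h2; have := D.hrp
    apply pow_lt_pow_left₀ _ D.h2.le two_ne_zero
    linarith
  refine ⟨!₂[u + D.S * k, v + D.S * l, x + 2 * π * n], ⟨⟨hk, hl, hn⟩, ?_⟩, D.per2 _ _ _ _ _ _ hlt⟩
  show _ ≤ nn D.S D.h (u + D.S * k) (v + D.S * l)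
  rw [nn_add_int]; exact hp

lemma redc {t x y : ℝ} (h1 : (D.tm + D.tl) / 2 ≤ t) (h2 : t ≤ (D.tr + D.tp) / 2) :
    D.fc !₂[t, x, y] ∈ D.fc '' D.Kc := by
  obtain ⟨m, hm⟩ := exists_int_mem_Icc (by positivity : 0 < 2 * π) x
  obtain ⟨n, hn⟩ := exists_int_mem_Icc (by positivity : 0 < 2 * π) y
  have := D.hml; have := D.hlr; have := D.hrp
  exact ⟨!₂[t, x + 2 * π * m, y + 2 * π * n], ⟨⟨h1, h2⟩, hm, hn⟩,
    D.perc _ _ _ _ _ (by linarith) (by linarith)⟩

/-- the part of block 1 close to a hole is in the collar -/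
lemma near1 {u v x : ℝ} (h1 : (D.c1 - D.tl) ^ 2 < nn D.S D.h u v)
    (h2 : nn D.S D.h u v < (D.c1 - D.tm) ^ 2) :
    ∃ t y, D.tm < t ∧ t < D.tl ∧ (D.c1 - t) ^ 2 = nn D.S D.h u v ∧
      D.f1 !₂[u, v, x] = D.fc !₂[t, x, y] := by
  obtain ⟨k, l, ρ, y, -, hρ, hρ2, hu, hv, hc, hs⟩ := exists_polar D.S_pos D.h u v
  have hd1 := D.h1
  have hml := D.hml
  have h3 : D.c1 - D.tl < ρ := by
    rw [← hρ2] at h1
    exact lt_of_pow_lt_pow_left₀ 2 hρ h1
  have h4 : ρ < D.c1 - D.tm := by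
    rw [← hρ2] at h2
    exact lt_of_pow_lt_pow_left₀ 2 (by linarith) h2
  refine ⟨D.c1 - ρ, y, by linarith, by linarith, ?_, ?_⟩
  · rw [show D.c1 - (D.c1 - ρ) = ρ by ring, hρ2]
  · have h5 : nn D.S D.h (D.h + ρ * Real.cos y) (D.h + ρ * Real.sin y) = ρ ^ 2 := by
      have := nn_polar (h := D.h) D.S_pos hρ le_rfl hc hs 0 0
      simpa using this
    have h6 := D.per1 (D.h + ρ * Real.cos y) (D.h + ρ * Real.sin y) x k l 0
      (by rw [h5, hρ2]; exact h1)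
    rw [← hu, ← hv] at h6
    simp only [Int.cast_zero, mul_zero, add_zero] at h6
    have h7 := D.glue1 (D.c1 - ρ) x y (by linarith) (by linarith)
    rw [show D.c1 - (D.c1 - ρ) = ρ by ring] at h7
    rw [h6, h7]

lemma near2 {u v x : ℝ} (h1 : (D.c2 + D.tr) ^ 2 < nn D.S D.h u v)
    (h2 : nn D.S D.h u v < (D.c2 + D.tp) ^ 2) :
    ∃ t x' y', D.tr < t ∧ t < D.tp ∧ (D.c2 + t) ^ 2 = nn D.S D.h u v ∧
      D.f2 !₂[u, v, x] = D.fc !₂[t, x', y'] := by
  obtain ⟨k, l, ρ, y, -, hρ, hρ2, hu, hv, hc, hs⟩ := exists_polar D.S_pos D.h u v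
  have hd1 := D.h2
  have hml := D.hrp
  have h3 : D.c2 + D.tr < ρ := by
    rw [← hρ2] at h1
    exact lt_of_pow_lt_pow_left₀ 2 hρ h1
  have h4 : ρ < D.c2 + D.tp := by
    rw [← hρ2] at h2
    exact lt_of_pow_lt_pow_left₀ 2 (by linarith) h2
  refine ⟨ρ - D.c2, y, x - y, by linarith, by linarith, ?_, ?_⟩
  · rw [show D.c2 + (ρ - D.c2) = ρ by ring, hρ2]
  · have h5 : nn D.S D.h (D.h + ρ * Real.cos y) (D.h + ρ * Real.sin y) = ρ ^ 2 := by
      have := nn_polar (h := D.h) D.S_pos hρ le_rfl hc hs 0 0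
      simpa using this
    have h6 := D.per2 (D.h + ρ * Real.cos y) (D.h + ρ * Real.sin y) x k l 0
      (by rw [h5, hρ2]; exact h1)
    rw [← hu, ← hv] at h6
    simp only [Int.cast_zero, mul_zero, add_zero] at h6
    have h7 := D.glue2 (ρ - D.c2) y (x - y) (by linarith) (by linarith)
    rw [show D.c2 + (ρ - D.c2) = ρ by ring, show y + (x - y) = x by ring] at h7
    rw [h6, h7]

include D in
theorem compactSpace : CompactSpace X := by
  have hml := D.hml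
  have hlr := D.hlr
  have hrp := D.hrp
  have hh1 := D.h1
  have hh2 := D.h2
  have hS1 := D.hS1
  have hS2 := D.hS2
  have : (univ : Set X) = D.f1 '' D.K1 ∪ (D.fc '' D.Kc ∪ D.f2 '' D.K2) := by
    symm
    rw [eq_univ_iff_forall]
    intro x
    rcases D.surj x with ⟨p, hp, rfl⟩ | ⟨p, ⟨hp1, hp2⟩, rfl⟩ | ⟨p, hp, rfl⟩
    · rw [← eta3 p]
      by_cases h : (D.c1 - (D.tm + D.tl) / 2) ^ 2 ≤ nn D.S D.h (p 0) (p 1)
      · exact Or.inl (D.red1 h)
      · push Not at h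
        have h' : nn D.S D.h (p 0) (p 1) < (D.c1 - D.tm) ^ 2 := by
          refine h.trans ?_
          apply pow_lt_pow_left₀ (by linarith) (by linarith) two_ne_zero
        obtain ⟨t, y, ht1, ht2, ht3, e⟩ := D.near1 (x := p 2) hp h'
        rw [e]
        refine Or.inr (Or.inl (D.redc ?_ (by linarith)))
        rw [← ht3] at h
        have := lt_of_pow_lt_pow_left₀ 2 (by linarith) h
        linarith
    · rw [← eta3 p]
      by_cases h1 : (D.tm + D.tl) / 2 ≤ p 0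
      · by_cases h2 : p 0 ≤ (D.tr + D.tp) / 2
        · exact Or.inr (Or.inl (D.redc h1 h2))
        · push Not at h2
          rw [← D.glue2 _ _ _ (by linarith) hp2]
          refine Or.inr (Or.inr (D.red2 ?_))
          rw [nn_polar' D.S_pos (by linarith) (by linarith)]
          exact pow_le_pow_left₀ (by linarith) (by linarith) 2
      · push Not at h1
        rw [← D.glue1 _ _ _ hp1 (by linarith)]
        refine Or.inl (D.red1 ?_)
        rw [nn_polar' D.S_pos (by linarith) (by linarith)]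
        exact pow_le_pow_left₀ (by linarith) (by linarith) 2
    · rw [← eta3 p]
      by_cases h : (D.c2 + (D.tr + D.tp) / 2) ^ 2 ≤ nn D.S D.h (p 0) (p 1)
      · exact Or.inr (Or.inr (D.red2 h))
      · push Not at h
        have h' : nn D.S D.h (p 0) (p 1) < (D.c2 + D.tp) ^ 2 := by
          refine h.trans ?_
          apply pow_lt_pow_left₀ (by linarith) (by linarith) two_ne_zero
        obtain ⟨t, x', y', ht1, ht2, ht3, e⟩ := D.near2 (x := p 2) hp h'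
        rw [e]
        refine Or.inr (Or.inl (D.redc (by linarith) ?_))
        rw [← ht3] at h
        have := lt_of_pow_lt_pow_left₀ 2 (by linarith) h
        linarith
  refine ⟨?_⟩
  rw [this]
  exact (D.isCompact_K1.image_of_continuousOn (D.cont1.mono D.K1_subset)).union
    ((D.isCompact_Kc.image_of_continuousOn (D.contc.mono D.Kc_subset)).union
      (D.isCompact_K2.image_of_continuousOn (D.cont2.mono D.K2_subset)))

/-- the radial segment joining a point of block 1 to the collar -/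
lemma radial {f : E3 → X} {r r1 u v x : ℝ} (hr : 0 ≤ r) (hr1 : r < r1)
    (hf : ContinuousOn f {p | r ^ 2 < nn D.S D.h (p 0) (p 1)})
    (h1 : r1 ^ 2 ≤ nn D.S D.h u v) :
    ∃ C : Set X, IsPreconnected C ∧ f !₂[u, v, x] ∈ C ∧
      ∃ u' v', nn D.S D.h u' v' = r1 ^ 2 ∧ f !₂[u', v', x] ∈ C := by
  obtain ⟨k, l, ρ, y, -, hρ, hρ2, hu, hv, hc, hs⟩ := exists_polar D.S_pos D.h u v
  have h3 : r1 ≤ ρ := by
    rw [← hρ2] at h1
    exact (pow_le_pow_iff_left₀ (by linarith) hρ two_ne_zero).1 h1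
  have hr1' : 0 ≤ r1 := by linarith
  set γ : ℝ → E3 := fun a => !₂[D.h + a * Real.cos y + D.S * k, D.h + a * Real.sin y + D.S * l, x]
    with hγ
  have hγc : Continuous γ := by rw [hγ]; fun_prop
  have hnn : ∀ a ∈ Icc r1 ρ, nn D.S D.h (γ a 0) (γ a 1) = a ^ 2 := by
    intro a ha
    exact nn_polar D.S_pos (by linarith [ha.1]) ha.2 hc hs k l
  refine ⟨(f ∘ γ) '' Icc r1 ρ, ?_, ⟨ρ, ⟨h3, le_rfl⟩, ?_⟩, γ r1 0, γ r1 1, hnn r1 ⟨le_rfl, h3⟩,
    ⟨r1, ⟨le_rfl, h3⟩, rfl⟩⟩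
  · apply isPreconnected_Icc.image
    apply hf.comp hγc.continuousOn
    intro a ha
    show r ^ 2 < nn D.S D.h (γ a 0) (γ a 1)
    rw [hnn a ha]
    exact pow_lt_pow_left₀ (by linarith [ha.1]) hr two_ne_zero
  · show f (γ ρ) = _
    rw [hγ]
    simp only
    rw [← hu, ← hv]

include D in
theorem connectedSpace : ConnectedSpace X := by
  have hml := D.hml
  have hlr := D.hlr
  have hrp := D.hrp
  have hh1 := D.h1
  have hh2 := D.h2
  have hS1 := D.hS1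
  have hS2 := D.hS2
  set A : Set X := D.fc '' {p | D.tm < p 0 ∧ p 0 < D.tp} with hA
  have hAc : IsPreconnected A := by
    apply IsPreconnected.image _ _ D.contc
    apply Convex.isPreconnected
    have h1 : Convex ℝ {p : E3 | D.tm < p 0} := by
      exact (convex_Ioi D.tm).is_linear_preimage (f := fun p : E3 => p 0)
        ⟨fun _ _ => rfl, fun _ _ => by simp⟩
    have h2 : Convex ℝ {p : E3 | p 0 < D.tp} := by
      exact (convex_Iio D.tp).is_linear_preimage (f := fun p : E3 => p 0)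
        ⟨fun _ _ => rfl, fun _ _ => by simp⟩
    exact h1.inter h2
  have hA0 : D.fc !₂[D.tl, 0, 0] ∈ A := ⟨_, ⟨hml, by show D.tl < D.tp; linarith⟩, rfl⟩
  have : IsPreconnected (univ : Set X) := by
    apply isPreconnected_of_forall (D.fc !₂[D.tl, 0, 0])
    intro x _
    rcases D.surj x with ⟨p, hp, rfl⟩ | ⟨p, hp, rfl⟩ | ⟨p, hp, rfl⟩
    · rw [← eta3 p]
      by_cases h : (D.c1 - (D.tm + D.tl) / 2) ^ 2 ≤ nn D.S D.h (p 0) (p 1)
      · obtain ⟨C, hC, h1, u', v', h2, h3⟩ := D.radial (x := p 2) (r := D.c1 - D.tl)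
          (r1 := D.c1 - (D.tm + D.tl) / 2) (by linarith) (by linarith) D.cont1 h
        obtain ⟨t, y, ht1, ht2, -, e⟩ := D.near1 (x := p 2) (u := u') (v := v')
          (by rw [h2]; exact pow_lt_pow_left₀ (by linarith) (by linarith) two_ne_zero)
          (by rw [h2]; exact pow_lt_pow_left₀ (by linarith) (by linarith) two_ne_zero)
        have h4 : D.f1 !₂[u', v', p 2] ∈ A := by
          rw [e]; exact ⟨_, ⟨ht1, by show t < D.tp; linarith⟩, rfl⟩
        exact ⟨A ∪ C, subset_univ _, Or.inl hA0, Or.inr h1,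
          IsPreconnected.union _ h4 h3 hAc hC⟩
      · push Not at h
        have h' : nn D.S D.h (p 0) (p 1) < (D.c1 - D.tm) ^ 2 := by
          refine h.trans ?_
          apply pow_lt_pow_left₀ (by linarith) (by linarith) two_ne_zero
        obtain ⟨t, y, ht1, ht2, ht3, e⟩ := D.near1 (x := p 2) hp h'
        rw [e]
        exact ⟨A, subset_univ _, hA0, ⟨_, ⟨ht1, by show t < D.tp; linarith⟩, rfl⟩, hAc⟩
    · exact ⟨A, subset_univ _, hA0, ⟨p, hp, rfl⟩, hAc⟩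
    · rw [← eta3 p]
      by_cases h : (D.c2 + (D.tr + D.tp) / 2) ^ 2 ≤ nn D.S D.h (p 0) (p 1)
      · obtain ⟨C, hC, h1, u', v', h2, h3⟩ := D.radial (x := p 2) (r := D.c2 + D.tr)
          (r1 := D.c2 + (D.tr + D.tp) / 2) (by linarith) (by linarith) D.cont2 h
        obtain ⟨t, x', y', ht1, ht2, -, e⟩ := D.near2 (x := p 2) (u := u') (v := v')
          (by rw [h2]; exact pow_lt_pow_left₀ (by linarith) (by linarith) two_ne_zero)
          (by rw [h2]; exact pow_lt_pow_left₀ (by linarith) (by linarith) two_ne_zero)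
        have h4 : D.f2 !₂[u', v', p 2] ∈ A := by
          rw [e]; exact ⟨_, ⟨by show D.tm < t; linarith, ht2⟩, rfl⟩
        exact ⟨A ∪ C, subset_univ _, Or.inl hA0, Or.inr h1,
          IsPreconnected.union _ h4 h3 hAc hC⟩
      · push Not at h
        have h' : nn D.S D.h (p 0) (p 1) < (D.c2 + D.tp) ^ 2 := by
          refine h.trans ?_
          apply pow_lt_pow_left₀ (by linarith) (by linarith) two_ne_zero
        obtain ⟨t, x', y', ht1, ht2, ht3, e⟩ := D.near2 (x := p 2) hp h'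
        rw [e]
        exact ⟨A, subset_univ _, hA0, ⟨_, ⟨by show D.tm < t; linarith, ht2⟩, rfl⟩, hAc⟩
  exact { isPreconnected_univ := this, toNonempty := ⟨D.fc !₂[D.tl, 0, 0]⟩ }

end Pres

end Crest.Agent.R244.ManC2
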