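import Crest.Agent.R244.ChartMetric
import Crest.Agent.R244.Flow
import Mathlib
import Crest.Prelude.Def_Geodesic
import Crest.Agent.R244.MetricDefs
import Crest.Agent.R244.B1Conn
import Crest.Agent.R244.Alg
import Crest.Agent.R244.B2Final_Mg
import Crest.Agent.R244.ManC2
import Crest.Agent.R244.LoopsFinal
import Crest.Agent.R244.B4Ne
import Crest.Agent.R244.ManC
import Crest.Agent.R244.ColDefs
import Crest.Agent.R244.Col

-- ▼ part R244/ChartNPC
section

/-!
# R244: nonpositive sectional curvature in every chart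
-/

set_option autoImplicit false
set_option maxSynthPendingDepth 3

open Bundle Set Filter Topology Crest.GeometryTopology.Geodesic
open Crest.GeometryTopology.CoordMetric Crest.GeometryTopology.ChartCurvature
open scoped ContDiff Manifold

noncomputable section

namespace Crest.Agent.R244

variable {n : ℕ} {M : Type*} [TopologicalSpace M] [ChartedSpace (EuclideanSpace ℝ (Fin n)) M]
  [IsManifold 𝓘(ℝ, EuclideanSpace ℝ (Fin n)) ∞ M]

local notation "𝔼" => EuclideanSpace ℝ (Fin n)

variable (g : ContMDiffRiemannianMetric 𝓘(ℝ, EuclideanSpace ℝ (Fin n)) ∞ (EuclideanSpace ℝ (Fin n))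
      (fun x : M => TangentSpace 𝓘(ℝ, EuclideanSpace ℝ (Fin n)) x))

/-- **CF/B1 interface**: in the fixed chart at `x₀` the metric is an `IsNPCData`. -/
theorem isNPCData (hg : HasNonposSectionalCurvature g) (x₀ : M) :
    IsNPCData (chartAt 𝔼 x₀).target (CF.gB (metricInChart g x₀)) (CF.Gam (metricInChart g x₀)) := by
  have hLC := CF.isLC_of_isRiemannianOn (isRiemannianOn_metricInChart g x₀)
  refine ⟨hLC.isOpen, hLC.g_smooth, hLC.Γ_smooth, hLC.g_symm, hLC.g_pos, hLC.Γ_symm, hLC.compat, ?_⟩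
  intro y hy u v
  set m := (chartAt 𝔼 x₀).symm y with hm
  have hLC' := CF.isLC_of_isRiemannianOn (isRiemannianOn_metricInChart g m)
  have hiso := locIsoAt_transition g x₀ m hy (mem_chart_source 𝔼 m)
  have h1 := hiso.sec hLC hLC' u v
  have h2 : CF.gB (metricInChart g x₀) y (curv (CF.Gam (metricInChart g x₀)) y u v v) u =
      CF.gB (metricInChart g x₀) y (CF.curv (CF.Gam (metricInChart g x₀)) y u v v) u := rfl
  rw [h2, h1, ← CF.secNumer_eq (isRiemannianOn_metricInChart g m) hiso.mem']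
  exact hg m _ _

end Crest.Agent.R244
end
end

-- ▼ part R244/B1Final
section

/-!
# R244 package B1 : FINAL statement
-/

set_option autoImplicit false

open Bundle Crest.GeometryTopology.Geodesic
open scoped ContDiff Manifold

namespace Crest.Agent.R244

/-- **Package B1, final statement**: a compact connected Riemannian manifold of nonpositive
sectional curvature carries a metric, compatible with the topology, satisfying the uniform local
CAT(0) inequality. -/
theorem exists_localCN {n : ℕ} {M : Type} [t : TopologicalSpace M]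
    [ChartedSpace (EuclideanSpace ℝ (Fin n)) M]
    [IsManifold 𝓘(ℝ, EuclideanSpace ℝ (Fin n)) ∞ M]
    [T2Space M] [SecondCountableTopology M] [CompactSpace M] [ConnectedSpace M]
    (g : ContMDiffRiemannianMetric 𝓘(ℝ, EuclideanSpace ℝ (Fin n)) ∞ (EuclideanSpace ℝ (Fin n))
          (fun x : M => TangentSpace 𝓘(ℝ, EuclideanSpace ℝ (Fin n)) x))
    (hg : HasNonposSectionalCurvature g) :
    ∃ m : MetricSpace M, m.toPseudoMetricSpace.toUniformSpace.toTopologicalSpace = t ∧
      ∃ r : ℝ, @LocalCN M m r :=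
  exists_localCN_of_chartNPC g (fun x₀ => isNPCData g hg x₀)

end Crest.Agent.R244
end

-- ▼ part R244/ULSC
section

/-!
# R244 package ULSC : compact manifolds are uniformly locally simply connected
-/

set_option autoImplicit false

open Set Filter Topology unitInterval

namespace Crest.Agent.R244

section

variable (E : Type*) [NormedAddCommGroup E] [NormedSpace ℝ E]
  {M : Type*} [TopologicalSpace M] [ChartedSpace E M]

include E in
/-- Every point has arbitrarily small open neighbourhoods which are path connected and in which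
paths with the same end points are homotopic. -/
theorem exists_good_nhd (x : M) {V : Set M} (hV : IsOpen V) (hx : x ∈ V) :
    ∃ U : Set M, IsOpen U ∧ x ∈ U ∧ U ⊆ V ∧
      (∀ a ∈ U, ∀ b ∈ U, ∃ γ : Path a b, ∀ t, γ t ∈ U) ∧
      (∀ (a b : M) (γ γ' : Path a b), (∀ t, γ t ∈ U) → (∀ t, γ' t ∈ U) → γ.Homotopic γ') := by
  set e := chartAt E x with he
  have hxs : x ∈ e.source := mem_chart_source E x
  -- open set in the model
  have hW : IsOpen (e.target ∩ e.symm ⁻¹' V) := e.isOpen_inter_preimage_symm hV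
  have hxW : e x ∈ e.target ∩ e.symm ⁻¹' V :=
    ⟨e.map_source hxs, by simp only [mem_preimage, e.left_inv hxs]; exact hx⟩
  obtain ⟨R, hR, hball⟩ := Metric.isOpen_iff.1 hW (e x) hxW
  set B := Metric.ball (e x) R with hB
  have hBconv : Convex ℝ B := convex_ball _ _
  have hBt : B ⊆ e.target := fun z hz => (hball hz).1
  have hcs : ContinuousOn e.symm B := e.continuousOn_symm.mono hBt
  refine ⟨e.source ∩ e ⁻¹' B, e.isOpen_inter_preimage Metric.isOpen_ball,
    ⟨hxs, Metric.mem_ball_self hR⟩, ?_, ?_, ?_⟩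
  · rintro y ⟨hy1, hy2⟩
    have := (hball hy2).2
    simpa only [mem_preimage, e.left_inv hy1] using this
  · rintro a ⟨ha1, ha2⟩ b ⟨hb1, hb2⟩
    have hmem : ∀ t : I, AffineMap.lineMap (k := ℝ) (e a) (e b) (t : ℝ) ∈ B := fun t =>
      hBconv.lineMap_mem ha2 hb2 t.2
    refine ⟨⟨⟨fun t : I => e.symm (AffineMap.lineMap (k := ℝ) (e a) (e b) (t : ℝ)), ?_⟩, ?_, ?_⟩, ?_⟩
    · exact hcs.comp_continuous (by fun_prop) hmem
    · simp [e.left_inv ha1]
    · simp [e.left_inv hb1]
    · intro t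
      refine ⟨e.map_target (hBt (hmem t)), ?_⟩
      change e (e.symm _) ∈ B
      rw [e.right_inv (hBt (hmem t))]
      exact hmem t
  · intro a b γ γ' hγ hγ'
    have hc : Continuous fun t : I => e (γ t) :=
      e.continuousOn.comp_continuous γ.continuous fun t => (hγ t).1
    have hc' : Continuous fun t : I => e (γ' t) :=
      e.continuousOn.comp_continuous γ'.continuous fun t => (hγ' t).1
    have hmem : ∀ p : I × I, AffineMap.lineMap (k := ℝ) (e (γ p.2)) (e (γ' p.2)) (p.1 : ℝ) ∈ B :=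
      fun p => hBconv.lineMap_mem (hγ p.2).2 (hγ' p.2).2 p.1.2
    have hcont : Continuous fun p : I × I =>
        AffineMap.lineMap (k := ℝ) (e (γ p.2)) (e (γ' p.2)) (p.1 : ℝ) := by
      simp only [AffineMap.lineMap_apply_module']
      have h1 := hc.comp (continuous_snd (X := I) (Y := I))
      have h2 := hc'.comp (continuous_snd (X := I) (Y := I))
      have h3 : Continuous fun p : I × I => (p.1 : ℝ) := by fun_prop
      exact (h3.smul (h2.sub h1)).add h1
    refine ⟨⟨⟨⟨fun p : I × I => e.symm (AffineMap.lineMap (k := ℝ) (e (γ p.2)) (e (γ' p.2))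
      (p.1 : ℝ)), hcs.comp_continuous hcont hmem⟩, ?_, ?_⟩, ?_⟩⟩
    · intro t
      simp [e.left_inv (hγ t).1]
    · intro t
      simp [e.left_inv (hγ' t).1]
    · intro s t ht
      rcases ht with rfl | ht
      · have h0 := hγ 0
        rw [γ.source] at h0
        simp [e.left_inv h0.1]
      · rw [mem_singleton_iff] at ht
        subst ht
        have h1 := hγ 1
        rw [γ.target] at h1
        simp [e.left_inv h1.1]

end

theorem unifLSC_aux (E : Type*) [NormedAddCommGroup E] [NormedSpace ℝ E]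
    {M : Type*} [MetricSpace M] [ChartedSpace E M] [CompactSpace M] : UnifLSC M := by
  constructor
  · intro ε hε
    choose U hUo hxU hUV hU1 hU2 using fun x : M =>
      exists_good_nhd E x (Metric.isOpen_ball (x := x) (ε := ε / 2))
        (Metric.mem_ball_self (by positivity))
    obtain ⟨δ, hδ, h⟩ := lebesgue_number_lemma_of_metric (isCompact_univ (X := M)) hUo
      (fun x _ => mem_iUnion.2 ⟨x, hxU x⟩)
    refine ⟨δ, hδ, ?_⟩
    intro a b hab
    obtain ⟨x, hx⟩ := h a (mem_univ a)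
    have ha : a ∈ U x := hx (Metric.mem_ball_self hδ)
    have hb : b ∈ U x := hx (by rwa [Metric.mem_ball, dist_comm])
    obtain ⟨γ, hγ⟩ := hU1 x a ha b hb
    refine ⟨γ, fun t => ?_⟩
    have h1 := hUV x (hγ t)
    have h2 := hUV x ha
    rw [Metric.mem_ball] at h1 h2
    calc dist (γ t) a ≤ dist (γ t) x + dist a x := dist_triangle_right _ _ _
      _ < ε := by linarith
  · choose U hUo hxU hUV hU1 hU2 using fun x : M =>
      exists_good_nhd E x isOpen_univ (mem_univ x)
    obtain ⟨δ, hδ, h⟩ := lebesgue_number_lemma_of_metric (isCompact_univ (X := M)) hUo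
      (fun x _ => mem_iUnion.2 ⟨x, hxU x⟩)
    refine ⟨δ, hδ, ?_⟩
    intro x a b γ γ' hγ hγ'
    obtain ⟨y, hy⟩ := h x (mem_univ x)
    exact hU2 y a b γ γ' (fun t => hy (hγ t)) (fun t => hy (hγ' t))

/-- **Package ULSC, final statement**. -/
theorem unifLSC {n : ℕ} {M : Type} [t : TopologicalSpace M]
    [ChartedSpace (EuclideanSpace ℝ (Fin n)) M] [CompactSpace M]
    (m : MetricSpace M) (hm : m.toPseudoMetricSpace.toUniformSpace.toTopologicalSpace = t) :
    @UnifLSC M m := by
  subst hm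
  exact unifLSC_aux (EuclideanSpace ℝ (Fin n))

end Crest.Agent.R244
end

-- ▼ part R244/NoNPC
section

/-!
# R244 : the graph manifold group relations exclude nonpositive curvature
-/

set_option autoImplicit false

open Bundle Crest.GeometryTopology.Geodesic Filter Topology
open scoped ContDiff Manifold

namespace Crest.Agent.R244

/-- B2 + B3 : in a compact locally CAT(0) space the relations force `f₂ = 1`. -/
theorem f₂_eq_one {M : Type*} [MetricSpace M] [CompactSpace M] {r : ℝ} (h : LocalCN M r)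
    (hU : UnifLSC M) {x : M} (f₁ f₂ a₁ c₁ a₂ c₂ : FundamentalGroup M x)
    (h1a : Commute f₁ a₁) (h1c : Commute f₁ c₁) (hrel1 : f₂ = a₁ * c₁ * a₁⁻¹ * c₁⁻¹)
    (h2a : Commute f₂ a₂) (h2c : Commute f₂ c₂) (hrel2 : f₁ * f₂⁻¹ = a₂ * c₂ * a₂⁻¹ * c₂⁻¹) :
    f₂ = 1 := by
  obtain ⟨D, hD, r₀, hr₀, hsys⟩ := exists_pathLength₂ h hU
  have hlim := stableLength_eq_zero₂ (hD.quadLength x) f₁ f₂ a₁ c₁ a₂ c₂ h1a h1c hrel1 h2a h2c hrel2
  have h1 : Tendsto (fun k : ℕ => hD.len x (f₂ ^ (2 ^ k)) / ((2 ^ k : ℕ) : ℝ)) atTop (𝓝 0) :=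
    hlim.comp (tendsto_pow_atTop_atTop_of_one_lt (by norm_num : 1 < 2))
  obtain ⟨k, hk⟩ := (h1.eventually (gt_mem_nhds hr₀)).exists
  obtain ⟨m, τ, hτ⟩ := hD.exists_conj_le f₂ k
  push_cast at hk
  have hlt : hD.DQ (τ.symm.trans ((FundamentalGroup.toPath f₂).trans τ)) < r₀ :=
    lt_of_le_of_lt hτ hk
  have hrefl : τ.symm.trans ((FundamentalGroup.toPath f₂).trans τ) =
      Path.Homotopic.Quotient.refl m := by
    generalize τ.symm.trans ((FundamentalGroup.toPath f₂).trans τ) = q at hlt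
    induction q using Path.Homotopic.Quotient.ind with | mk γ =>
    exact Path.Homotopic.Quotient.eq.2 (hsys m γ hlt)
  have h2 : FundamentalGroup.toPath f₂ = Path.Homotopic.Quotient.refl x := by
    have e : FundamentalGroup.toPath f₂ =
        (τ.trans (τ.symm.trans ((FundamentalGroup.toPath f₂).trans τ))).trans τ.symm := by
      simp [Path.Homotopic.Quotient.trans_assoc, trans_symm_cancel]
    rw [e, hrefl]; simp
  exact h2

/-- Version with a metric compatible with a given topology. -/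
theorem f₂_eq_one' {M : Type*} [t : TopologicalSpace M] [CompactSpace M] (m : MetricSpace M)
    (hm : m.toPseudoMetricSpace.toUniformSpace.toTopologicalSpace = t) {r : ℝ}
    (h : @LocalCN M m r)
    (hU : @UnifLSC M m) {x : M} (f₁ f₂ a₁ c₁ a₂ c₂ : FundamentalGroup M x)
    (h1a : Commute f₁ a₁) (h1c : Commute f₁ c₁) (hrel1 : f₂ = a₁ * c₁ * a₁⁻¹ * c₁⁻¹)
    (h2a : Commute f₂ a₂) (h2c : Commute f₂ c₂) (hrel2 : f₁ * f₂⁻¹ = a₂ * c₂ * a₂⁻¹ * c₂⁻¹) :
    f₂ = 1 := by
  subst hm
  exact f₂_eq_one h hU f₁ f₂ a₁ c₁ a₂ c₂ h1a h1c hrel1 h2a h2c hrel2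

/-- No metric of nonpositive sectional curvature. -/
theorem not_hasNonposSectionalCurvature {n : ℕ} {M : Type} [t : TopologicalSpace M]
    [ChartedSpace (EuclideanSpace ℝ (Fin n)) M]
    [IsManifold 𝓘(ℝ, EuclideanSpace ℝ (Fin n)) ∞ M]
    [T2Space M] [SecondCountableTopology M] [CompactSpace M] [ConnectedSpace M]
    {x : M} (f₁ f₂ a₁ c₁ a₂ c₂ : FundamentalGroup M x)
    (h1a : Commute f₁ a₁) (h1c : Commute f₁ c₁) (hrel1 : f₂ = a₁ * c₁ * a₁⁻¹ * c₁⁻¹)
    (h2a : Commute f₂ a₂) (h2c : Commute f₂ c₂) (hrel2 : f₁ * f₂⁻¹ = a₂ * c₂ * a₂⁻¹ * c₂⁻¹)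
    (hne : f₂ ≠ 1)
    (g : ContMDiffRiemannianMetric 𝓘(ℝ, EuclideanSpace ℝ (Fin n)) ∞ (EuclideanSpace ℝ (Fin n))
          (fun x : M => TangentSpace 𝓘(ℝ, EuclideanSpace ℝ (Fin n)) x)) :
    ¬ HasNonposSectionalCurvature g := by
  intro hg
  obtain ⟨m, hm, r, hr⟩ := exists_localCN g hg
  exact hne (f₂_eq_one' m hm hr (unifLSC (n := n) m hm) f₁ f₂ a₁ c₁ a₂ c₂ h1a h1c hrel1 h2a h2c
    hrel2)

end Crest.Agent.R244
end

-- ▼ part R244/ManC3
section

/-!
# R244 MAN-C : loops in a 3-patch space, and the absence of nonpositively curved metrics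
-/

set_option autoImplicit false

open Set Filter Topology Bundle
open scoped Real ContDiff Manifold
open Crest.GeometryTopology.Geodesic

noncomputable section

namespace Crest.Agent.R244.ManC2

local notation "E3" => EuclideanSpace ℝ (Fin 3)

/-- the outer block structure from a lattice periodic map on the complement of small discs -/
theorem outer_of_periodic {X : Type*} [TopologicalSpace X] {S h r r' : ℝ} {f : E3 → X}
    (hr : 0 ≤ r) (hr' : r < r') (hS : r' < S / 2)
    (hf : ContinuousOn f {p | r ^ 2 < nn S h (p 0) (p 1)})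
    (per : ∀ (u v x : ℝ) (k l n : ℤ), r ^ 2 < nn S h u v →
      f !₂[u + S * k, v + S * l, x + 2 * π * n] = f !₂[u, v, x]) :
    Loops.Outer (fun q : ℝ × ℝ × ℝ => f !₂[q.1, q.2.1, q.2.2]) h h r' (S / 2) (2 * π) := by
  have hS0 : 0 < S := by linarith
  have hsub : ∀ q : ℝ × ℝ × ℝ, q ∈ Loops.Ann h h r' (S / 2) → r ^ 2 < nn S h q.1 q.2.1 := by
    rintro q ⟨h1, h2, h3⟩
    have e : nn S h q.1 q.2.1 = (q.1 - h) ^ 2 + (q.2.1 - h) ^ 2 := by
      have := nn_of_small (h := h) hS0 h1 h2
      simpa using this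
    rw [e]
    exact lt_of_lt_of_le (pow_lt_pow_left₀ hr' hr two_ne_zero) h3
  have hS2 : |(-(S / 2) : ℝ)| ≤ S / 2 := by
    rw [abs_neg, abs_of_pos (by linarith : 0 < S / 2)]
  refine ⟨by linarith, by linarith, ?_, ?_, ?_, ?_⟩
  · apply hf.comp (by fun_prop)
    intro q hq
    exact hsub q hq
  · intro z th hz
    have e : nn S h (h - S / 2) z = (S / 2) ^ 2 + (z - h) ^ 2 := by
      have := nn_of_small (h := h) (a := -(S / 2)) (b := z - h) hS0 hS2 hz
      rw [show h + -(S / 2) = h - S / 2 by ring, show h + (z - h) = z by ring] at this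
      rw [this]; ring
    have := per (h - S / 2) z th 1 0 0 (by
      rw [e]
      have := pow_lt_pow_left₀ (by linarith : r < S / 2) hr two_ne_zero
      nlinarith [sq_nonneg (z - h)])
    simp only [Int.cast_one, Int.cast_zero, mul_one, mul_zero, add_zero] at this
    rw [show h - S / 2 + S = h + S / 2 by ring] at this
    exact this
  · intro z th hz
    have e : nn S h z (h - S / 2) = (z - h) ^ 2 + (S / 2) ^ 2 := by
      have := nn_of_small (h := h) (a := z - h) (b := -(S / 2)) hS0 hz hS2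
      rw [show h + -(S / 2) = h - S / 2 by ring, show h + (z - h) = z by ring] at this
      rw [this]; ring
    have := per z (h - S / 2) th 0 1 0 (by
      rw [e]
      have := pow_lt_pow_left₀ (by linarith : r < S / 2) hr two_ne_zero
      nlinarith [sq_nonneg (z - h)])
    simp only [Int.cast_one, Int.cast_zero, mul_one, mul_zero, add_zero] at this
    rw [show h - S / 2 + S = h + S / 2 by ring] at this
    exact this
  · rintro ⟨a, b, c⟩ hq
    have := per a b c 0 0 1 (hsub (a, b, c) hq)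
    simp only [Int.cast_one, Int.cast_zero, mul_one, mul_zero, add_zero] at this
    simp only [Prod.mk_add_mk, add_zero]
    exact this

namespace Pres

variable {X : Type*} [TopologicalSpace X] (D : Pres X)

/-- the block structure of helper138's loop computation -/
def blocks : Loops.Blocks X where
  F₁ := fun q => D.f1 !₂[q.1, q.2.1, q.2.2]
  p1 := D.h
  p2 := D.h
  r := D.c1 - (D.tm + D.tl) / 2
  L := D.S / 2
  hO₁ := outer_of_periodic D.h1.le (by have := D.hml; linarith)
    (by have := D.hml; have := D.hS1; linarith) D.cont1 D.per1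
  F₂ := fun q => D.f2 !₂[q.1, q.2.1, q.2.2]
  o1 := D.h
  o2 := D.h
  ro := D.c2 + (D.tr + D.tp) / 2
  Lo := D.S / 2
  hO₂ := outer_of_periodic D.h2.le (by have := D.hrp; linarith)
    (by have := D.hrp; have := D.hS2; linarith) D.cont2 D.per2
  K := fun q => D.fc !₂[q.1, q.2.1, q.2.2]
  t₀ := (D.tm + D.tl) / 2
  t₁ := (D.tr + D.tp) / 2
  hK := by
    have hml := D.hml
    have hlr := D.hlr
    have hrp := D.hrp
    refine ⟨by linarith, ?_, ?_, ?_, ?_, ?_⟩
    · apply D.contc.comp (by fun_prop)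
      rintro q ⟨h1, h2⟩
      exact ⟨by show D.tm < q.1; linarith, by show q.1 < D.tp; linarith⟩
    · rintro ⟨a, b, c⟩ ⟨h1, h2⟩
      simp only at h1 h2
      have := D.perc a b c 1 0 (by linarith) (by linarith)
      simp only [Int.cast_one, Int.cast_zero, mul_one, mul_zero, add_zero] at this
      simp only [Prod.mk_add_mk, add_zero]
      exact this
    · rintro ⟨a, b, c⟩ ⟨h1, h2⟩
      simp only at h1 h2
      have := D.perc a b c 0 1 (by linarith) (by linarith)
      simp only [Int.cast_one, Int.cast_zero, mul_one, mul_zero, add_zero] at this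
      simp only [Prod.mk_add_mk, add_zero]
      exact this
    · intro x y
      exact (D.glue1 _ x y (by linarith) (by linarith)).symm
    · intro x y
      exact (D.glue2 _ x y (by linarith) (by linarith)).symm

end Pres

/-- **No nonpositively curved metric** on a 3-patch 3-manifold with a map to `Nil`. -/
theorem Pres.not_hasNonposSectionalCurvature {M : Type} [TopologicalSpace M]
    [ChartedSpace (EuclideanSpace ℝ (Fin 3)) M]
    [IsManifold 𝓘(ℝ, EuclideanSpace ℝ (Fin 3)) ∞ M]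
    [T2Space M] [SecondCountableTopology M] (D : Pres M)
    (F : C(M, B4.Nil)) (hF : ∀ y : ℝ, F (D.fc !₂[(D.tr + D.tp) / 2, 0, y]) = B4.nil2 y)
    (g : ContMDiffRiemannianMetric 𝓘(ℝ, EuclideanSpace ℝ (Fin 3)) ∞ (EuclideanSpace ℝ (Fin 3))
          (fun x : M => TangentSpace 𝓘(ℝ, EuclideanSpace ℝ (Fin 3)) x)) :
    ¬ HasNonposSectionalCurvature g := by
  have := D.compactSpace
  have := D.connectedSpace
  have : LocallyPathConnectedSpace M :=
    ChartedSpace.locallyPathConnectedSpace (EuclideanSpace ℝ (Fin 3)) M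
  have : PathConnectedSpace M := pathConnectedSpace_iff_connectedSpace.mpr inferInstance
  have hml := D.hml
  have hlr := D.hlr
  have hrp := D.hrp
  obtain ⟨x₀⟩ : Nonempty M := inferInstance
  obtain ⟨f₁, f₂, a₁, c₁, a₂, c₂, h1, h2, h3, h4, h5, h6, h7⟩ :=
    D.blocks.exists_relations x₀ (fun γ hγ =>
      B4.not_homotopic_refl_of_nil D.blocks.K D.blocks.t₀ D.blocks.t₁ D.blocks.hK.hT
        D.blocks.hK.hK (fun t y ht1 ht2 => by
          have := D.blocks.hK.pery (t, 0, y) ⟨ht1, ht2⟩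
          simpa using this) F hF γ hγ)
  exact Crest.Agent.R244.not_hasNonposSectionalCurvature f₁ f₂ a₁ c₁ a₂ c₂ h1 h2 h3 h4 h5 h6 h7 g

end Crest.Agent.R244.ManC2
end
end

-- ▼ part R244/ManC4
section

/-!
# R244 MAN-C : the concrete manifold is compact and connected
-/

set_option autoImplicit false

open Set Filter Topology Bundle
open scoped Real ContDiff Manifold

noncomputable section

namespace Crest.Agent.R244.ManC

open Crest.Agent.R244.ManC2 Par

lemma lt_rho_iff (D : Par) {a u v : ℝ} (ha : 0 ≤ a) :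
    a < D.rho u v ↔ a ^ 2 < nn D.S (D.S / 2) u v := by
  unfold rho nn tc
  rw [Real.lt_sqrt ha]



/-- the concrete manifold as a 3-patch space -/
def pres (C : CollarData) : Pres (theGlue C).M where
  S := C.par.S
  h := C.par.S / 2
  c1 := C.c1
  c2 := C.c2
  tm := C.tL - 2
  tl := C.tL
  tr := C.tR
  tp := C.tR + 2
  hml := by linarith
  hlr := C.par.hLR
  hrp := by linarith
  h1 := C.c1_pos
  h2 := C.c2_pos
  hS1 := by have : 2 * (C.c1 - C.tL + 2) < C.par.S := C.par.hS1; linarith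
  hS2 := by have : 2 * (C.c2 + C.tR + 2) < C.par.S := C.par.hS2; linarith
  f1 := (theGlue C).F 0
  fc := (theGlue C).F 1
  f2 := (theGlue C).F 2
  cont1 := by
    refine ((theGlue C).continuousOn_F 0).mono ?_
    intro p hp
    rw [theGlue_U, mem_P0]
    exact (lt_rho_iff _ C.c1_pos.le).2 hp
  contc := by
    refine ((theGlue C).continuousOn_F 1).mono ?_
    intro p hp
    rw [theGlue_U, mem_P1]
    exact hp
  cont2 := by
    refine ((theGlue C).continuousOn_F 2).mono ?_
    intro p hp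
    rw [theGlue_U, mem_P2]
    exact (lt_rho_iff _ C.c2_pos.le).2 hp
  surj := by
    intro x
    obtain ⟨i, z, hz, rfl⟩ := (theGlue C).exists_F x
    rw [theGlue_U] at hz
    fin_cases i
    · exact Or.inl ⟨z, (lt_rho_iff _ C.c1_pos.le).1 (C.par.mem_P0.1 hz), rfl⟩
    · exact Or.inr (Or.inl ⟨z, C.par.mem_P1.1 hz, rfl⟩)
    · exact Or.inr (Or.inr ⟨z, (lt_rho_iff _ C.c2_pos.le).1 (C.par.mem_P2.1 hz), rfl⟩)
  per1 := by
    intro u v x k l n h
    have h0 : (!₂[u, v, x] : E3) ∈ C.par.P 0 := by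
      rw [mem_P0]; exact (lt_rho_iff _ C.c1_pos.le).2 h
    have h1 : C.par.latB !₂[u, v, x] !₂[u + C.par.S * k, v + C.par.S * l, x + 2 * π * n] :=
      ⟨(C.par.tc_add_int u k).symm, (C.par.tc_add_int v l).symm, an_eq_iff.2 ⟨n, rfl⟩⟩
    rw [eq_comm, theGlue_F_eq C h0 (C.par.mem_of_latB0 h1 h0)]
    exact C.par.rel_00.2 h1
  perc := by
    intro t x y m n h1 h2
    have h0 : (!₂[t, x, y] : E3) ∈ C.par.P 1 := by
      rw [mem_P1]; exact ⟨h1, h2⟩
    have h0' : (!₂[t, x + 2 * π * m, y + 2 * π * n] : E3) ∈ C.par.P 1 := by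
      rw [mem_P1]; exact ⟨h1, h2⟩
    rw [eq_comm, theGlue_F_eq C h0 h0']
    exact (C.par.rel_11 h0 h0').2 ⟨rfl, an_eq_iff.2 ⟨m, rfl⟩, an_eq_iff.2 ⟨n, rfl⟩⟩
  per2 := by
    intro u v x k l n h
    have h0 : (!₂[u, v, x] : E3) ∈ C.par.P 2 := by
      rw [mem_P2]; exact (lt_rho_iff _ C.c2_pos.le).2 h
    have h1 : C.par.latB !₂[u, v, x] !₂[u + C.par.S * k, v + C.par.S * l, x + 2 * π * n] :=
      ⟨(C.par.tc_add_int u k).symm, (C.par.tc_add_int v l).symm, an_eq_iff.2 ⟨n, rfl⟩⟩
    rw [eq_comm, theGlue_F_eq C h0 (C.par.mem_of_latB2 h1 h0)]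
    exact C.par.rel_22.2 h1
  glue1 := by
    intro t x y h1 h2
    have h0 : (!₂[t, x, y] : E3) ∈ C.par.P 1 := by
      rw [mem_P1]
      have : C.tL < C.tR := C.par.hLR
      refine ⟨h1, ?_⟩
      show t < C.tR + 2
      linarith
    have e : (!₂[C.par.S / 2 + (C.c1 - t) * Real.cos y, C.par.S / 2 + (C.c1 - t) * Real.sin y, x] : E3)
        = C.par.pol1 !₂[t, x, y] := rfl
    rw [e, theGlue_F_eq C (C.par.pol1_mem h0 h2) h0, rel_01]
    exact ⟨h2, rfl, rfl, rfl⟩
  glue2 := by
    intro t x y h1 h2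
    have h0 : (!₂[t, x, y] : E3) ∈ C.par.P 1 := by
      rw [mem_P1]
      have : C.tL < C.tR := C.par.hLR
      refine ⟨?_, h2⟩
      show C.tL - 2 < t
      linarith
    have e : (!₂[C.par.S / 2 + (C.c2 + t) * Real.cos x, C.par.S / 2 + (C.c2 + t) * Real.sin x,
        x + y] : E3) = C.par.pol2 !₂[t, x, y] := by
      rw [add_comm C.c2 t]; rfl
    rw [e, theGlue_F_eq C (C.par.pol2_mem h0 h1) h0, rel_21]
    exact ⟨h1, rfl, rfl, rfl⟩

theorem theGlue_compact (C : CollarData) : CompactSpace (theGlue C).M := (pres C).compactSpace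

theorem theGlue_connected (C : CollarData) : ConnectedSpace (theGlue C).M :=
  (pres C).connectedSpace

end Crest.Agent.R244.ManC
end
end

-- ▼ part R244/NilMap
section

/-!
# R244 : the map `M → Nil` on the concrete glued manifold
-/

set_option autoImplicit false
set_option maxSynthPendingDepth 3

open Bundle Set Filter Topology
open scoped ContDiff Manifold Real

noncomputable section

namespace Crest.Agent.R244.ManC

open Crest.Agent.R244.Man Crest.Agent.R244.B4

namespace Par

variable (D : Par)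

/-- the map to `Nil` on the patches -/
def nilPatch : Fin 3 → E3 → Nil :=
  ![fun z => nil1 D.S (z 0) (z 1) (z 2), fun z => nilC D.S D.c1 D.tL D.tR (z 0) (z 1) (z 2),
    fun z => nil2 (z 2)]

lemma nilPatch_0 (z : E3) : D.nilPatch 0 z = nil1 D.S (z 0) (z 1) (z 2) := rfl
lemma nilPatch_1 (z : E3) :
    D.nilPatch 1 z = nilC D.S D.c1 D.tL D.tR (z 0) (z 1) (z 2) := rfl
lemma nilPatch_2 (z : E3) : D.nilPatch 2 z = nil2 (z 2) := rfl

lemma not_centre {u v : ℝ} (h : 0 < D.rho u v) (m n : ℤ) :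
    ¬ (u = D.S / 2 + D.S * m ∧ v = D.S / 2 + D.S * n) := by
  rintro ⟨rfl, rfl⟩
  rw [D.rho_add_int] at h
  have h0 : |(0 : ℝ)| ≤ D.S / 2 := by rw [abs_zero]; linarith [D.S_pos]
  have h1 := D.rho_of_small h0 h0
  simp only [add_zero] at h1
  rw [h1] at h
  simp at h

lemma not_centre_of_mem {z : E3} (hz : z ∈ D.P 0) (m n : ℤ) :
    ¬ (z 0 = D.S / 2 + D.S * m ∧ z 1 = D.S / 2 + D.S * n) :=
  D.not_centre (lt_trans D.h1 (D.mem_P0.1 hz)) m n

lemma nilPatch_latB0 {p q : E3} (hp : p ∈ D.P 0) (h : D.latB p q) :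
    D.nilPatch 0 p = D.nilPatch 0 q := by
  obtain ⟨h1, h2, h3⟩ := h
  obtain ⟨k, hk⟩ := D.tc_eq_iff.1 h1
  obtain ⟨l, hl⟩ := D.tc_eq_iff.1 h2
  obtain ⟨n, hn⟩ := an_eq_iff.1 h3
  rw [nilPatch_0, nilPatch_0, hk, hl, hn]
  exact (nil1_period D.S_pos (D.not_centre_of_mem hp) (p 2) k l n).symm

lemma nilPatch_latB2 {p q : E3} (h : D.latB p q) :
    D.nilPatch 2 p = D.nilPatch 2 q := by
  obtain ⟨h1, h2, h3⟩ := h
  obtain ⟨n, hn⟩ := an_eq_iff.1 h3
  rw [nilPatch_2, nilPatch_2, hn]
  exact (nil2_period (p 2) n).symm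

lemma nilPatch_latC {p q : E3} (h : latC p q) :
    D.nilPatch 1 p = D.nilPatch 1 q := by
  obtain ⟨h1, h2, h3⟩ := h
  obtain ⟨m, hm⟩ := an_eq_iff.1 h2
  obtain ⟨n, hn⟩ := an_eq_iff.1 h3
  rw [nilPatch_1, nilPatch_1, ← h1, hm, hn]
  exact (nilC_period _ _ _ _ _ _ _ m n).symm

lemma nilPatch_pol1 {q : E3} (h : q 0 < D.tL) : D.nilPatch 0 (D.pol1 q) = D.nilPatch 1 q := by
  rw [nilPatch_0, nilPatch_1, nilC_left D.S_pos D.hLR h.le, pol1_0, pol1_1, pol1_2]

lemma nilPatch_pol2 {q : E3} (h : D.tR < q 0) : D.nilPatch 2 (D.pol2 q) = D.nilPatch 1 q := by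
  rw [nilPatch_2, nilPatch_1, nilC_right D.hLR h.le, pol2_2]

theorem nilPatch_rel {i j : Fin 3} {p q : E3} (hp : p ∈ D.P i) (hq : q ∈ D.P j)
    (h : D.rel i p j q) : D.nilPatch i p = D.nilPatch j q := by
  have h01 : ∀ p q : E3, p ∈ D.P 0 → q ∈ D.P 1 → D.rel 0 p 1 q →
      D.nilPatch 0 p = D.nilPatch 1 q := by
    intro p q hp hq h
    obtain ⟨h1, h2⟩ := D.rel_01.1 h
    rw [D.nilPatch_latB0 hp h2, D.nilPatch_pol1 h1]
  have h21 : ∀ p q : E3, D.rel 2 p 1 q → D.nilPatch 2 p = D.nilPatch 1 q := by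
    intro p q h
    obtain ⟨h1, h2⟩ := D.rel_21.1 h
    rw [D.nilPatch_latB2 h2, D.nilPatch_pol2 h1]
  fin_cases i <;> fin_cases j
  · exact D.nilPatch_latB0 hp (D.rel_00.1 h)
  · exact h01 p q hp hq h
  · exact absurd h D.rel_02
  · exact (h01 q p hq hp (D.rel_symm h)).symm
  · exact D.nilPatch_latC ((D.rel_11 hp hq).1 h)
  · exact (h21 q p (D.rel_symm h)).symm
  · exact absurd h D.rel_20
  · exact h21 p q h
  · exact D.nilPatch_latB2 (D.rel_22.1 h)

theorem continuousOn_nilPatch (i : Fin 3) : ContinuousOn (D.nilPatch i) (D.P i) := by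
  fin_cases i
  · exact continuousOn_nil1 D.S_pos (by fun_prop) (by fun_prop) (by fun_prop)
      (fun p hp => D.not_centre_of_mem hp)
  · refine continuousOn_nilC D.S_pos (by linarith [D.h1]) (by linarith [D.hS1]) (by fun_prop)
      (by fun_prop) (by fun_prop) (fun p hp => ?_)
    have := (D.mem_P1.1 hp).1
    have := D.hS1
    linarith
  · exact (continuous_nil2.comp (by fun_prop : Continuous fun z : E3 => z 2)).continuousOn

end Par

/-- **The map `M → Nil`.** -/
def nilMap (C : CollarData) : C((theGlue C).M, Nil) where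
  toFun := Quotient.lift (s := (theGlue C).r) (fun x => C.par.nilPatch x.1 x.2)
    (fun x y h => C.par.nilPatch_rel x.2.2 y.2.2 h)
  continuous_toFun := by
    refine Continuous.quotient_lift ?_ _
    rw [continuous_sigma_iff]
    intro i
    have h := C.par.continuousOn_nilPatch i
    rw [continuousOn_iff_continuous_domRestrict] at h
    exact h

theorem nilMap_F (C : CollarData) (i : Fin 3) (z : E3) (hz : z ∈ C.par.P i) :
    nilMap C ((theGlue C).F i z) = C.par.nilPatch i z := by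
  rw [(theGlue C).F_of_mem (i := i) (z := z) hz]
  rfl

/-- values of `nilMap` on the collar at and after `tR` -/
theorem nilMap_collar (C : CollarData) {t : ℝ} (ht : C.tR ≤ t) (ht' : t < C.tR + 2) (x y : ℝ) :
    nilMap C ((theGlue C).F 1 !₂[t, x, y]) = nil2 (x + y) := by
  have hmem : (!₂[t, x, y] : E3) ∈ C.par.P 1 := by
    rw [Par.mem_P1]
    have h1 : C.tL < C.tR := C.par.hLR
    constructor
    · show C.tL - 2 < t
      linarith
    · show t < C.tR + 2
      exact ht'
  rw [nilMap_F C 1 _ hmem, Par.nilPatch_1]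
  exact nilC_right C.par.hLR ht x y


end Crest.Agent.R244.ManC
end
end

-- ▼ part R244/ManCNil
section

/-!
# R244 : existence of the map `M → Nil` in the form used by ManC3
-/

set_option autoImplicit false
set_option maxSynthPendingDepth 3

namespace Crest.Agent.R244.ManC

open Crest.Agent.R244.Man Crest.Agent.R244.B4

theorem exists_nilMap (C : CollarData) : ∃ F : C((theGlue C).M, Nil), ∀ y : ℝ,
    F ((theGlue C).F 1 !₂[((C.tR) + (C.tR + 2)) / 2, 0, y]) = nil2 y := by
  refine ⟨nilMap C, fun y => ?_⟩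
  have h := nilMap_collar C (t := ((C.tR) + (C.tR + 2)) / 2) (by linarith) (by linarith) 0 y
  rw [zero_add] at h
  exact h

end Crest.Agent.R244.ManC
end

-- ▼ part R244/ColW
section

/-!
# R244 package COL : from the metric entries to the cometric entries
-/

set_option autoImplicit false

open scoped ContDiff
open Crest.Agent.R244.NCP

namespace Crest.Agent.R244.Col

/-- first and second derivatives of the metric entries -/
structure QD (P B D P1 B1 D1 P2 B2 D2 : ℝ → ℝ) : Prop where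
  hP : ∀ t, HasDerivAt P (P1 t) t
  hB : ∀ t, HasDerivAt B (B1 t) t
  hD : ∀ t, HasDerivAt D (D1 t) t
  hP1 : ∀ t, HasDerivAt P1 (P2 t) t
  hB1 : ∀ t, HasDerivAt B1 (B2 t) t
  hD1 : ∀ t, HasDerivAt D1 (D2 t) t
  det : ∀ t, 0 < P t * D t - B t ^ 2

variable {P B D P1 B1 D1 P2 B2 D2 : ℝ → ℝ}

/-- `W'₁₁` -/
def wA1 (A B C P1 B1 D1 : ℝ) : ℝ := -(A ^ 2 * P1 + 2 * A * B * B1 + B ^ 2 * D1) + 0 * C
/-- `W'₁₂` -/
def wB1 (A B C P1 B1 D1 : ℝ) : ℝ := -(A * B * P1 + (A * C + B ^ 2) * B1 + B * C * D1)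
/-- `W'₂₂` -/
def wC1 (A B C P1 B1 D1 : ℝ) : ℝ := -(B ^ 2 * P1 + 2 * B * C * B1 + C ^ 2 * D1) + 0 * A

theorem QD.hasDerivAt_A (h : QD P B D P1 B1 D1 P2 B2 D2) (t : ℝ) :
    HasDerivAt (colA P B D) (wA1 (colA P B D t) (colB P B D t) (colC P B D t)
      (P1 t) (B1 t) (D1 t)) t := by
  have hd : P t * D t - B t ^ 2 ≠ 0 := (h.det t).ne'
  have h1 := (h.hD t).div (((h.hP t).mul (h.hD t)).sub ((h.hB t).pow 2)) hd
  refine HasDerivAt.congr_deriv h1 ?_
  simp only [wA1, colA, colB, colC, Pi.mul_apply, Pi.pow_apply, Pi.sub_apply]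
  field_simp
  ring

theorem QD.hasDerivAt_B (h : QD P B D P1 B1 D1 P2 B2 D2) (t : ℝ) :
    HasDerivAt (colB P B D) (wB1 (colA P B D t) (colB P B D t) (colC P B D t)
      (P1 t) (B1 t) (D1 t)) t := by
  have hd : P t * D t - B t ^ 2 ≠ 0 := (h.det t).ne'
  have h1 := ((h.hB t).neg).div (((h.hP t).mul (h.hD t)).sub ((h.hB t).pow 2)) hd
  refine HasDerivAt.congr_deriv h1 ?_
  simp only [wB1, colA, colB, colC, Pi.mul_apply, Pi.pow_apply, Pi.sub_apply, Pi.neg_apply]
  field_simp
  ring

theorem QD.hasDerivAt_C (h : QD P B D P1 B1 D1 P2 B2 D2) (t : ℝ) :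
    HasDerivAt (colC P B D) (wC1 (colA P B D t) (colB P B D t) (colC P B D t)
      (P1 t) (B1 t) (D1 t)) t := by
  have hd : P t * D t - B t ^ 2 ≠ 0 := (h.det t).ne'
  have h1 := (h.hP t).div (((h.hP t).mul (h.hD t)).sub ((h.hB t).pow 2)) hd
  refine HasDerivAt.congr_deriv h1 ?_
  simp only [wC1, colA, colB, colC, Pi.mul_apply, Pi.pow_apply, Pi.sub_apply]
  field_simp
  ring

theorem QD.deriv_A (h : QD P B D P1 B1 D1 P2 B2 D2) : deriv (colA P B D) = fun t =>
    wA1 (colA P B D t) (colB P B D t) (colC P B D t) (P1 t) (B1 t) (D1 t) :=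
  funext fun t => (h.hasDerivAt_A t).deriv

theorem QD.deriv_B (h : QD P B D P1 B1 D1 P2 B2 D2) : deriv (colB P B D) = fun t =>
    wB1 (colA P B D t) (colB P B D t) (colC P B D t) (P1 t) (B1 t) (D1 t) :=
  funext fun t => (h.hasDerivAt_B t).deriv

theorem QD.deriv_C (h : QD P B D P1 B1 D1 P2 B2 D2) : deriv (colC P B D) = fun t =>
    wC1 (colA P B D t) (colB P B D t) (colC P B D t) (P1 t) (B1 t) (D1 t) :=
  funext fun t => (h.hasDerivAt_C t).deriv

/-- `V_t = - Q'(v,v)` -/
theorem QD.V1_eq (h : QD P B D P1 B1 D1 P2 B2 D2) (t p q : ℝ) :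
    colV1 P B D t p q =
      -(P1 t * (colA P B D t * p + colB P B D t * q) ^ 2 +
        2 * B1 t * (colA P B D t * p + colB P B D t * q) * (colB P B D t * p + colC P B D t * q) +
        D1 t * (colB P B D t * p + colC P B D t * q) ^ 2) := by
  unfold colV1 qf
  rw [h.deriv_A, h.deriv_B, h.deriv_C]
  simp only [wA1, wB1, wC1]
  ring

theorem QD.deriv2_A (h : QD P B D P1 B1 D1 P2 B2 D2) (t : ℝ) :
    deriv (deriv (colA P B D)) t =
      -(2 * colA P B D t * deriv (colA P B D) t * P1 t + colA P B D t ^ 2 * P2 t +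
        2 * (deriv (colA P B D) t * colB P B D t + colA P B D t * deriv (colB P B D) t) * B1 t +
        2 * colA P B D t * colB P B D t * B2 t +
        2 * colB P B D t * deriv (colB P B D) t * D1 t + colB P B D t ^ 2 * D2 t) := by
  have hA := h.hasDerivAt_A t
  have hB := h.hasDerivAt_B t
  have h1 := ((((hA.pow 2).mul (h.hP1 t)).add (((hA.const_mul 2).mul hB).mul (h.hB1 t))).add
    ((hB.pow 2).mul (h.hD1 t))).neg
  have h2 : deriv (colA P B D) = fun t =>
      -(colA P B D t ^ 2 * P1 t + 2 * colA P B D t * colB P B D t * B1 t +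
        colB P B D t ^ 2 * D1 t) := by
    rw [h.deriv_A]; funext t; simp only [wA1]; ring
  have h3 : deriv (colA P B D) t = wA1 (colA P B D t) (colB P B D t) (colC P B D t)
      (P1 t) (B1 t) (D1 t) := hA.deriv
  have h4 : deriv (colB P B D) t = wB1 (colA P B D t) (colB P B D t) (colC P B D t)
      (P1 t) (B1 t) (D1 t) := hB.deriv
  rw [h3, h4]
  have h5 : deriv (deriv (colA P B D)) t = deriv (fun t =>
      -(colA P B D t ^ 2 * P1 t + 2 * colA P B D t * colB P B D t * B1 t +
        colB P B D t ^ 2 * D1 t)) t := by rw [h2]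
  rw [h5]
  refine (HasDerivAt.congr_deriv h1 ?_).deriv
  simp only [Pi.mul_apply, Pi.pow_apply]
  push_cast
  ring

theorem QD.deriv2_C (h : QD P B D P1 B1 D1 P2 B2 D2) (t : ℝ) :
    deriv (deriv (colC P B D)) t =
      -(2 * colB P B D t * deriv (colB P B D) t * P1 t + colB P B D t ^ 2 * P2 t +
        2 * (deriv (colB P B D) t * colC P B D t + colB P B D t * deriv (colC P B D) t) * B1 t +
        2 * colB P B D t * colC P B D t * B2 t +
        2 * colC P B D t * deriv (colC P B D) t * D1 t + colC P B D t ^ 2 * D2 t) := by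
  have hC := h.hasDerivAt_C t
  have hB := h.hasDerivAt_B t
  have h1 := ((((hB.pow 2).mul (h.hP1 t)).add (((hB.const_mul 2).mul hC).mul (h.hB1 t))).add
    ((hC.pow 2).mul (h.hD1 t))).neg
  have h2 : deriv (colC P B D) = fun t =>
      -(colB P B D t ^ 2 * P1 t + 2 * colB P B D t * colC P B D t * B1 t +
        colC P B D t ^ 2 * D1 t) := by
    rw [h.deriv_C]; funext t; simp only [wC1]; ring
  have h3 : deriv (colC P B D) t = wC1 (colA P B D t) (colB P B D t) (colC P B D t)
      (P1 t) (B1 t) (D1 t) := hC.deriv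
  have h4 : deriv (colB P B D) t = wB1 (colA P B D t) (colB P B D t) (colC P B D t)
      (P1 t) (B1 t) (D1 t) := hB.deriv
  rw [h3, h4]
  have h5 : deriv (deriv (colC P B D)) t = deriv (fun t =>
      -(colB P B D t ^ 2 * P1 t + 2 * colB P B D t * colC P B D t * B1 t +
        colC P B D t ^ 2 * D1 t)) t := by rw [h2]
  rw [h5]
  refine (HasDerivAt.congr_deriv h1 ?_).deriv
  simp only [Pi.mul_apply, Pi.pow_apply]
  push_cast
  ring

theorem QD.deriv2_B (h : QD P B D P1 B1 D1 P2 B2 D2) (t : ℝ) :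
    deriv (deriv (colB P B D)) t =
      -((deriv (colA P B D) t * colB P B D t + colA P B D t * deriv (colB P B D) t) * P1 t +
        colA P B D t * colB P B D t * P2 t +
        (deriv (colA P B D) t * colC P B D t + colA P B D t * deriv (colC P B D) t +
          2 * colB P B D t * deriv (colB P B D) t) * B1 t +
        (colA P B D t * colC P B D t + colB P B D t ^ 2) * B2 t +
        (deriv (colB P B D) t * colC P B D t + colB P B D t * deriv (colC P B D) t) * D1 t +
        colB P B D t * colC P B D t * D2 t) := by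
  have hA := h.hasDerivAt_A t
  have hC := h.hasDerivAt_C t
  have hB := h.hasDerivAt_B t
  have h1 := ((((hA.mul hB).mul (h.hP1 t)).add
    (((hA.mul hC).add (hB.pow 2)).mul (h.hB1 t))).add
    ((hB.mul hC).mul (h.hD1 t))).neg
  have h2 : deriv (colB P B D) = fun t =>
      -(colA P B D t * colB P B D t * P1 t +
        (colA P B D t * colC P B D t + colB P B D t ^ 2) * B1 t +
        colB P B D t * colC P B D t * D1 t) := by
    rw [h.deriv_B]; funext t; simp only [wB1]
  have h3 : deriv (colC P B D) t = wC1 (colA P B D t) (colB P B D t) (colC P B D t)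
      (P1 t) (B1 t) (D1 t) := hC.deriv
  have h4 : deriv (colB P B D) t = wB1 (colA P B D t) (colB P B D t) (colC P B D t)
      (P1 t) (B1 t) (D1 t) := hB.deriv
  have h6 : deriv (colA P B D) t = wA1 (colA P B D t) (colB P B D t) (colC P B D t)
      (P1 t) (B1 t) (D1 t) := hA.deriv
  rw [h3, h4, h6]
  have h5 : deriv (deriv (colB P B D)) t = deriv (fun t =>
      -(colA P B D t * colB P B D t * P1 t +
        (colA P B D t * colC P B D t + colB P B D t ^ 2) * B1 t +
        colB P B D t * colC P B D t * D1 t)) t := by rw [h2]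
  rw [h5]
  refine (HasDerivAt.congr_deriv h1 ?_).deriv
  simp only [Pi.mul_apply, Pi.pow_apply, Pi.add_apply]
  push_cast
  ring

/-- `V_tt = - Q''(v,v) + 2 W(Q'v,Q'v)` -/
theorem QD.V2_eq (h : QD P B D P1 B1 D1 P2 B2 D2) (t p q X Y : ℝ)
    (hX : X = colA P B D t * p + colB P B D t * q)
    (hY : Y = colB P B D t * p + colC P B D t * q) :
    colV2 P B D t p q =
      -(P2 t * X ^ 2 + 2 * B2 t * X * Y + D2 t * Y ^ 2) +
      2 * (colA P B D t * (P1 t * X + B1 t * Y) ^ 2 +
        2 * colB P B D t * (P1 t * X + B1 t * Y) * (B1 t * X + D1 t * Y) +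
        colC P B D t * (B1 t * X + D1 t * Y) ^ 2) := by
  unfold colV2 qf
  rw [h.deriv2_A, h.deriv2_B, h.deriv2_C, h.deriv_A, h.deriv_B, h.deriv_C]
  simp only [wA1, wB1, wC1]
  rw [hX, hY]
  ring

/-- The coefficient `cR` in terms of the metric entries. -/
theorem QD.cR_eq (h : QD P B D P1 B1 D1 P2 B2 D2) (t p q X Y : ℝ)
    (hX : X = colA P B D t * p + colB P B D t * q)
    (hY : Y = colB P B D t * p + colC P B D t * q) (hX0 : X ≠ 0) :
    cR (colA P B D t) (colB P B D t) (colC P B D t)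
      (deriv (colA P B D) t) (deriv (colB P B D) t) (deriv (colC P B D) t)
      (deriv (deriv (colA P B D)) t) (deriv (deriv (colB P B D)) t)
      (deriv (deriv (colC P B D)) t) p q =
    X ^ 2 / (4 * (P t * D t - B t ^ 2)) *
      (2 * (P t * D t - B t ^ 2) * (P2 t + 2 * B2 t * (Y / X) + D2 t * (Y / X) ^ 2) -
        rhsR (P t) (B t) (D t) (P1 t) (B1 t) (D1 t) (Y / X)) := by
  have hV1 := h.V1_eq t p q
  have hV2 := h.V2_eq t p q X Y hX hY
  unfold colV1 at hV1
  unfold colV2 at hV2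
  rw [← hX, ← hY] at hV1
  have hu : deriv (colA P B D) t * p + deriv (colB P B D) t * q =
      -(colA P B D t * (P1 t * X + B1 t * Y) + colB P B D t * (B1 t * X + D1 t * Y)) := by
    rw [h.deriv_A, h.deriv_B]
    simp only [wA1, wB1]
    rw [hX, hY]
    ring
  unfold cR
  rw [hV1, hV2, hu, ← hX]
  have hd : P t * D t - B t ^ 2 ≠ 0 := (h.det t).ne'
  simp only [colA, colB, colC, rhsR]
  generalize P t * D t - B t ^ 2 = Δ at hd
  field_simp
  ring

/-- The coefficient `cR` with exchanged roles, in terms of the metric entries. -/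
theorem QD.cL_eq (h : QD P B D P1 B1 D1 P2 B2 D2) (t p q X Y : ℝ)
    (hX : X = colA P B D t * p + colB P B D t * q)
    (hY : Y = colB P B D t * p + colC P B D t * q) (hY0 : Y ≠ 0) :
    cR (colC P B D t) (colB P B D t) (colA P B D t)
      (deriv (colC P B D) t) (deriv (colB P B D) t) (deriv (colA P B D) t)
      (deriv (deriv (colC P B D)) t) (deriv (deriv (colB P B D)) t)
      (deriv (deriv (colA P B D)) t) q p =
    Y ^ 2 / (4 * (P t * D t - B t ^ 2)) *
      (2 * (P t * D t - B t ^ 2) * (P2 t * (X / Y) ^ 2 + 2 * B2 t * (X / Y) + D2 t) -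
        rhsL (P t) (B t) (D t) (P1 t) (B1 t) (D1 t) (X / Y)) := by
  have hV1 := h.V1_eq t p q
  have hV2 := h.V2_eq t p q X Y hX hY
  unfold colV1 at hV1
  unfold colV2 at hV2
  rw [← hX, ← hY] at hV1
  have hu : deriv (colC P B D) t * q + deriv (colB P B D) t * p =
      -(colB P B D t * (P1 t * X + B1 t * Y) + colC P B D t * (B1 t * X + D1 t * Y)) := by
    rw [h.deriv_C, h.deriv_B]
    simp only [wC1, wB1]
    rw [hX, hY]
    ring
  have hq1 : ∀ a b c : ℝ, qf c b a q p = qf a b c p q := by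
    intro a b c; unfold qf; ring
  have hY' : colC P B D t * q + colB P B D t * p = Y := by rw [hY]; ring
  unfold cR
  rw [hq1, hq1, hV1, hV2, hu, hY']
  have hd : P t * D t - B t ^ 2 ≠ 0 := (h.det t).ne'
  simp only [colA, colB, colC, rhsL]
  generalize P t * D t - B t ^ 2 = Δ at hd
  field_simp
  ring

end Crest.Agent.R244.Col
end

-- ▼ part R244/ColFun
section

/-!
# R244 package COL : cut-off functions
-/

set_option autoImplicit false

open scoped ContDiff
open Real Set

namespace Crest.Agent.R244.Col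

/-- the derivative of `smoothTransition` -/
noncomputable def st1 (x : ℝ) : ℝ :=
  smoothTransition x * (1 - smoothTransition x) * ((x⁻¹) ^ 2 + ((1 - x)⁻¹) ^ 2)

theorem hasDerivAt_glue (x : ℝ) :
    HasDerivAt expNegInvGlue ((x⁻¹) ^ 2 * expNegInvGlue x) x := by
  have h := expNegInvGlue.hasDerivAt_polynomial_eval_inv_mul (1 : Polynomial ℝ) x
  simpa using h

theorem hasDerivAt_st (x : ℝ) : HasDerivAt smoothTransition (st1 x) x := by
  have h1 := hasDerivAt_glue x
  have h2 : HasDerivAt (fun x => expNegInvGlue (1 - x))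
      (((1 - x)⁻¹) ^ 2 * expNegInvGlue (1 - x) * (-1)) x := by
    have h3 : HasDerivAt (fun x : ℝ => 1 - x) (-1) x := by
      simpa using (hasDerivAt_id x).const_sub 1
    exact (hasDerivAt_glue (1 - x)).comp x h3
  have hd := (smoothTransition.pos_denom x)
  have h4 := h1.div (h1.add h2) hd.ne'
  have h5 : smoothTransition = fun x =>
    expNegInvGlue x / (expNegInvGlue x + expNegInvGlue (1 - x)) := rfl
  refine HasDerivAt.congr_deriv (h4.congr_of_eventuallyEq ?_) ?_
  · exact Filter.Eventually.of_forall fun y => rfl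
  · simp only [st1, h5, Pi.add_apply]
    have hd' := hd.ne'
    generalize expNegInvGlue x = f at hd' ⊢
    generalize expNegInvGlue (1 - x) = g at hd' ⊢
    generalize x⁻¹ = u
    generalize (1 - x)⁻¹ = v
    field_simp
    ring

theorem st1_nonneg (x : ℝ) : 0 ≤ st1 x := by
  unfold st1
  have h1 := smoothTransition.nonneg x
  have h2 := smoothTransition.le_one x
  have h3 : 0 ≤ 1 - smoothTransition x := by linarith
  positivity

theorem st1_lower {x y z : ℝ} (hx : 0 < x) (hxy : x ≤ y) (hyz : y ≤ z) (hz : z ≤ 1) :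
    smoothTransition x * (1 - smoothTransition z) ≤ st1 y := by
  have hy : 0 < y := hx.trans_le hxy
  have h1 : smoothTransition x ≤ smoothTransition y := smoothTransition.monotone hxy
  have h2 : smoothTransition y ≤ smoothTransition z := smoothTransition.monotone hyz
  have h3 := smoothTransition.nonneg x
  have h3' := smoothTransition.nonneg y
  have h4 := smoothTransition.le_one z
  have h5 : 1 ≤ (y⁻¹) ^ 2 := one_le_pow₀ (one_le_inv₀ hy |>.2 (hyz.trans hz))
  have h6 : 1 ≤ (y⁻¹) ^ 2 + ((1 - y)⁻¹) ^ 2 := by have := sq_nonneg ((1 - y)⁻¹); linarith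
  unfold st1
  have h7 : smoothTransition x * (1 - smoothTransition z) ≤
      smoothTransition y * (1 - smoothTransition y) := by
    apply mul_le_mul h1 (by linarith) (by linarith) h3'
  have h8 : 0 ≤ smoothTransition y * (1 - smoothTransition y) :=
    mul_nonneg h3' (by linarith)
  calc _ ≤ _ := h7
    _ = smoothTransition y * (1 - smoothTransition y) * 1 := by ring
    _ ≤ _ := by gcongr

/-! ## The functions `θ`, `ρ`, `b` -/

noncomputable def th (t : ℝ) : ℝ := 1 - smoothTransition (t / 4)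
noncomputable def qq (t : ℝ) : ℝ := st1 (t / 4) / 4
noncomputable def rho (t : ℝ) : ℝ := smoothTransition ((t - 1) / 4)
noncomputable def rr (t : ℝ) : ℝ := st1 ((t - 1) / 4) / 4
noncomputable def bb (t : ℝ) : ℝ := smoothTransition (t - 2)
noncomputable def bb1 (t : ℝ) : ℝ := st1 (t - 2)

theorem hasDerivAt_th (t : ℝ) : HasDerivAt th (-(qq t)) t := by
  have h1 : HasDerivAt (fun t : ℝ => t / 4) (1 / 4) t := (hasDerivAt_id t).div_const 4
  have h2 := ((hasDerivAt_st (t / 4)).comp t h1).const_sub 1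
  refine HasDerivAt.congr_deriv h2 ?_
  unfold qq; ring

theorem hasDerivAt_rho (t : ℝ) : HasDerivAt rho (rr t) t := by
  have h1 : HasDerivAt (fun t : ℝ => (t - 1) / 4) (1 / 4) t :=
    ((hasDerivAt_id t).sub_const 1).div_const 4
  have h2 := ((hasDerivAt_st ((t - 1) / 4)).comp t h1)
  refine HasDerivAt.congr_deriv h2 ?_
  unfold rr; ring

theorem hasDerivAt_bb (t : ℝ) : HasDerivAt bb (bb1 t) t := by
  have h1 : HasDerivAt (fun t : ℝ => t - 2) 1 t := (hasDerivAt_id t).sub_const 2
  have h2 := ((hasDerivAt_st (t - 2)).comp t h1)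
  refine HasDerivAt.congr_deriv h2 ?_
  unfold bb1; ring

theorem contDiff_th : ContDiff ℝ ∞ th := by
  unfold th
  exact contDiff_const.sub (smoothTransition.contDiff.comp (contDiff_id.div_const 4))

theorem contDiff_rho : ContDiff ℝ ∞ rho := by
  unfold rho
  exact (smoothTransition.contDiff.comp ((contDiff_id.sub contDiff_const).div_const 4))

theorem contDiff_bb : ContDiff ℝ ∞ bb := by
  unfold bb
  exact (smoothTransition.contDiff.comp (contDiff_id.sub contDiff_const))

theorem deriv_bb : deriv bb = bb1 := funext fun t => (hasDerivAt_bb t).deriv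

theorem contDiff_bb1 : ContDiff ℝ ∞ bb1 := by
  have h := contDiff_bb
  rw [contDiff_infty_iff_deriv, deriv_bb] at h
  exact h.2

theorem contDiff_bb2 : ContDiff ℝ ∞ (deriv bb1) := by
  have h := contDiff_bb1
  rw [contDiff_infty_iff_deriv] at h
  exact h.2

theorem hasDerivAt_bb1 (t : ℝ) : HasDerivAt bb1 (deriv bb1 t) t :=
  (contDiff_bb1.differentiable (by simp)).differentiableAt.hasDerivAt

theorem th_nonneg (t : ℝ) : 0 ≤ th t := by
  have := smoothTransition.le_one (t / 4)
  unfold th; linarith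

theorem th_le_one (t : ℝ) : th t ≤ 1 := by
  have := smoothTransition.nonneg (t / 4)
  unfold th; linarith

theorem th_pos {t : ℝ} (ht : t < 4) : 0 < th t := by
  have := smoothTransition.lt_one_of_lt_one (x := t / 4) (by linarith)
  unfold th; linarith

theorem th_eq_zero {t : ℝ} (ht : 4 ≤ t) : th t = 0 := by
  have := smoothTransition.one_of_one_le (x := t / 4) (by linarith)
  unfold th; linarith

theorem th_eq_one {t : ℝ} (ht : t ≤ 0) : th t = 1 := by
  have := smoothTransition.zero_of_nonpos (x := t / 4) (by linarith)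
  unfold th; linarith

theorem th_antitone : Antitone th := by
  intro x y hxy
  have := smoothTransition.monotone (show x / 4 ≤ y / 4 by linarith)
  unfold th; linarith

theorem qq_nonneg (t : ℝ) : 0 ≤ qq t := by
  have := st1_nonneg (t / 4)
  unfold qq; linarith

theorem qq_eq_zero {t : ℝ} (ht : 4 ≤ t) : qq t = 0 := by
  have := smoothTransition.one_of_one_le (x := t / 4) (by linarith)
  unfold qq st1; rw [this]; ring

theorem rr_nonneg (t : ℝ) : 0 ≤ rr t := by
  have := st1_nonneg ((t - 1) / 4)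
  unfold rr; linarith

theorem rr_eq_zero {t : ℝ} (ht : t ≤ 1) : rr t = 0 := by
  have := smoothTransition.zero_of_nonpos (x := (t - 1) / 4) (by linarith)
  unfold rr st1; rw [this]; ring

theorem rho_nonneg (t : ℝ) : 0 ≤ rho t := smoothTransition.nonneg _

theorem rho_le_one (t : ℝ) : rho t ≤ 1 := smoothTransition.le_one _

theorem rho_pos {t : ℝ} (ht : 1 < t) : 0 < rho t :=
  smoothTransition.pos_of_pos (by linarith)

theorem rho_eq_zero {t : ℝ} (ht : t ≤ 1) : rho t = 0 :=
  smoothTransition.zero_of_nonpos (by linarith)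

theorem rho_eq_one {t : ℝ} (ht : 5 ≤ t) : rho t = 1 :=
  smoothTransition.one_of_one_le (by linarith)

theorem bb_nonneg (t : ℝ) : 0 ≤ bb t := smoothTransition.nonneg _

theorem bb_le_one (t : ℝ) : bb t ≤ 1 := smoothTransition.le_one _

theorem bb_eq_zero {t : ℝ} (ht : t ≤ 2) : bb t = 0 :=
  smoothTransition.zero_of_nonpos (by linarith)

theorem bb_eq_one {t : ℝ} (ht : 3 ≤ t) : bb t = 1 :=
  smoothTransition.one_of_one_le (by linarith)

theorem bb1_eq_zero_left {t : ℝ} (ht : t ≤ 2) : bb1 t = 0 := by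
  have := smoothTransition.zero_of_nonpos (x := t - 2) (by linarith)
  unfold bb1 st1; rw [this]; ring

theorem bb1_eq_zero_right {t : ℝ} (ht : 3 ≤ t) : bb1 t = 0 := by
  have := smoothTransition.one_of_one_le (x := t - 2) (by linarith)
  unfold bb1 st1; rw [this]; ring

theorem bb2_eq_zero_left {t : ℝ} (ht : t < 2) : deriv bb1 t = 0 := by
  have h : bb1 =ᶠ[nhds t] fun _ => (0 : ℝ) := by
    filter_upwards [Iio_mem_nhds ht] with x hx
    exact bb1_eq_zero_left (le_of_lt hx)
  rw [h.deriv_eq]; simp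

theorem bb2_eq_zero_right {t : ℝ} (ht : 3 < t) : deriv bb1 t = 0 := by
  have h : bb1 =ᶠ[nhds t] fun _ => (0 : ℝ) := by
    filter_upwards [Ioi_mem_nhds ht] with x hx
    exact bb1_eq_zero_right (le_of_lt hx)
  rw [h.deriv_eq]; simp

/-- constant `c0` -/
theorem exists_c0 : ∃ c0 : ℝ, 0 < c0 ∧ ∀ t, 1 ≤ t → c0 * th t ≤ qq t := by
  refine ⟨smoothTransition (1 / 4) / 4, ?_, ?_⟩
  · have := smoothTransition.pos_of_pos (x := 1 / 4) (by norm_num)
    positivity
  · intro t ht
    by_cases h4 : 4 ≤ t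
    · rw [th_eq_zero h4, qq_eq_zero h4]; simp
    · push Not at h4
      have := st1_lower (x := 1 / 4) (y := t / 4) (z := t / 4) (by norm_num) (by linarith) le_rfl
        (by linarith)
      unfold th qq
      linarith

theorem exists_c1 : ∃ c1 : ℝ, 0 < c1 ∧ ∀ t, 2 ≤ t → t ≤ 4 → c1 ≤ rr t := by
  refine ⟨smoothTransition (1 / 4) * (1 - smoothTransition (3 / 4)) / 4, ?_, ?_⟩
  · have h1 := smoothTransition.pos_of_pos (x := 1 / 4) (by norm_num)
    have h2 := smoothTransition.lt_one_of_lt_one (x := 3 / 4) (by norm_num)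
    have h3 : 0 < 1 - smoothTransition (3 / 4) := by linarith
    positivity
  · intro t ht ht4
    have := st1_lower (x := 1 / 4) (y := (t - 1) / 4) (z := 3 / 4) (by norm_num) (by linarith)
      (by linarith) (by norm_num)
    unfold rr
    linarith

theorem exists_c4 : ∃ c4 : ℝ, 0 < c4 ∧ ∀ t, 2 ≤ t → c4 ≤ rho t := by
  refine ⟨smoothTransition (1 / 4), smoothTransition.pos_of_pos (by norm_num), ?_⟩
  intro t ht
  exact smoothTransition.monotone (by linarith)

theorem exists_M : ∃ M : ℝ, 0 ≤ M ∧ ∀ t, bb1 t ^ 2 ≤ M * th t ∧ deriv bb1 t ^ 2 ≤ M * th t := by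
  obtain ⟨C1, hC1⟩ := (isCompact_Icc (a := (2:ℝ)) (b := 3)).exists_bound_of_continuousOn
    contDiff_bb1.continuous.continuousOn
  obtain ⟨C2, hC2⟩ := (isCompact_Icc (a := (2:ℝ)) (b := 3)).exists_bound_of_continuousOn
    contDiff_bb2.continuous.continuousOn
  have hth3 : 0 < th 3 := th_pos (by norm_num)
  refine ⟨(C1 ^ 2 + C2 ^ 2) / th 3, by positivity, fun t => ?_⟩
  have hnn : 0 ≤ (C1 ^ 2 + C2 ^ 2) / th 3 * th t :=
    mul_nonneg (by positivity) (th_nonneg t)
  rcases lt_or_ge t 2 with h2 | h2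
  · rw [bb1_eq_zero_left h2.le, bb2_eq_zero_left h2]
    constructor <;> simpa using hnn
  rcases lt_or_ge 3 t with h3 | h3
  · rw [bb1_eq_zero_right h3.le, bb2_eq_zero_right h3]
    constructor <;> simpa using hnn
  have hth : th 3 ≤ th t := th_antitone h3
  have key : C1 ^ 2 + C2 ^ 2 ≤ (C1 ^ 2 + C2 ^ 2) / th 3 * th t := by
    rw [div_mul_eq_mul_div, le_div_iff₀ hth3]
    gcongr
  have h1 : bb1 t ^ 2 ≤ C1 ^ 2 := by
    have := hC1 t ⟨h2, h3⟩
    rw [Real.norm_eq_abs] at this
    exact sq_le_sq' (by linarith [neg_abs_le (bb1 t)]) (by linarith [le_abs_self (bb1 t)])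
  have h2' : deriv bb1 t ^ 2 ≤ C2 ^ 2 := by
    have := hC2 t ⟨h2, h3⟩
    rw [Real.norm_eq_abs] at this
    exact sq_le_sq' (by linarith [neg_abs_le (deriv bb1 t)]) (by linarith [le_abs_self (deriv bb1 t)])
  constructor
  · have := sq_nonneg C2; linarith
  · have := sq_nonneg C1; linarith

/-! ## Antiderivatives -/

theorem continuous_th : Continuous th := contDiff_th.continuous
theorem continuous_rho : Continuous rho := contDiff_rho.continuous

/-- antiderivative of `θ` -/
noncomputable def Jth (t : ℝ) : ℝ := ∫ x in (4:ℝ)..t, th x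
/-- antiderivative of `ρ` -/
noncomputable def Jrho (t : ℝ) : ℝ := ∫ x in (1:ℝ)..t, rho x

theorem hasDerivAt_Jth (t : ℝ) : HasDerivAt Jth (th t) t :=
  (continuous_th.integral_hasStrictDerivAt 4 t).hasDerivAt

theorem hasDerivAt_Jrho (t : ℝ) : HasDerivAt Jrho (rho t) t :=
  (continuous_rho.integral_hasStrictDerivAt 1 t).hasDerivAt

theorem contDiff_Jth : ContDiff ℝ ∞ Jth := by
  rw [contDiff_infty_iff_deriv]
  refine ⟨fun t => (hasDerivAt_Jth t).differentiableAt, ?_⟩
  have : deriv Jth = th := funext fun t => (hasDerivAt_Jth t).deriv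
  rw [this]; exact contDiff_th

theorem contDiff_Jrho : ContDiff ℝ ∞ Jrho := by
  rw [contDiff_infty_iff_deriv]
  refine ⟨fun t => (hasDerivAt_Jrho t).differentiableAt, ?_⟩
  have : deriv Jrho = rho := funext fun t => (hasDerivAt_Jrho t).deriv
  rw [this]; exact contDiff_rho

theorem Jth_monotone : Monotone Jth :=
  monotone_of_deriv_nonneg (contDiff_Jth.differentiable (by simp)) fun t => by
    rw [(hasDerivAt_Jth t).deriv]; exact th_nonneg t

theorem Jrho_monotone : Monotone Jrho :=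
  monotone_of_deriv_nonneg (contDiff_Jrho.differentiable (by simp)) fun t => by
    rw [(hasDerivAt_Jrho t).deriv]; exact rho_nonneg t

theorem Jth_right {t : ℝ} (ht : 4 ≤ t) : Jth t = 0 := by
  unfold Jth
  rw [intervalIntegral.integral_congr (g := fun _ => (0:ℝ))]
  · simp
  · intro x hx
    rw [uIcc_of_le ht] at hx
    exact th_eq_zero hx.1

theorem Jrho_left {t : ℝ} (ht : t ≤ 1) : Jrho t = 0 := by
  unfold Jrho
  rw [intervalIntegral.integral_congr (g := fun _ => (0:ℝ))]
  · simp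
  · intro x hx
    rw [uIcc_of_ge ht] at hx
    exact rho_eq_zero hx.2

theorem Jth_nonpos (t : ℝ) : Jth t ≤ 0 := by
  rcases le_total t 4 with h | h
  · have := Jth_monotone h
    rw [Jth_right le_rfl] at this
    exact this
  · exact (Jth_right h).le

theorem Jrho_nonneg (t : ℝ) : 0 ≤ Jrho t := by
  rcases le_total t 1 with h | h
  · exact (Jrho_left h).ge
  · have := Jrho_monotone h
    rw [Jrho_left le_rfl] at this
    exact this

theorem Jth_left {t : ℝ} (ht : t ≤ 0) : Jth t = Jth 0 + t := by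
  unfold Jth
  have h1 : (∫ x in (4:ℝ)..t, th x) = (∫ x in (4:ℝ)..0, th x) + ∫ x in (0:ℝ)..t, th x :=
    (intervalIntegral.integral_add_adjacent_intervals (continuous_th.intervalIntegrable _ _)
      (continuous_th.intervalIntegrable _ _)).symm
  rw [h1, intervalIntegral.integral_congr (a := (0:ℝ)) (b := t) (g := fun _ => (1:ℝ))]
  · simp
  · intro x hx
    rw [uIcc_of_ge ht] at hx
    exact th_eq_one hx.2

theorem Jrho_right {t : ℝ} (ht : 5 ≤ t) : Jrho t = Jrho 5 + (t - 5) := by
  unfold Jrho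
  have h1 : (∫ x in (1:ℝ)..t, rho x) = (∫ x in (1:ℝ)..5, rho x) + ∫ x in (5:ℝ)..t, rho x :=
    (intervalIntegral.integral_add_adjacent_intervals (continuous_rho.intervalIntegrable _ _)
      (continuous_rho.intervalIntegrable _ _)).symm
  rw [h1, intervalIntegral.integral_congr (a := (5:ℝ)) (b := t) (g := fun _ => (1:ℝ))]
  · simp
  · intro x hx
    rw [uIcc_of_le ht] at hx
    exact rho_eq_one hx.1

theorem Jth_lower {t : ℝ} (ht : 0 ≤ t) : -4 ≤ Jth t := by
  -- `Jth - id` is antitone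
  have h : Antitone fun t => Jth t - t := by
    apply antitone_of_deriv_nonpos
    · exact (contDiff_Jth.differentiable (by simp)).sub differentiable_id
    · intro x
      have : HasDerivAt (fun t => Jth t - t) (th x - 1) x :=
        (hasDerivAt_Jth x).sub (hasDerivAt_id x)
      rw [this.deriv]
      linarith [th_le_one x]
  rcases le_total t 4 with h4 | h4
  · have := h h4
    simp only [Jth_right le_rfl] at this
    linarith
  · rw [Jth_right h4]; norm_num

/-- `-J ≤ θ/c0` on `[1,∞)` -/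
theorem Jth_bound {c0 : ℝ} (hc0 : 0 < c0) (h : ∀ t, 1 ≤ t → c0 * th t ≤ qq t) {t : ℝ}
    (ht : 1 ≤ t) : c0 * (-Jth t) ≤ th t := by
  rcases le_total 4 t with h4 | h4
  · rw [Jth_right h4, th_eq_zero h4]; simp
  have hanti : AntitoneOn (fun t => th t + c0 * Jth t) (Icc 1 4) := by
    have hd : ∀ x, HasDerivAt (fun t => th t + c0 * Jth t) (-(qq x) + c0 * th x) x := fun x =>
      (hasDerivAt_th x).add ((hasDerivAt_Jth x).const_mul c0)
    apply antitoneOn_of_deriv_nonpos (convex_Icc 1 4)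
    · exact fun x _ => (hd x).continuousAt.continuousWithinAt
    · exact fun x _ => (hd x).differentiableAt.differentiableWithinAt
    · intro x hx
      rw [interior_Icc] at hx
      rw [(hd x).deriv]
      linarith [h x hx.1.le]
  have := hanti ⟨ht, h4⟩ ⟨by norm_num, le_rfl⟩ h4
  simp only [Jth_right le_rfl, th_eq_zero le_rfl] at this
  linarith

end Crest.Agent.R244.Col
end

-- ▼ part R244/ColExists

/-! # R244 package COL : existence of collar data (helper579) -/

set_option autoImplicit false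

open scoped ContDiff
open Filter
open Crest.Agent.R244.NCP

namespace Crest.Agent.R244

namespace Col

/-- the constants of the construction -/
structure Consts where
  a : ℝ
  K : ℝ
  c0 : ℝ
  c1 : ℝ
  c4 : ℝ
  M : ℝ
  M2 : ℝ
  ha : 1 ≤ a
  hc0 : 0 < c0
  hc1 : 0 < c1
  hc4 : 0 < c4
  hM : 0 ≤ M
  hM2 : 0 ≤ M2
  q_le : ∀ t, 1 ≤ t → c0 * th t ≤ qq t
  r_ge : ∀ t, 2 ≤ t → t ≤ 4 → c1 ≤ rr t
  rho_ge : ∀ t, 2 ≤ t → c4 ≤ rho t
  b1_le : ∀ t, (a ^ 2 * bb1 t) ^ 2 ≤ M * th t
  b2_le : ∀ t, (a ^ 2 * deriv bb1 t) ^ 2 ≤ M * th t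
  g_le : ∀ t, 1 ≤ t → ((a - Jth t) ^ 2 - a ^ 2 * bb t) ^ 2 ≤ M2 * th t
  haK : a ≤ K
  ha8 : 128 ≤ a * c0
  hK2 : 2 * M ≤ a * K
  hK3 : M ≤ a * c0 * c1 * K
  hK4 : 77 + 30 * M + 140 * (a + 4) ≤ 2 * K * c1
  hK2' : M ≤ K * c4 * a
  hK5 : 128 + 32 * M + 192 * (a + 4) ≤ K * c0
  hK6 : 1 + M + 2 * a ≤ 2 * K * c4
  hK7 : M + 3 * M2 ≤ K

theorem exists_consts : Nonempty Consts := by
  obtain ⟨c0, hc0, hq⟩ := exists_c0
  obtain ⟨c1, hc1, hr⟩ := exists_c1
  obtain ⟨c4, hc4, hrho⟩ := exists_c4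
  obtain ⟨Mb, hMb, hb⟩ := exists_M
  set a := 1 + 128 / c0 with ha_def
  have ha : 1 ≤ a := by
    have : 0 < 128 / c0 := by positivity
    linarith
  have ha0 : 0 < a := by linarith
  have ha8 : 128 ≤ a * c0 := by
    have : a * c0 = c0 + 128 := by rw [ha_def]; field_simp
    linarith
  set M := a ^ 4 * Mb with hM_def
  have hM : 0 ≤ M := by positivity
  have hth3 : 0 < th 3 := th_pos (by norm_num)
  set C := (2 * a + 4) / c0 + a ^ 2 / th 3 with hC
  have hC0 : 0 ≤ C := by positivity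
  -- bound for G
  have hG : ∀ t, 1 ≤ t → ((a - Jth t) ^ 2 - a ^ 2 * bb t) ^ 2 ≤ C ^ 2 * th t := by
    intro t ht
    have h1 := Jth_bound hc0 hq ht
    have h2 := Jth_nonpos t
    have h3 := Jth_lower (t := t) (by linarith)
    have h4 := th_nonneg t
    have h5 := th_le_one t
    have h6 : 1 - bb t ≤ th t / th 3 := by
      rcases le_total 3 t with h | h
      · rw [bb_eq_one h]
        have : 0 ≤ th t / th 3 := by positivity
        linarith
      · rw [le_div_iff₀ hth3]
        have h7 : th 3 ≤ th t := th_antitone h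
        have h8 := bb_nonneg t
        have h9 := bb_le_one t
        nlinarith
    have h7 : -Jth t ≤ th t / c0 := by
      rw [le_div_iff₀ hc0]; linarith
    have h8 : (a - Jth t) ^ 2 - a ^ 2 * bb t = (-Jth t) * (2 * a - Jth t) + a ^ 2 * (1 - bb t) := by
      ring
    have h9 : 0 ≤ 1 - bb t := by linarith [bb_le_one t]
    have h10 : 0 ≤ (a - Jth t) ^ 2 - a ^ 2 * bb t := by
      rw [h8]
      have : 0 ≤ -Jth t := by linarith
      have : 0 ≤ 2 * a - Jth t := by linarith
      positivity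
    have h11 : (a - Jth t) ^ 2 - a ^ 2 * bb t ≤ C * th t := by
      rw [h8]
      have e1 : (-Jth t) * (2 * a - Jth t) ≤ (th t / c0) * (2 * a + 4) := by
        apply mul_le_mul h7 (by linarith) (by linarith) (by positivity)
      have e2 : a ^ 2 * (1 - bb t) ≤ a ^ 2 * (th t / th 3) := by gcongr
      have e3 : C * th t = (th t / c0) * (2 * a + 4) + a ^ 2 * (th t / th 3) := by
        rw [hC]; ring
      linarith
    calc ((a - Jth t) ^ 2 - a ^ 2 * bb t) ^ 2 ≤ (C * th t) ^ 2 := by gcongr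
      _ = C ^ 2 * (th t * th t) := by ring
      _ ≤ C ^ 2 * (th t * 1) := by gcongr
      _ = _ := by ring
  have hM2 : 0 ≤ C ^ 2 := by positivity
  -- choice of K
  obtain ⟨K, k1, k2, k3, k4, k5, k6, k7, k8⟩ : ∃ K : ℝ, a ≤ K ∧ 2 * M / a ≤ K ∧
      M / (a * c0 * c1) ≤ K ∧ (77 + 30 * M + 140 * (a + 4)) / (2 * c1) ≤ K ∧
      M / (c4 * a) ≤ K ∧ (128 + 32 * M + 192 * (a + 4)) / c0 ≤ K ∧
      (1 + M + 2 * a) / (2 * c4) ≤ K ∧ M + 3 * C ^ 2 ≤ K :=
    ((eventually_ge_atTop _).and ((eventually_ge_atTop _).and ((eventually_ge_atTop _).and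
      ((eventually_ge_atTop _).and ((eventually_ge_atTop _).and ((eventually_ge_atTop _).and
      ((eventually_ge_atTop _).and (eventually_ge_atTop _)))))))).exists
  refine ⟨⟨a, K, c0, c1, c4, M, C ^ 2, ha, hc0, hc1, hc4, hM, hM2, hq, hr, hrho, ?_, ?_, hG, k1,
    ha8, ?_, ?_, ?_, ?_, ?_, ?_, k8⟩⟩
  · intro t
    have h1 := (hb t).1
    have : (a ^ 2 * bb1 t) ^ 2 = a ^ 4 * bb1 t ^ 2 := by ring
    rw [this, hM_def, mul_assoc]
    gcongr
  · intro t
    have h1 := (hb t).2
    have : (a ^ 2 * deriv bb1 t) ^ 2 = a ^ 4 * deriv bb1 t ^ 2 := by ring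
    rw [this, hM_def, mul_assoc]
    gcongr
  · rw [div_le_iff₀ ha0] at k2; linarith
  · rw [div_le_iff₀ (by positivity)] at k3; linarith
  · rw [div_le_iff₀ (by positivity)] at k4; linarith
  · rw [div_le_iff₀ (by positivity)] at k5; linarith
  · rw [div_le_iff₀ (by positivity)] at k6; linarith
  · rw [div_le_iff₀ (by positivity)] at k7; linarith

namespace Consts

variable (c : Consts)

noncomputable def A (t : ℝ) : ℝ := c.K + Jrho t
noncomputable def E (t : ℝ) : ℝ := c.a - Jth t
noncomputable def P (t : ℝ) : ℝ := c.A t ^ 2 + c.a ^ 2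
noncomputable def B (t : ℝ) : ℝ := c.a ^ 2 * bb t
noncomputable def D (t : ℝ) : ℝ := c.E t ^ 2
noncomputable def P1 (t : ℝ) : ℝ := 2 * c.A t * rho t
noncomputable def B1 (t : ℝ) : ℝ := c.a ^ 2 * bb1 t
noncomputable def D1 (t : ℝ) : ℝ := -(2 * c.E t * th t)
noncomputable def P2 (t : ℝ) : ℝ := 2 * rho t ^ 2 + 2 * c.A t * rr t
noncomputable def B2 (t : ℝ) : ℝ := c.a ^ 2 * deriv bb1 t
noncomputable def D2 (t : ℝ) : ℝ := 2 * th t ^ 2 + 2 * c.E t * qq t

theorem a_pos : 0 < c.a := lt_of_lt_of_le one_pos c.ha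
theorem K_pos : 0 < c.K := c.a_pos.trans_le c.haK
theorem K_le_A (t : ℝ) : c.K ≤ c.A t := by
  have := Jrho_nonneg t; unfold A; linarith
theorem A_pos (t : ℝ) : 0 < c.A t := c.K_pos.trans_le (c.K_le_A t)
theorem a_le_E (t : ℝ) : c.a ≤ c.E t := by
  have := Jth_nonpos t; unfold E; linarith
theorem E_pos (t : ℝ) : 0 < c.E t := c.a_pos.trans_le (c.a_le_E t)
theorem E_le {t : ℝ} (ht : 0 ≤ t) : c.E t ≤ c.a + 4 := by
  have := Jth_lower ht; unfold E; linarith

theorem hasDerivAt_A (t : ℝ) : HasDerivAt c.A (rho t) t :=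
  (hasDerivAt_Jrho t).const_add c.K
theorem hasDerivAt_E (t : ℝ) : HasDerivAt c.E (-(th t)) t :=
  (hasDerivAt_Jth t).const_sub c.a

theorem contDiff_A : ContDiff ℝ ∞ c.A := contDiff_const.add contDiff_Jrho
theorem contDiff_E : ContDiff ℝ ∞ c.E := contDiff_const.sub contDiff_Jth
theorem contDiff_P : ContDiff ℝ ∞ c.P := (c.contDiff_A.pow 2).add contDiff_const
theorem contDiff_B : ContDiff ℝ ∞ c.B := contDiff_const.mul contDiff_bb
theorem contDiff_D : ContDiff ℝ ∞ c.D := c.contDiff_E.pow 2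

theorem det_ge (t : ℝ) : c.A t ^ 2 * c.E t ^ 2 ≤ c.P t * c.D t - c.B t ^ 2 := by
  unfold P B D
  have h1 := bb_nonneg t
  have h2 := bb_le_one t
  have h3 := c.a_le_E t
  have h4 := c.a_pos
  have h5 : (c.a ^ 2 * bb t) ^ 2 ≤ (c.a ^ 2 * 1) ^ 2 := by gcongr
  have h6 : c.a ^ 2 * c.a ^ 2 ≤ c.a ^ 2 * c.E t ^ 2 := by gcongr
  linarith only [h5, h6]

theorem qd : QD c.P c.B c.D c.P1 c.B1 c.D1 c.P2 c.B2 c.D2 where
  hP t := by
    have h := ((c.hasDerivAt_A t).pow 2).add_const (c.a ^ 2)
    refine HasDerivAt.congr_deriv h ?_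
    unfold P1; push_cast; ring
  hB t := (hasDerivAt_bb t).const_mul (c.a ^ 2)
  hD t := by
    have h := ((c.hasDerivAt_E t).pow 2)
    refine HasDerivAt.congr_deriv h ?_
    unfold D1; push_cast; ring
  hP1 t := by
    have h := (((c.hasDerivAt_A t).const_mul 2).mul (hasDerivAt_rho t))
    refine HasDerivAt.congr_deriv h ?_
    unfold P2; ring
  hB1 t := (hasDerivAt_bb1 t).const_mul (c.a ^ 2)
  hD1 t := by
    have h := (((c.hasDerivAt_E t).const_mul 2).mul (hasDerivAt_th t)).neg
    refine HasDerivAt.congr_deriv h ?_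
    unfold D2; ring
  det t := by
    have h := c.det_ge t
    have h1 := c.A_pos t
    have h2 := c.E_pos t
    have : 0 < c.A t ^ 2 * c.E t ^ 2 := by positivity
    linarith

theorem P1_nonneg (t : ℝ) : 0 ≤ c.P1 t := by
  have h1 := c.A_pos t
  have h2 := rho_nonneg t
  unfold P1; positivity

theorem D1_nonpos (t : ℝ) : c.D1 t ≤ 0 := by
  have h1 := c.E_pos t
  have h2 := th_nonneg t
  have : 0 ≤ 2 * c.E t * th t := by positivity
  unfold D1; linarith

theorem coreR (t m : ℝ) (hF : 0 ≤ c.P1 t + 2 * c.B1 t * m + c.D1 t * m ^ 2) :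
    rhsR (c.P t) (c.B t) (c.D t) (c.P1 t) (c.B1 t) (c.D1 t) m ≤
      2 * (c.P t * c.D t - c.B t ^ 2) * (c.P2 t + 2 * c.B2 t * m + c.D2 t * m ^ 2) := by
  have hA := c.A_pos t
  have hE := c.E_pos t
  have ha := c.a_pos
  have h0 := rho_nonneg t
  have h0' := rho_le_one t
  have h1 := th_nonneg t
  have h1' := th_le_one t
  rcases lt_or_ge t 1 with ht | ht
  · have e1 : rho t = 0 := rho_eq_zero ht.le
    have e2 : bb1 t = 0 := bb1_eq_zero_left (by linarith)
    have e3 : deriv bb1 t = 0 := bb2_eq_zero_left (by linarith)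
    have e4 : rr t = 0 := rr_eq_zero ht.le
    have hth : 0 < th t := th_pos (by linarith)
    unfold P1 B1 D1 at hF
    rw [e1, e2] at hF
    have hm : m ^ 2 = 0 := by
      have h3 : 0 < 2 * c.E t * th t := by positivity
      have h4 : 0 ≤ m ^ 2 := sq_nonneg m
      by_contra hne
      have h5 : 0 < m ^ 2 := lt_of_le_of_ne h4 (Ne.symm hne)
      have := mul_pos h3 h5
      linarith
    have hm0 : m = 0 := by simpa using hm
    unfold P1 B1 P2 B2 rhsR
    rw [hm0, e1, e2, e3, e4]
    simp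
  rcases lt_or_ge t 2 with ht2 | ht2
  · have e2 : bb1 t = 0 := bb1_eq_zero_left (by linarith)
    have e3 : deriv bb1 t = 0 := bb2_eq_zero_left (by linarith)
    have e4 : bb t = 0 := bb_eq_zero (by linarith)
    have hB1 : c.B1 t = 0 := by unfold B1; rw [e2, mul_zero]
    have hB2 : c.B2 t = 0 := by unfold B2; rw [e3, mul_zero]
    have hB : c.B t = 0 := by unfold B; rw [e4, mul_zero]
    rw [hB1] at hF ⊢
    rw [hB2, hB]
    refine zone2_R c.K_pos ha c.hc0 (c.K_le_A t) (c.a_le_E t) h0 h0' h1 h1' (rr_nonneg t)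
      (c.q_le t ht) ?_ ?_ ?_
    · linarith [c.ha8]
    · linarith [c.hK5, c.hM, c.ha]
    · unfold P1 D1 at hF; linarith
  rcases lt_or_ge t 4 with ht4 | ht4
  · refine zone3_R c.ha c.hc0 c.hc1 c.hM c.haK (c.K_le_A t) (c.a_le_E t)
      (c.E_le (by linarith)) h0 h0' h1 h1' (c.r_ge t ht2 ht4.le) (c.q_le t ht) ?_ (c.b1_le t)
      (c.b2_le t) c.ha8 c.hK2 c.hK3 c.hK4 ?_
    · unfold B
      rw [abs_mul, abs_of_nonneg (by positivity : (0:ℝ) ≤ c.a ^ 2), abs_of_nonneg (bb_nonneg t)]
      exact mul_le_of_le_one_right (by positivity) (bb_le_one t)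
    · unfold P1 B1 D1 at hF; exact hF
  · have e1 : th t = 0 := th_eq_zero ht4
    have e2 : bb1 t = 0 := bb1_eq_zero_right (by linarith)
    have e3 : deriv bb1 t = 0 := bb2_eq_zero_right (by linarith)
    have e4 : qq t = 0 := qq_eq_zero ht4
    have e5 : bb t = 1 := bb_eq_one (by linarith)
    have e6 : c.E t = c.a := by unfold E; rw [Jth_right ht4, sub_zero]
    have hr := rr_nonneg t
    unfold rhsR P1 B1 D1 P2 B2 D2 P B D
    rw [e1, e2, e3, e4, e5, e6]
    have key : 0 ≤ 4 * c.A t ^ 2 * c.a ^ 2 * (c.A t * rr t) := by positivity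
    linarith only [key]

theorem coreL (t n : ℝ) (hF : c.P1 t * n ^ 2 + 2 * c.B1 t * n + c.D1 t ≤ 0) :
    rhsL (c.P t) (c.B t) (c.D t) (c.P1 t) (c.B1 t) (c.D1 t) n ≤
      2 * (c.P t * c.D t - c.B t ^ 2) * (c.P2 t * n ^ 2 + 2 * c.B2 t * n + c.D2 t) := by
  have hA := c.A_pos t
  have hE := c.E_pos t
  have ha := c.a_pos
  have h0 := rho_nonneg t
  have h0' := rho_le_one t
  have h1 := th_nonneg t
  have h1' := th_le_one t
  rcases lt_or_ge t 1 with ht | ht
  · have e1 : rho t = 0 := rho_eq_zero ht.le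
    have e2 : bb1 t = 0 := bb1_eq_zero_left (by linarith)
    have e3 : deriv bb1 t = 0 := bb2_eq_zero_left (by linarith)
    have e4 : rr t = 0 := rr_eq_zero ht.le
    have e5 : bb t = 0 := bb_eq_zero (by linarith)
    have hq := qq_nonneg t
    unfold rhsL P1 B1 D1 P2 B2 D2 P B D
    rw [e1, e2, e3, e4, e5]
    have key : 0 ≤ 4 * (c.A t ^ 2 + c.a ^ 2) * c.E t ^ 2 * (c.E t * qq t) := by positivity
    linarith only [key]
  rcases lt_or_ge t 2 with ht2 | ht2
  · have e2 : bb1 t = 0 := bb1_eq_zero_left (by linarith)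
    have e3 : deriv bb1 t = 0 := bb2_eq_zero_left (by linarith)
    have e4 : bb t = 0 := bb_eq_zero (by linarith)
    have hB1 : c.B1 t = 0 := by unfold B1; rw [e2, mul_zero]
    have hB2 : c.B2 t = 0 := by unfold B2; rw [e3, mul_zero]
    have hB : c.B t = 0 := by unfold B; rw [e4, mul_zero]
    rw [hB1] at hF ⊢
    rw [hB2, hB]
    refine zone2_L c.K_pos ha c.hc0 (c.K_le_A t) (c.a_le_E t) h0 h0' h1 h1' (rr_nonneg t)
      (c.q_le t ht) ?_ ?_ ?_
    · linarith [c.ha8]
    · linarith [c.hK5, c.hM, c.ha]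
    · unfold P1 D1 at hF; linarith
  rcases lt_or_ge t 4 with ht4 | ht4
  · refine zone3_L c.ha c.hc0 c.hc1 c.hc4 c.hM c.haK (c.K_le_A t) (c.a_le_E t)
      (c.E_le (by linarith)) (c.rho_ge t ht2) h0' h1 h1' (c.r_ge t ht2 ht4.le) (c.q_le t ht) ?_
      (c.b1_le t) (c.b2_le t) c.ha8 c.hK2' c.hK3 c.hK5 ?_
    · unfold B
      rw [abs_mul, abs_of_nonneg (by positivity : (0:ℝ) ≤ c.a ^ 2), abs_of_nonneg (bb_nonneg t)]
      exact mul_le_of_le_one_right (by positivity) (bb_le_one t)
    · unfold P1 B1 D1 at hF; exact hF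
  · have e1 : th t = 0 := th_eq_zero ht4
    have e2 : bb1 t = 0 := bb1_eq_zero_right (by linarith)
    have e3 : deriv bb1 t = 0 := bb2_eq_zero_right (by linarith)
    have e4 : qq t = 0 := qq_eq_zero ht4
    have hrho : 0 < rho t := rho_pos (by linarith)
    unfold P1 B1 D1 at hF
    rw [e1, e2] at hF
    have hn : n ^ 2 = 0 := by
      have h3 : 0 < 2 * c.A t * rho t := by positivity
      have h4 : 0 ≤ n ^ 2 := sq_nonneg n
      by_contra hne
      have h5 : 0 < n ^ 2 := lt_of_le_of_ne h4 (Ne.symm hne)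
      have := mul_pos h3 h5
      linarith
    have hn0 : n = 0 := by simpa using hn
    unfold rhsL B1 D1 B2 D2
    rw [hn0, e1, e2, e3, e4]
    simp

theorem mom1 (t p q : ℝ) : p = c.P t * (colA c.P c.B c.D t * p + colB c.P c.B c.D t * q) +
    c.B t * (colB c.P c.B c.D t * p + colC c.P c.B c.D t * q) := by
  have hd := (c.qd.det t).ne'
  have e : c.P t * (colA c.P c.B c.D t * p + colB c.P c.B c.D t * q) +
    c.B t * (colB c.P c.B c.D t * p + colC c.P c.B c.D t * q) =
      (c.P t * c.D t - c.B t ^ 2) * p / (c.P t * c.D t - c.B t ^ 2) := by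
    unfold colA colB colC
    ring
  rw [e, mul_div_cancel_left₀ _ hd]

theorem mom2 (t p q : ℝ) : q = c.B t * (colA c.P c.B c.D t * p + colB c.P c.B c.D t * q) +
    c.D t * (colB c.P c.B c.D t * p + colC c.P c.B c.D t * q) := by
  have hd := (c.qd.det t).ne'
  have e : c.B t * (colA c.P c.B c.D t * p + colB c.P c.B c.D t * q) +
    c.D t * (colB c.P c.B c.D t * p + colC c.P c.B c.D t * q) =
      (c.P t * c.D t - c.B t ^ 2) * q / (c.P t * c.D t - c.B t ^ 2) := by
    unfold colA colB colC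
    ring
  rw [e, mul_div_cancel_left₀ _ hd]

theorem cR_nonneg (t p q : ℝ) (hV : colV1 c.P c.B c.D t p q ≤ 0)
    (hX : colA c.P c.B c.D t * p + colB c.P c.B c.D t * q ≠ 0) :
    0 ≤ cR (colA c.P c.B c.D t) (colB c.P c.B c.D t) (colC c.P c.B c.D t)
      (deriv (colA c.P c.B c.D) t) (deriv (colB c.P c.B c.D) t) (deriv (colC c.P c.B c.D) t)
      (deriv (deriv (colA c.P c.B c.D)) t) (deriv (deriv (colB c.P c.B c.D)) t)
      (deriv (deriv (colC c.P c.B c.D)) t) p q := by
  rw [c.qd.V1_eq] at hV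
  rw [c.qd.cR_eq t p q _ _ rfl rfl hX]
  have hdet := c.qd.det t
  generalize colA c.P c.B c.D t * p + colB c.P c.B c.D t * q = X at *
  generalize colB c.P c.B c.D t * p + colC c.P c.B c.D t * q = Y at *
  apply mul_nonneg (by positivity)
  rw [sub_nonneg]
  apply c.coreR
  have hX2 : 0 < X ^ 2 := by positivity
  have e : c.P1 t + 2 * c.B1 t * (Y / X) + c.D1 t * (Y / X) ^ 2 =
      (c.P1 t * X ^ 2 + 2 * c.B1 t * X * Y + c.D1 t * Y ^ 2) / X ^ 2 := by
    field_simp
  rw [e]
  apply div_nonneg _ hX2.le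
  linarith

theorem cL_nonneg (t p q : ℝ) (hV : 0 ≤ colV1 c.P c.B c.D t p q)
    (hY : colB c.P c.B c.D t * p + colC c.P c.B c.D t * q ≠ 0) :
    0 ≤ cR (colC c.P c.B c.D t) (colB c.P c.B c.D t) (colA c.P c.B c.D t)
      (deriv (colC c.P c.B c.D) t) (deriv (colB c.P c.B c.D) t) (deriv (colA c.P c.B c.D) t)
      (deriv (deriv (colC c.P c.B c.D)) t) (deriv (deriv (colB c.P c.B c.D)) t)
      (deriv (deriv (colA c.P c.B c.D)) t) q p := by
  rw [c.qd.V1_eq] at hV
  rw [c.qd.cL_eq t p q _ _ rfl rfl hY]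
  have hdet := c.qd.det t
  generalize colA c.P c.B c.D t * p + colB c.P c.B c.D t * q = X at *
  generalize colB c.P c.B c.D t * p + colC c.P c.B c.D t * q = Y at *
  apply mul_nonneg (by positivity)
  rw [sub_nonneg]
  apply c.coreL
  have hY2 : 0 < Y ^ 2 := by positivity
  have e : c.P1 t * (X / Y) ^ 2 + 2 * c.B1 t * (X / Y) + c.D1 t =
      (c.P1 t * X ^ 2 + 2 * c.B1 t * X * Y + c.D1 t * Y ^ 2) / Y ^ 2 := by
    field_simp
  rw [e]
  apply div_nonpos_of_nonpos_of_nonneg _ hY2.le
  linarith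

theorem monoX (t : ℝ) : deriv (colA c.P c.B c.D) t ≤ 0 := by
  have h := c.qd.V1_eq t 1 0
  unfold colV1 qf at h
  have h' : deriv (colA c.P c.B c.D) t =
    -(c.P1 t * (colA c.P c.B c.D t) ^ 2 +
        2 * c.B1 t * (colA c.P c.B c.D t) * (colB c.P c.B c.D t) +
        c.D1 t * (colB c.P c.B c.D t) ^ 2) := by
    simpa using h
  rw [h']
  have hdet := c.qd.det t
  have e : c.P1 t * (colA c.P c.B c.D t) ^ 2 +
        2 * c.B1 t * (colA c.P c.B c.D t) * (colB c.P c.B c.D t) +
        c.D1 t * (colB c.P c.B c.D t) ^ 2 =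
      (c.P1 t * c.D t ^ 2 - 2 * c.B1 t * c.B t * c.D t + c.D1 t * c.B t ^ 2) /
        (c.P t * c.D t - c.B t ^ 2) ^ 2 := by
    unfold colA colB
    generalize c.P t * c.D t - c.B t ^ 2 = Δ at hdet
    have := hdet.ne'
    field_simp
    ring
  rw [e, neg_nonpos]
  apply div_nonneg _ (by positivity)
  have hA := c.A_pos t
  have hE := c.E_pos t
  have ha := c.a_pos
  rcases le_total t 2 with ht | ht
  · have e4 : bb t = 0 := bb_eq_zero ht
    have hB : c.B t = 0 := by unfold B; rw [e4, mul_zero]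
    rw [hB]
    have := c.P1_nonneg t
    have : 0 ≤ c.P1 t * c.D t ^ 2 := by positivity
    linarith
  · have h1 := th_nonneg t
    have h1' := th_le_one t
    have hb0 := bb_nonneg t
    have hb1 := bb_le_one t
    have haE := c.a_le_E t
    have hM := c.hM
    have hB1 : 2 * |c.B1 t| ≤ 1 + c.M := by
      apply two_abs_le zero_le_one c.hM
      have h2 := c.b1_le t
      have h3 : c.M * th t ≤ c.M := mul_le_of_le_one_right c.hM h1'
      unfold B1
      linarith
    have hBa : c.B t ≤ c.a ^ 2 := mul_le_of_le_one_right (by positivity) hb1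
    have hB0 : 0 ≤ c.B t := by unfold B; positivity
    have hrho := c.rho_ge t ht
    have hKA := c.K_le_A t
    have hK := c.K_pos
    have hc4 := c.hc4
    have s1 : 2 * c.K * c.c4 * c.E t ^ 4 ≤ c.P1 t * c.D t ^ 2 := by
      have : c.K * c.c4 ≤ c.A t * rho t := by gcongr
      have e1 : c.P1 t * c.D t ^ 2 = 2 * (c.A t * rho t) * c.E t ^ 4 := by unfold P1 D; ring
      rw [e1]
      calc 2 * c.K * c.c4 * c.E t ^ 4 = 2 * (c.K * c.c4) * c.E t ^ 4 := by ring
        _ ≤ _ := by gcongr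
    have s2 : 2 * c.B1 t * c.B t * c.D t ≤ (1 + c.M) * c.E t ^ 4 := by
      calc 2 * c.B1 t * c.B t * c.D t ≤ (2 * |c.B1 t|) * c.B t * c.D t := by
            have := le_abs_self (c.B1 t)
            have hD : 0 ≤ c.D t := by unfold D; positivity
            gcongr
        _ ≤ (1 + c.M) * c.a ^ 2 * c.E t ^ 2 := by unfold D; gcongr
        _ ≤ (1 + c.M) * c.E t ^ 2 * c.E t ^ 2 := by gcongr
        _ = _ := by ring
    have s3 : -(c.D1 t * c.B t ^ 2) ≤ 2 * c.a * c.E t ^ 4 := by
      have e1 : -(c.D1 t * c.B t ^ 2) = 2 * c.E t * th t * c.B t ^ 2 := by unfold D1; ring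
      rw [e1]
      calc 2 * c.E t * th t * c.B t ^ 2 ≤ 2 * c.E t * 1 * (c.a ^ 2) ^ 2 := by gcongr
        _ = 2 * c.a * (c.E t * c.a ^ 3) := by ring
        _ ≤ 2 * c.a * (c.E t * c.E t ^ 3) := by gcongr
        _ = _ := by ring
    have s4 : (1 + c.M + 2 * c.a) * c.E t ^ 4 ≤ 2 * c.K * c.c4 * c.E t ^ 4 := by
      have := c.hK6
      gcongr
    linarith only [s1, s2, s3, s4]

theorem monoY (t : ℝ) : 0 ≤ colV1 c.P c.B c.D t 1 1 := by
  rw [c.qd.V1_eq]
  have hdet := c.qd.det t
  have e : c.P1 t * (colA c.P c.B c.D t * 1 + colB c.P c.B c.D t * 1) ^ 2 +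
        2 * c.B1 t * (colA c.P c.B c.D t * 1 + colB c.P c.B c.D t * 1) *
          (colB c.P c.B c.D t * 1 + colC c.P c.B c.D t * 1) +
        c.D1 t * (colB c.P c.B c.D t * 1 + colC c.P c.B c.D t * 1) ^ 2 =
      (c.P1 t * (c.D t - c.B t) ^ 2 + 2 * c.B1 t * (c.D t - c.B t) * (c.P t - c.B t) +
        c.D1 t * (c.P t - c.B t) ^ 2) / (c.P t * c.D t - c.B t ^ 2) ^ 2 := by
    unfold colA colB colC
    generalize c.P t * c.D t - c.B t ^ 2 = Δ at hdet
    have := hdet.ne'
    field_simp
    ring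
  rw [e, neg_nonneg]
  apply div_nonpos_of_nonpos_of_nonneg _ (by positivity)
  have hA := c.A_pos t
  have hE := c.E_pos t
  have ha := c.a_pos
  rcases lt_or_ge t 1 with ht | ht
  · have e1 : rho t = 0 := rho_eq_zero ht.le
    have e2 : bb1 t = 0 := bb1_eq_zero_left (by linarith)
    have hP1 : c.P1 t = 0 := by unfold P1; rw [e1, mul_zero]
    have hB1 : c.B1 t = 0 := by unfold B1; rw [e2, mul_zero]
    rw [hP1, hB1]
    have h1 := c.D1_nonpos t
    have h2 := mul_nonneg (neg_nonneg.2 h1) (sq_nonneg (c.P t - c.B t))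
    linarith
  · have hth := th_nonneg t
    have hM2 := c.hM2
    have hM := c.hM
    have hG := c.g_le t ht
    have hGe : (c.a - Jth t) ^ 2 - c.a ^ 2 * bb t = c.D t - c.B t := rfl
    rw [hGe] at hG
    have hBb := c.b1_le t
    have hBe : c.a ^ 2 * bb1 t = c.B1 t := rfl
    rw [hBe] at hBb
    have hH : c.A t ^ 2 ≤ c.P t - c.B t := by
      have hb1 := bb_le_one t
      have : c.a ^ 2 * bb t ≤ c.a ^ 2 := mul_le_of_le_one_right (by positivity) hb1
      unfold P B
      linarith
    have hA1 : 1 ≤ c.A t := c.ha.trans (c.haK.trans (c.K_le_A t))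
    have hE1 : 1 ≤ c.E t := c.ha.trans (c.a_le_E t)
    have hAH : c.A t ≤ c.P t - c.B t := by
      refine le_trans ?_ hH
      rw [sq]; exact le_mul_of_one_le_left hA.le hA1
    have hP1 : c.P1 t ≤ 2 * c.A t := by
      unfold P1; exact mul_le_of_le_one_right (by positivity) (rho_le_one t)
    have hP10 := c.P1_nonneg t
    have hD1 : c.D1 t = -(2 * c.E t * th t) := rfl
    have hKA := c.K_le_A t
    have hK7 := c.hK7
    rw [hD1]
    generalize c.D t - c.B t = G at *
    generalize c.P t - c.B t = H at *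
    have hH0 : 0 < H := hA.trans_le hAH
    have s1 : c.P1 t * G ^ 2 ≤ 2 * H * (c.M2 * th t) := by
      calc c.P1 t * G ^ 2 ≤ (2 * c.A t) * (c.M2 * th t) := by gcongr
        _ ≤ _ := by gcongr
    have s2 : 2 * c.B1 t * G * H ≤ (c.M + c.M2) * th t * H := by
      have h3 : 2 * c.B1 t * G ≤ c.B1 t ^ 2 + G ^ 2 := by
        have := sq_nonneg (c.B1 t - G)
        linarith only [this]
      have h4 : 2 * c.B1 t * G ≤ (c.M + c.M2) * th t := by linarith only [h3, hG, hBb]
      gcongr
    have s3 : (c.M + 3 * c.M2) * (th t * H) ≤ 2 * c.E t * th t * H ^ 2 := by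
      have h5 : c.M + 3 * c.M2 ≤ 2 * c.E t * H := by
        calc c.M + 3 * c.M2 ≤ c.K := hK7
          _ ≤ H := hKA.trans hAH
          _ ≤ 2 * c.E t * H := le_mul_of_one_le_left hH0.le (by linarith only [hE1])
      calc (c.M + 3 * c.M2) * (th t * H) ≤ (2 * c.E t * H) * (th t * H) := by gcongr
        _ = _ := by ring
    linarith only [s1, s2, s3]

end Consts

end Col

open Col in
/-- **Existence of collar data** (package COL, final statement). -/
theorem exists_collarData : Nonempty CollarData := by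
  obtain ⟨c⟩ := exists_consts
  have hdet := c.qd.det
  refine ⟨{ P := c.P, B := c.B, D := c.D, tL := 0, t0 := 1, t1 := 4, tR := 5
            c1 := c.E 0, c2 := c.A 5 - 5, Φ0 := Real.sqrt (c.K ^ 2 + c.a ^ 2), R0 := c.a
            smooth_P := c.contDiff_P, smooth_B := c.contDiff_B, smooth_D := c.contDiff_D
            P_pos := ?_, D_pos := ?_, det_pos := hdet
            tL_lt_t0 := by norm_num, t0_lt_t1 := by norm_num, t1_lt_tR := by norm_num
            Φ0_pos := ?_, R0_pos := c.a_pos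
            c1_pos := ?_, c2_pos := ?_
            left_P := ?_, left_B := ?_, left_D := ?_
            right_D := ?_, right_B := ?_, right_P := ?_
            condR := ?_, condL := ?_, condZ := ?_, neX := ?_, neY := ?_
            monoX := c.monoX, monoY := c.monoY }⟩
  · intro t
    have h1 := c.A_pos t
    have h2 := c.a_pos
    show 0 < c.A t ^ 2 + c.a ^ 2
    positivity
  · intro t
    have h1 := c.E_pos t
    show 0 < c.E t ^ 2
    positivity
  · have := c.a_pos
    apply Real.sqrt_pos.2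
    positivity
  · have := c.E_pos 0
    linarith
  · have := c.A_pos 5
    linarith
  · intro t ht
    show c.A t ^ 2 + c.a ^ 2 = _
    have e : c.A t = c.K := by unfold Consts.A; rw [Jrho_left ht, add_zero]
    have := c.a_pos
    rw [e, Real.sq_sqrt (by positivity)]
  · intro t ht
    show c.a ^ 2 * bb t = 0
    rw [bb_eq_zero (by linarith), mul_zero]
  · intro t ht
    show c.E t ^ 2 = _
    have e : c.E t = c.E 0 - t := by unfold Consts.E; rw [Jth_left ht]; ring
    rw [e]
  · intro t ht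
    show c.E t ^ 2 = _
    have e : c.E t = c.a := by unfold Consts.E; rw [Jth_right ht, sub_zero]
    rw [e]
  · intro t ht
    show c.a ^ 2 * bb t = _
    rw [bb_eq_one (by linarith), mul_one]
  · intro t ht
    show c.A t ^ 2 + c.a ^ 2 = _
    have e : c.A t = t + (c.A 5 - 5) := by unfold Consts.A; rw [Jrho_right ht]; ring
    rw [e]
  · intro t p q hV
    have hX : colA c.P c.B c.D t * p + colB c.P c.B c.D t * q ≠ 0 := by
      intro h0
      rw [c.qd.V1_eq, h0] at hV
      have h1 := mul_nonneg (neg_nonneg.2 (c.D1_nonpos t))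
        (sq_nonneg (colB c.P c.B c.D t * p + colC c.P c.B c.D t * q))
      linarith
    exact ⟨hX, c.cR_nonneg t p q hV.le hX⟩
  · intro t p q hV
    have hY : colB c.P c.B c.D t * p + colC c.P c.B c.D t * q ≠ 0 := by
      intro h0
      rw [c.qd.V1_eq, h0] at hV
      have h1 := mul_nonneg (c.P1_nonneg t)
        (sq_nonneg (colA c.P c.B c.D t * p + colB c.P c.B c.D t * q))
      linarith
    exact ⟨hY, c.cL_nonneg t p q hV.le hY⟩
  · intro t p q hV
    by_cases hX : colA c.P c.B c.D t * p + colB c.P c.B c.D t * q = 0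
    · by_cases hY : colB c.P c.B c.D t * p + colC c.P c.B c.D t * q = 0
      · rw [c.qd.V2_eq t p q _ _ rfl rfl, hX, hY]
        simp
      · have h := c.cL_nonneg t p q hV.ge hY
        have hq1 : ∀ a b c : ℝ, qf c b a q p = qf a b c p q := by
          intro a b c; unfold qf; ring
        unfold colV1 at hV
        unfold cR at h
        rw [hq1, hq1, hV] at h
        unfold colV2
        simp only [zero_mul, zero_div, add_zero, ne_eq, OfNat.ofNat_ne_zero, not_false_eq_true,
          zero_pow, sub_zero] at h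
        linarith
    · have h := c.cR_nonneg t p q hV.le hX
      unfold colV1 at hV
      unfold cR at h
      rw [hV] at h
      unfold colV2
      simp only [zero_mul, zero_div, add_zero, ne_eq, OfNat.ofNat_ne_zero, not_false_eq_true,
        zero_pow, sub_zero] at h
      linarith
  · intro t p q hpq hV
    by_contra hcon
    push Not at hcon
    obtain ⟨hX, hcon⟩ := hcon
    have hp := c.mom1 t p q
    have hq := c.mom2 t p q
    rw [hX, mul_zero, zero_add] at hp hq
    rw [c.qd.V1_eq, hX] at hV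
    generalize colB c.P c.B c.D t * p + colC c.P c.B c.D t * q = Y at *
    have hY : Y ≠ 0 := by
      rintro rfl
      rcases hpq with h | h
      · exact h (by rw [hp]; ring)
      · exact h (by rw [hq]; ring)
    have hY2 : 0 < Y ^ 2 := by positivity
    have ht : 4 ≤ t := by
      by_contra hlt
      push Not at hlt
      have h1 := th_pos hlt
      have h2 := c.E_pos t
      have h3 : 0 < 2 * c.E t * th t * Y ^ 2 := by positivity
      have h4 : c.D1 t = -(2 * c.E t * th t) := rfl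
      rw [h4] at hV
      linarith
    have e1 : c.E t = c.a := by unfold Consts.E; rw [Jth_right ht, sub_zero]
    have e2 : bb t = 1 := bb_eq_one (by linarith)
    have hne := hcon ?_
    · linarith
    · rw [hp, hq]
      unfold Consts.B Consts.D
      rw [e1, e2]
      ring
  · intro t p q hpq hV
    by_contra hcon
    push Not at hcon
    obtain ⟨hY, hcon⟩ := hcon
    have hp := c.mom1 t p q
    have hq := c.mom2 t p q
    rw [hY, mul_zero, add_zero] at hp hq
    rw [c.qd.V1_eq, hY] at hV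
    generalize colA c.P c.B c.D t * p + colB c.P c.B c.D t * q = X at *
    have hX : X ≠ 0 := by
      rintro rfl
      rcases hpq with h | h
      · exact h (by rw [hp]; ring)
      · exact h (by rw [hq]; ring)
    have hX2 : 0 < X ^ 2 := by positivity
    have ht : t ≤ 1 := by
      by_contra hlt
      push Not at hlt
      have h1 := rho_pos hlt
      have h2 := c.A_pos t
      have h3 : 0 < 2 * c.A t * rho t * X ^ 2 := by positivity
      have h4 : c.P1 t = 2 * c.A t * rho t := rfl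
      rw [h4] at hV
      linarith
    have e2 : bb t = 0 := bb_eq_zero (by linarith)
    have hne := hcon ?_
    · linarith
    · rw [hq]
      unfold Consts.B
      rw [e2]
      ring

end Crest.Agent.R244
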