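import Crest.Agent.R244.NCPLin_Mg
import Crest.Agent.R244.ManChart
import Crest.Agent.R244.ColDefs
import Crest.Agent.R244.CFLift
import Crest.Agent.R244.ChartMetric
import Mathlib
import Crest.Agent.R244.ManC

-- ▼ part R244/NCPEnd
section

/-!
# R244 (S0377), package NCP-B: locally monotone functions are monotone; the flat charts; endgame
-/

set_option autoImplicit false
set_option maxSynthPendingDepth 3

open Filter Topology Set Bundle
open scoped ContDiff Manifold

namespace Crest.Agent.R244.NCP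

open Crest.GeometryTopology.CoordMetric Crest.GeometryTopology.ChartCurvature
  Crest.GeometryTopology.Geodesic

theorem LocMono.congr {H K : ℝ → ℝ} {s0 : ℝ} (h : LocMono H s0) (he : H =ᶠ[𝓝 s0] K) :
    LocMono K s0 := by
  intro ε hε
  obtain ⟨h1, h2⟩ := h ε hε
  have h0 : H s0 = K s0 := he.self_of_nhds
  constructor
  · filter_upwards [h1, he.filter_mono nhdsWithin_le_nhds] with z hz hz'
    rw [← h0, ← hz']; exact hz
  · filter_upwards [h2, he.filter_mono nhdsWithin_le_nhds] with z hz hz'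
    rw [← h0, ← hz']; exact hz

/-- A function with nonnegative derivative at `s0` is locally monotone at `s0`. -/
theorem LocMono.of_hasDerivAt {H : ℝ → ℝ} {H' s0 : ℝ} (h : HasDerivAt H H' s0) (h' : 0 ≤ H') :
    LocMono H s0 := by
  have hg : Good False s0 H := ⟨H', h', h, fun h => h.elim⟩
  exact fun ε hε => ⟨hg.right hε, hg.left hε⟩

/-- A function which is locally monotone at every point is monotone. -/
theorem monotone_of_locMono {H : ℝ → ℝ} (h : ∀ s, LocMono H s) : Monotone H := by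
  intro a b hab
  rcases hab.eq_or_lt with rfl | hab
  · exact le_rfl
  -- it suffices to prove `H a - ε (b - a) ≤ H b` for all `ε > 0`
  suffices hs : ∀ ε > 0, H a - ε * (b - a) ≤ H b by
    have hlim : Tendsto (fun ε : ℝ => H a - ε * (b - a)) (𝓝[>] 0) (𝓝 (H a - 0 * (b - a))) := by
      apply Tendsto.mono_left _ nhdsWithin_le_nhds
      exact Continuous.tendsto (by fun_prop) 0
    have := le_of_tendsto hlim (by filter_upwards [self_mem_nhdsWithin] with ε hε using hs ε hε)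
    simpa using this
  intro ε hε
  set S : Set ℝ := {t | t ∈ Icc a b ∧ H a - ε * (t - a) ≤ H t} with hS
  have haS : a ∈ S := ⟨left_mem_Icc.2 hab.le, by simp⟩
  have hSb : BddAbove S := ⟨b, fun t ht => ht.1.2⟩
  set c : ℝ := sSup S with hc
  have hac : a ≤ c := le_csSup hSb haS
  have hcb : c ≤ b := csSup_le ⟨a, haS⟩ fun t ht => ht.1.2
  have hcS : c ∈ S := by
    refine ⟨⟨hac, hcb⟩, ?_⟩
    by_contra hcon
    have hcnot : c ∉ S := fun h => hcon h.2
    obtain ⟨-, h2⟩ := h c ε hε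
    rw [eventually_nhdsWithin_iff, Metric.eventually_nhds_iff] at h2
    obtain ⟨δ, hδ, h3⟩ := h2
    obtain ⟨z, hzS, hz⟩ := exists_lt_of_lt_csSup ⟨a, haS⟩ (show c - δ < sSup S by linarith)
    have hzc : z ≤ c := le_csSup hSb hzS
    have hzc' : z < c := lt_of_le_of_ne hzc fun h => hcnot (h ▸ hzS)
    have h4 := h3 (y := z) (by rw [Real.dist_eq, abs_lt]; constructor <;> linarith) hzc'
    have h5 := hzS.2
    apply hcon
    nlinarith
  rcases hcb.eq_or_lt with hcb | hcb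
  · rw [← hcb]; exact hcS.2
  · exfalso
    obtain ⟨h1, -⟩ := h c ε hε
    have h2 : ∀ᶠ z in 𝓝[>] c, z < b := by
      filter_upwards [Ioo_mem_nhdsGT hcb] with z hz using hz.2
    obtain ⟨z, ⟨hz1, hz2⟩, hz3⟩ := ((h1.and h2).and self_mem_nhdsWithin).exists
    have hz3' : c < z := hz3
    have : z ∈ S := by
      refine ⟨⟨by linarith, hz2.le⟩, ?_⟩
      have := hcS.2
      nlinarith
    exact absurd (le_csSup hSb this) (not_le.2 hz3')

/-- The endgame: `H` locally monotone, zero at `b`, positive right after `a < b`: impossible. -/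
theorem endgame {H : ℝ → ℝ} (hmono : ∀ s, LocMono H s) {a b : ℝ} (hab : a < b)
    (hb : H b = 0) (hpos : ∀ᶠ z in 𝓝[>] a, 0 < H z) : False := by
  have hM := monotone_of_locMono hmono
  have h2 : ∀ᶠ z in 𝓝[>] a, z < b := by
    filter_upwards [Ioo_mem_nhdsGT hab] with z hz using hz.2
  obtain ⟨z, hz1, hz2⟩ := (hpos.and h2).exists
  have := hM hz2.le
  linarith

/-! ### flat charts -/

section Flat

variable {n : ℕ}

theorem pderiv_const_field (r : ℝ) (z : EuclideanSpace ℝ (Fin n)) (i : Fin n) :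
    pderiv i (fun _ : EuclideanSpace ℝ (Fin n) => r) z = 0 := by
  unfold pderiv
  simp

theorem christoffel_const (Q : Matrix (Fin n) (Fin n) ℝ) (z : EuclideanSpace ℝ (Fin n))
    (k i j : Fin n) : christoffel (fun _ => Q) z k i j = 0 := by
  unfold christoffel
  simp [pderiv_const_field]

end Flat

/-- The bilinear form of a matrix. -/
noncomputable def matB (Q : Matrix (Fin 3) (Fin 3) ℝ) : E3 →L[ℝ] E3 →L[ℝ] ℝ :=
  ∑ i, ∑ j, Q i j • (EuclideanSpace.proj i : E3 →L[ℝ] ℝ).smulRight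
    (EuclideanSpace.proj j : E3 →L[ℝ] ℝ)

theorem matB_apply (Q : Matrix (Fin 3) (Fin 3) ℝ) (u v : E3) :
    matB Q u v = ∑ i, ∑ j, Q i j * u i * v j := by
  simp [matB, mul_assoc]

theorem flat_local {Q : Matrix (Fin 3) (Fin 3) ℝ} (hQ : Q.PosDef) {c J : ℝ → E3} {E Hf : ℝ → ℝ}
    {s₀ : ℝ} (h : ∀ᶠ s in 𝓝 s₀, EqAt (fun _ => Q) c J s)
    (hE : ∀ᶠ s in 𝓝 s₀, E s = ∑ i, ∑ j, Q i j * J s i * J s j)
    (hH : ∀ᶠ s in 𝓝 s₀, Hf s = deriv E s / 2) :
    LocMono Hf s₀ ∧ (J s₀ = 0 ∧ deriv J s₀ ≠ 0 → ∀ᶠ z in 𝓝[>] s₀, Hf s₀ < Hf z) := by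
  have hsymm : ∀ u v : E3, matB Q u v = matB Q v u := by
    intro u v
    rw [matB_apply, matB_apply, Finset.sum_comm]
    refine Finset.sum_congr rfl fun i _ => Finset.sum_congr rfl fun j _ => ?_
    have : Q j i = Q i j := by
      have := hQ.isHermitian.apply i j
      simpa using this
    rw [this]; ring
  have hpos : ∀ v : E3, v ≠ 0 → 0 < matB Q v v := by
    intro v hv
    have hv' : (v : Fin 3 → ℝ) ≠ 0 := by
      intro h0
      apply hv
      ext i
      exact congrFun h0 i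
    have h1 := hQ.dotProduct_mulVec_pos hv'
    rw [matB_apply]
    have h2 : star (v : Fin 3 → ℝ) ⬝ᵥ Q.mulVec v = ∑ i, ∑ j, Q i j * v i * v j := by
      simp only [dotProduct, Matrix.mulVec, Finset.mul_sum]
      refine Finset.sum_congr rfl fun i _ => Finset.sum_congr rfl fun j _ => ?_
      simp
      ring
    rw [h2] at h1
    exact h1
  have hJ'' : ∀ᶠ s in 𝓝 s₀, deriv (deriv J) s = 0 := by
    filter_upwards [h] with s hs
    have := hs.lin
    ext k
    have h1 := this k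
    simpa [christoffel_const, pderiv_const_field] using h1
  have hE' : ∀ᶠ s in 𝓝 s₀, HasDerivAt E (2 * matB Q (J s) (deriv J s)) s := by
    filter_upwards [h, hE.eventually_nhds] with s hs hEs
    have h1 : HasDerivAt (fun s => matB Q (J s) (J s))
        (matB Q (deriv J s) (J s) + matB Q (J s) (deriv J s)) s := by
      have := ((matB Q).hasFDerivAt.comp_hasDerivAt s hs.J1).clm_apply hs.J1
      simpa using this
    have h2 : E =ᶠ[𝓝 s] fun s => matB Q (J s) (J s) := by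
      filter_upwards [hEs] with z hz
      rw [hz, matB_apply]
    rw [hsymm (deriv J s) (J s), ← two_mul] at h1
    exact h1.congr_of_eventuallyEq h2
  have hH' : Hf =ᶠ[𝓝 s₀] fun s => matB Q (J s) (deriv J s) := by
    filter_upwards [hH, hE'] with s hs hs'
    rw [hs, hs'.deriv]
    ring
  have hs0 := h.self_of_nhds
  have hd : HasDerivAt Hf (matB Q (deriv J s₀) (deriv J s₀)) s₀ := by
    have h1 : HasDerivAt (fun s => matB Q (J s) (deriv J s))
        (matB Q (deriv J s₀) (deriv J s₀) + matB Q (J s₀) (deriv (deriv J) s₀)) s₀ := by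
      have := ((matB Q).hasFDerivAt.comp_hasDerivAt s₀ hs0.J1).clm_apply hs0.J2
      simpa using this
    rw [hJ''.self_of_nhds, map_zero, add_zero] at h1
    exact h1.congr_of_eventuallyEq hH'
  refine ⟨LocMono.of_hasDerivAt hd ?_, ?_⟩
  · rcases eq_or_ne (deriv J s₀) 0 with h0 | h0
    · rw [h0]; simp
    · exact (hpos _ h0).le
  · rintro ⟨-, h0⟩
    exact (eventually_of_deriv_pos hd (hpos _ h0)).1

/-! ### the endgame on a manifold -/

section Manifold

variable {n : ℕ} {M : Type*} [TopologicalSpace M] [ChartedSpace (EuclideanSpace ℝ (Fin n)) M]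
  [IsManifold 𝓘(ℝ, EuclideanSpace ℝ (Fin n)) ∞ M]

/-- Coordinate expression of the field `J` along `γ` in the preferred chart at `γ t₀`. -/
noncomputable def chartField (γ : ℝ → M) (J : ℝ → EuclideanSpace ℝ (Fin n)) (t₀ : ℝ) :
    ℝ → EuclideanSpace ℝ (Fin n) :=
  fun s => mfderiv 𝓘(ℝ, EuclideanSpace ℝ (Fin n)) 𝓘(ℝ, EuclideanSpace ℝ (Fin n))
    (chartAt (EuclideanSpace ℝ (Fin n)) (γ t₀)) (γ s) (J s)

/-- If along every geodesic every Jacobi field has a locally monotone function `H` vanishing at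
the zeros of `J` and increasing right after the nondegenerate zeros, and degenerate zeros force
`J = 0`, then there are no conjugate points. -/
theorem noConjugatePoints_of
    (g : ContMDiffRiemannianMetric 𝓘(ℝ, EuclideanSpace ℝ (Fin n)) ∞ (EuclideanSpace ℝ (Fin n))
      (fun x : M => TangentSpace 𝓘(ℝ, EuclideanSpace ℝ (Fin n)) x))
    (key : ∀ (γ : ℝ → M) (J : ℝ → EuclideanSpace ℝ (Fin n)), IsGeodesic g γ →
      IsJacobiField g γ J → ∃ H : ℝ → ℝ, (∀ s, LocMono H s) ∧ (∀ s, J s = 0 → H s = 0) ∧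
        ∀ s, J s = 0 → deriv (chartField γ J s) s ≠ 0 → ∀ᶠ z in 𝓝[>] s, H s < H z)
    (huniq : ∀ (γ : ℝ → M) (J : ℝ → EuclideanSpace ℝ (Fin n)), IsGeodesic g γ →
      IsJacobiField g γ J → ∀ a, J a = 0 → deriv (chartField γ J a) a = 0 → ∀ t, J t = 0) :
    NoConjugatePoints g := by
  have main : ∀ (γ : ℝ → M) (J : ℝ → EuclideanSpace ℝ (Fin n)), IsGeodesic g γ →
      IsJacobiField g γ J → ∀ a b : ℝ, a < b → J a = 0 → J b = 0 → ∀ t, J t = 0 := by
    intro γ J hγ hJ a b hab ha hb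
    by_cases hd : deriv (chartField γ J a) a = 0
    · exact huniq γ J hγ hJ a ha hd
    · exfalso
      obtain ⟨H, hH, hH0, hH1⟩ := key γ J hγ hJ
      refine endgame hH hab (hH0 b hb) ?_
      filter_upwards [hH1 a ha hd] with z hz
      rwa [hH0 a ha] at hz
  intro γ J hγ hJ a b hab ha hb
  rcases lt_or_gt_of_ne hab with h | h
  · exact main γ J hγ hJ a b h ha hb
  · exact main γ J hγ hJ b a h hb ha

end Manifold

end Crest.Agent.R244.NCP
end

-- ▼ part R244/NCPCol
section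

/-!
R244 (S0377), package NCP, part 5: local monotonicity of `H = E'/2 + K` in the collar.
-/

set_option autoImplicit false

open Filter Topology Set
open scoped ContDiff

namespace Crest.Agent.R244.NCP

open Crest.GeometryTopology.CoordMetric Crest.GeometryTopology.ChartCurvature
  Crest.GeometryTopology.Geodesic

/-- Conditions on the collar `tL < t < tR`, flat polar ends `t ≤ tL`, `tR ≤ t`. -/
structure ColCond (Qa Qb Qc A B C : ℝ → ℝ) (tL tR : ℝ) : Prop where
  tL_lt : tL < tR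
  flatL : ∀ t ≤ tL, ∃ κ > 0, FlatEnd A B C Qa Qb Qc κ t
  flatR : ∀ t, tR ≤ t → ∃ κ < 0, FlatEnd C B A Qc Qb Qa κ t
  condR : ∀ t, tL < t → t < tR → ∀ p q, qf (deriv A t) (deriv B t) (deriv C t) p q < 0 →
    A t * p + B t * q ≠ 0 ∧ 0 ≤ cR (A t) (B t) (C t) (deriv A t) (deriv B t) (deriv C t)
      (deriv (deriv A) t) (deriv (deriv B) t) (deriv (deriv C) t) p q
  condL : ∀ t, tL < t → t < tR → ∀ p q, 0 < qf (deriv A t) (deriv B t) (deriv C t) p q →
    B t * p + C t * q ≠ 0 ∧ 0 ≤ cR (C t) (B t) (A t) (deriv C t) (deriv B t) (deriv A t)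
      (deriv (deriv C) t) (deriv (deriv B) t) (deriv (deriv A) t) q p
  condZ : ∀ t, tL < t → t < tR → ∀ p q, qf (deriv A t) (deriv B t) (deriv C t) p q = 0 →
    qf (deriv (deriv A) t) (deriv (deriv B) t) (deriv (deriv C) t) p q ≤ 0
  neX : ∀ t, tL < t → t < tR → ∀ p q, (p ≠ 0 ∨ q ≠ 0) →
    qf (deriv A t) (deriv B t) (deriv C t) p q ≤ 0 → A t * p + B t * q ≠ 0 ∨
      ∀ r, 0 ≤ qf (deriv A r) (deriv B r) (deriv C r) p q
  neY : ∀ t, tL < t → t < tR → ∀ p q, (p ≠ 0 ∨ q ≠ 0) →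
    0 ≤ qf (deriv A t) (deriv B t) (deriv C t) p q → B t * p + C t * q ≠ 0 ∨
      ∀ r, qf (deriv A r) (deriv B r) (deriv C r) p q ≤ 0
  endL : ∀ p q, B tL * p + C tL * q = 0 →
    ∀ᶠ t in 𝓝[>] tL, qf (deriv A t) (deriv B t) (deriv C t) p q ≤ 0
  endR : ∀ p q, A tR * p + B tR * q = 0 →
    ∀ᶠ t in 𝓝[<] tR, 0 ≤ qf (deriv A t) (deriv B t) (deriv C t) p q

/-- Correction term in the open collar, as a function of position, velocity and Jacobi field in
collar coordinates. -/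
noncomputable def colK (Qa Qb Qc : ℝ → ℝ) (tL tR : ℝ) (x v j : E3) : ℝ :=
  if tL < x 0 ∧ x 0 < tR then
    j 0 * bf (deriv Qa (x 0)) (deriv Qb (x 0)) (deriv Qc (x 0)) (v 1) (v 2) (j 1) (j 2) -
    v 0 / 2 * qf (deriv Qa (x 0)) (deriv Qb (x 0)) (deriv Qc (x 0)) (j 1) (j 2) +
    (if 0 < qf (deriv Qa (x 0)) (deriv Qb (x 0)) (deriv Qc (x 0)) (v 1) (v 2) then
      -qf (deriv Qa (x 0)) (deriv Qb (x 0)) (deriv Qc (x 0)) (v 1) (v 2) / v 1 * (j 1 * j 0) -
      -qf (deriv Qa (x 0)) (deriv Qb (x 0)) (deriv Qc (x 0)) (v 1) (v 2) * v 0 /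
        (2 * v 1 ^ 2) * j 1 ^ 2
    else if qf (deriv Qa (x 0)) (deriv Qb (x 0)) (deriv Qc (x 0)) (v 1) (v 2) < 0 then
      -qf (deriv Qa (x 0)) (deriv Qb (x 0)) (deriv Qc (x 0)) (v 1) (v 2) / v 2 * (j 2 * j 0) -
      -qf (deriv Qa (x 0)) (deriv Qb (x 0)) (deriv Qc (x 0)) (v 1) (v 2) * v 0 /
        (2 * v 2 ^ 2) * j 2 ^ 2
    else 0)
  else 0

variable {Qa Qb Qc A B C : ℝ → ℝ} {tL tR : ℝ}

/-- `Q'(v,v) = - W'(p,p)` for `v = W p`. -/
theorem QW.qf_vel (H : QW Qa Qb Qc A B C) (r p q : ℝ) :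
    qf (deriv Qa r) (deriv Qb r) (deriv Qc r) (A r * p + B r * q) (B r * p + C r * q) =
      -qf (deriv A r) (deriv B r) (deriv C r) p q := by
  rw [H.dA, H.dB, H.dC]
  unfold qf
  ring

/-- Momentum form at a point: everything that is needed about `(c, J)` near `s₀`. -/
structure MomAt (Qa Qb Qc A B C : ℝ → ℝ) (p q dp dq : ℝ) (c J : ℝ → E3) (s : ℝ) : Prop where
  var : VarAt A B C p q dp dq (fun s => c s 0) (fun s => deriv c s 0) (fun s => J s 0)
      (fun s => deriv J s 0) (fun s => J s 1) (fun s => J s 2) s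
  v1 : deriv c s 1 = A (c s 0) * p + B (c s 0) * q
  v2 : deriv c s 2 = B (c s 0) * p + C (c s 0) * q
  w1 : deriv J s 1 = A (c s 0) * dp + B (c s 0) * dq +
      J s 0 * (deriv A (c s 0) * p + deriv B (c s 0) * q)
  w2 : deriv J s 2 = B (c s 0) * dp + C (c s 0) * dq +
      J s 0 * (deriv B (c s 0) * p + deriv C (c s 0) * q)

theorem QW.exists_mom (H : QW Qa Qb Qc A B C) {c J : ℝ → E3} {s₀ : ℝ}
    (h : ∀ᶠ s in 𝓝 s₀, EqAt (gC Qa Qb Qc) c J s) :
    ∃ p q dp dq, ∀ᶠ s in 𝓝 s₀, MomAt Qa Qb Qc A B C p q dp dq c J s := by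
  obtain ⟨ε, hε, hI⟩ := Metric.eventually_nhds_iff_ball.1 h
  have hconst : ∀ f : ℝ → ℝ, (∀ s ∈ Metric.ball s₀ ε, HasDerivAt f 0 s) →
      ∀ s ∈ Metric.ball s₀ ε, f s = f s₀ := by
    intro f hf s hs
    exact Metric.isOpen_ball.is_const_of_deriv_eq_zero (convex_ball s₀ ε).isPreconnected
      (fun x hx => (hf x hx).differentiableAt.differentiableWithinAt)
      (fun x hx => (hf x hx).deriv) hs (Metric.mem_ball_self hε)
  refine ⟨P1 Qa Qb c s₀, P1 Qb Qc c s₀, dP1 Qa Qb c J s₀, dP1 Qb Qc c J s₀, ?_⟩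
  rw [Metric.eventually_nhds_iff_ball]
  refine ⟨ε, hε, fun s hs => ?_⟩
  have h1 := hconst _ (fun s hs => (H.P_const (hI s hs)).1) s hs
  have h2 := hconst _ (fun s hs => (H.P_const (hI s hs)).2.1) s hs
  have h3 := hconst _ (fun s hs => (H.P_const (hI s hs)).2.2.1) s hs
  have h4 := hconst _ (fun s hs => (H.P_const (hI s hs)).2.2.2) s hs
  refine ⟨H.varAt (hI s hs) h1 h2 h3 h4, ?_, ?_, ?_, ?_⟩
  · rw [← h1, ← h2]; exact H.vel.1
  · rw [← h1, ← h2]; exact H.vel.2
  · rw [← h1, ← h2, ← h3, ← h4]; exact H.dvel.1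
  · rw [← h1, ← h2, ← h3, ← h4]; exact H.dvel.2

section Local

variable {p q dp dq : ℝ} {c J : ℝ → E3} {s s₀ : ℝ} {E Hf : ℝ → ℝ}

/-- The four candidate functions. -/
noncomputable def fZ (dp dq : ℝ) (J : ℝ → E3) : ℝ → ℝ :=
  hZ dp dq (fun s => J s 0) (fun s => deriv J s 0) (fun s => J s 1) (fun s => J s 2)

noncomputable def fR (A B C : ℝ → ℝ) (p q dp dq : ℝ) (c J : ℝ → E3) : ℝ → ℝ :=
  hR A B C p q dp dq (fun s => c s 0) (fun s => deriv c s 0) (fun s => J s 0)
      (fun s => deriv J s 0) (fun s => J s 1) (fun s => J s 2)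

noncomputable def fL (A B C : ℝ → ℝ) (p q dp dq : ℝ) (c J : ℝ → E3) : ℝ → ℝ :=
  hR C B A q p dq dp (fun s => c s 0) (fun s => deriv c s 0) (fun s => J s 0)
      (fun s => deriv J s 0) (fun s => J s 2) (fun s => J s 1)

noncomputable def fF (A B C Qa Qb Qc : ℝ → ℝ) (p q dp dq : ℝ) (c J : ℝ → E3) : ℝ → ℝ :=
  hF A B C Qa Qb Qc p q dp dq (fun s => c s 0) (fun s => deriv c s 0) (fun s => J s 0)
      (fun s => deriv J s 0) (fun s => J s 1) (fun s => J s 2)

/-- The value of `V_t` at `s`. -/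
noncomputable def Vt (A B C : ℝ → ℝ) (p q : ℝ) (c : ℝ → E3) (s : ℝ) : ℝ :=
  qf (deriv A (c s 0)) (deriv B (c s 0)) (deriv C (c s 0)) p q

theorem fL_eq_swap (s : ℝ) : fL A B C p q dp dq c J s =
    fZ dp dq J s + Vt A B C p q c s / (B (c s 0) * p + C (c s 0) * q) * (J s 2 * J s 0) -
    Vt A B C p q c s * deriv c s 0 / (2 * (B (c s 0) * p + C (c s 0) * q) ^ 2) * J s 2 ^ 2 := by
  unfold fL hR fZ hZ Vt
  have e1 : qf (deriv C (c s 0)) (deriv B (c s 0)) (deriv A (c s 0)) q p =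
      qf (deriv A (c s 0)) (deriv B (c s 0)) (deriv C (c s 0)) p q := by unfold qf; ring
  have e2 : C (c s 0) * q + B (c s 0) * p = B (c s 0) * p + C (c s 0) * q := by ring
  rw [e1, e2]
  ring

theorem fR_eq (s : ℝ) : fR A B C p q dp dq c J s =
    fZ dp dq J s + Vt A B C p q c s / (A (c s 0) * p + B (c s 0) * q) * (J s 1 * J s 0) -
    Vt A B C p q c s * deriv c s 0 / (2 * (A (c s 0) * p + B (c s 0) * q) ^ 2) * J s 1 ^ 2 := rfl

theorem fF_eq_swap (s : ℝ) : hF C B A Qc Qb Qa q p dq dp (fun s => c s 0)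
    (fun s => deriv c s 0) (fun s => J s 0) (fun s => deriv J s 0) (fun s => J s 2)
    (fun s => J s 1) s = fF A B C Qa Qb Qc p q dp dq c J s := by
  unfold fF hF hZ bf qf
  ring

theorem colK_zero (x v : E3) : colK Qa Qb Qc tL tR x v 0 = 0 := by
  unfold colK bf qf
  simp

theorem colK_out (h : ¬ (tL < c s 0 ∧ c s 0 < tR)) :
    colK Qa Qb Qc tL tR (c s) (deriv c s) (J s) = 0 := by
  unfold colK
  rw [if_neg h]

theorem H_in (H : QW Qa Qb Qc A B C) (m : MomAt Qa Qb Qc A B C p q dp dq c J s)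
    (hE : deriv E s = 2 * fF A B C Qa Qb Qc p q dp dq c J s)
    (hH : Hf s = deriv E s / 2 + colK Qa Qb Qc tL tR (c s) (deriv c s) (J s))
    (h : tL < c s 0 ∧ c s 0 < tR) :
    (Vt A B C p q c s < 0 → Hf s = fR A B C p q dp dq c J s) ∧
    (0 < Vt A B C p q c s → Hf s = fL A B C p q dp dq c J s) ∧
    (Vt A B C p q c s = 0 → Hf s = fZ dp dq J s) := by
  have e : qf (deriv Qa (c s 0)) (deriv Qb (c s 0)) (deriv Qc (c s 0)) (deriv c s 1)
      (deriv c s 2) = -Vt A B C p q c s := by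
    rw [m.v1, m.v2]; exact H.qf_vel _ _ _
  have hF' : fF A B C Qa Qb Qc p q dp dq c J s = fZ dp dq J s -
      J s 0 * bf (deriv Qa (c s 0)) (deriv Qb (c s 0)) (deriv Qc (c s 0)) (deriv c s 1)
        (deriv c s 2) (J s 1) (J s 2) +
      deriv c s 0 / 2 * qf (deriv Qa (c s 0)) (deriv Qb (c s 0)) (deriv Qc (c s 0))
        (J s 1) (J s 2) := by
    rw [m.v1, m.v2]; rfl
  rw [hH, hE, hF']
  unfold colK
  rw [if_pos h, e, fR_eq, fL_eq_swap, ← m.v1, ← m.v2]
  refine ⟨fun hv => ?_, fun hv => ?_, fun hv => ?_⟩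
  · rw [if_pos (by linarith)]
    ring
  · rw [if_neg (by linarith), if_pos (by linarith)]
    ring
  · rw [if_neg (by linarith), if_neg (by linarith)]
    ring

theorem P_imp (m : MomAt Qa Qb Qc A B C p q dp dq c J s₀) (hP : J s₀ = 0 ∧ deriv J s₀ ≠ 0) :
    J s₀ 0 = 0 ∧ J s₀ 1 = 0 ∧ J s₀ 2 = 0 ∧ (deriv J s₀ 0 ≠ 0 ∨ dp ≠ 0 ∨ dq ≠ 0) := by
  obtain ⟨h0, h1⟩ := hP
  have z0 : J s₀ 0 = 0 := by rw [h0]; rfl
  refine ⟨z0, by rw [h0]; rfl, by rw [h0]; rfl, ?_⟩
  by_contra hc
  push Not at hc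
  obtain ⟨hb, hp, hq⟩ := hc
  apply h1
  ext i
  fin_cases i
  · exact hb
  · have := m.w1
    rw [z0, hp, hq] at this
    simpa using this
  · have := m.w2
    rw [z0, hp, hq] at this
    simpa using this

theorem good_fR (H : QW Qa Qb Qc A B C) (m : MomAt Qa Qb Qc A B C p q dp dq c J s₀)
    (hu : A (c s₀ 0) * p + B (c s₀ 0) * q ≠ 0)
    (hc : 0 ≤ cR (A (c s₀ 0)) (B (c s₀ 0)) (C (c s₀ 0)) (deriv A (c s₀ 0)) (deriv B (c s₀ 0))
      (deriv C (c s₀ 0)) (deriv (deriv A) (c s₀ 0)) (deriv (deriv B) (c s₀ 0))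
      (deriv (deriv C) (c s₀ 0)) p q) :
    Good (J s₀ = 0 ∧ deriv J s₀ ≠ 0) s₀ (fR A B C p q dp dq c J) := by
  obtain ⟨d, hd, h1, h2⟩ := hR_good m.var (cd_diff H.sA _) (cd_diff H.sB _)
    (cd_diff (cd_deriv H.sA) _) (cd_diff (cd_deriv H.sB) _) (cd_diff (cd_deriv H.sC) _)
    hu (H.A_pos _) (H.D_pos _) hc
  refine ⟨d, hd, h1, fun hP => ?_⟩
  obtain ⟨z0, z1, z2, hne⟩ := P_imp m hP
  exact h2 z0 z1 hne

theorem QW.C_pos (H : QW Qa Qb Qc A B C) (r : ℝ) : 0 < C r := by
  have h1 := H.A_pos r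
  have h2 := H.D_pos r
  have h3 : 0 < A r * C r := by nlinarith [sq_nonneg (B r)]
  exact (mul_pos_iff_of_pos_left h1).1 h3

theorem good_fL (H : QW Qa Qb Qc A B C) (m : MomAt Qa Qb Qc A B C p q dp dq c J s₀)
    (hu : B (c s₀ 0) * p + C (c s₀ 0) * q ≠ 0)
    (hc : 0 ≤ cR (C (c s₀ 0)) (B (c s₀ 0)) (A (c s₀ 0)) (deriv C (c s₀ 0)) (deriv B (c s₀ 0))
      (deriv A (c s₀ 0)) (deriv (deriv C) (c s₀ 0)) (deriv (deriv B) (c s₀ 0))
      (deriv (deriv A) (c s₀ 0)) q p) :
    Good (J s₀ = 0 ∧ deriv J s₀ ≠ 0) s₀ (fL A B C p q dp dq c J) := by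
  have hu' : C (c s₀ 0) * q + B (c s₀ 0) * p ≠ 0 := by rwa [add_comm]
  have hD : 0 < C (c s₀ 0) * A (c s₀ 0) - B (c s₀ 0) ^ 2 := by
    have := H.D_pos (c s₀ 0); linarith
  obtain ⟨d, hd, h1, h2⟩ := hR_good m.var.swap (cd_diff H.sC _) (cd_diff H.sB _)
    (cd_diff (cd_deriv H.sC) _) (cd_diff (cd_deriv H.sB) _) (cd_diff (cd_deriv H.sA) _)
    hu' (H.C_pos _) hD hc
  refine ⟨d, hd, h1, fun hP => ?_⟩
  obtain ⟨z0, z1, z2, hne⟩ := P_imp m hP
  refine h2 z0 z2 ?_
  rcases hne with h | h | h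
  · exact Or.inl h
  · exact Or.inr (Or.inr h)
  · exact Or.inr (Or.inl h)

theorem good_fZ (H : QW Qa Qb Qc A B C) (m : MomAt Qa Qb Qc A B C p q dp dq c J s₀)
    (hc : qf (deriv (deriv A) (c s₀ 0)) (deriv (deriv B) (c s₀ 0))
      (deriv (deriv C) (c s₀ 0)) p q ≤ 0) :
    Good (J s₀ = 0 ∧ deriv J s₀ ≠ 0) s₀ (fZ dp dq J) := by
  obtain ⟨d, hd, h1, h2⟩ := hZ_good m.var (H.A_pos _) (H.D_pos _) hc
  refine ⟨d, hd, h1, fun hP => ?_⟩
  obtain ⟨z0, z1, z2, hne⟩ := P_imp m hP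
  exact h2 z0 z1 hne

theorem good_fF_left (H : QW Qa Qb Qc A B C) (m : MomAt Qa Qb Qc A B C p q dp dq c J s₀) {κ : ℝ}
    (e : FlatEnd A B C Qa Qb Qc κ (c s₀ 0)) :
    Good (J s₀ = 0 ∧ deriv J s₀ ≠ 0) s₀ (fF A B C Qa Qb Qc p q dp dq c J) := by
  have h1 := hasDerivAt_hF m.var (cd_diff H.sA _) (cd_diff H.sB _) (cd_diff H.sC _)
    (cd_diff (cd_deriv H.sa) _) (cd_diff (cd_deriv H.sb) _) (cd_diff (cd_deriv H.sc) _) e
  refine ⟨_, ?_, h1, fun hP => ?_⟩
  · have := qf_nonneg (H.A_pos (c s₀ 0)) (H.D_pos (c s₀ 0)) dp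
      (dq - 1 / 2 * κ * (deriv c s₀ 0 * J s₀ 2 - J s₀ 0 *
        (B (c s₀ 0) * p + C (c s₀ 0) * q)))
    have h2 := sq_nonneg (deriv J s₀ 0 + 1 / 2 * κ * (B (c s₀ 0) * p + C (c s₀ 0) * q) * J s₀ 2)
    exact add_nonneg h2 this
  · obtain ⟨z0, z1, z2, hne⟩ := P_imp m hP
    simp only [z0, z2, mul_zero, zero_mul, sub_zero, add_zero]
    by_cases hb : deriv J s₀ 0 = 0
    · have hdp : dp ≠ 0 ∨ dq ≠ 0 := by
        rcases hne with h | h
        · exact absurd hb h
        · exact h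
      have := qf_pos (H.A_pos (c s₀ 0)) (H.D_pos (c s₀ 0)) hdp
      have h3 := sq_nonneg (deriv J s₀ 0)
      linarith
    · have := qf_nonneg (H.A_pos (c s₀ 0)) (H.D_pos (c s₀ 0)) dp dq
      have h3 : 0 < deriv J s₀ 0 ^ 2 := by positivity
      linarith

/-- Exchange of `x` and `y` in the matrix data. -/
theorem QW.swap (H : QW Qa Qb Qc A B C) : QW Qc Qb Qa C B A where
  sa := H.sc
  sb := H.sb
  sc := H.sa
  sA := H.sC
  sB := H.sB
  sC := H.sA
  h11 := fun r => by have := H.h22 r; linarith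
  h12 := fun r => by have := H.h21 r; linarith
  h21 := fun r => by have := H.h12 r; linarith
  h22 := fun r => by have := H.h11 r; linarith
  A_pos := H.C_pos
  D_pos := fun r => by have := H.D_pos r; linarith

theorem good_fF_right (H : QW Qa Qb Qc A B C) (m : MomAt Qa Qb Qc A B C p q dp dq c J s₀) {κ : ℝ}
    (e : FlatEnd C B A Qc Qb Qa κ (c s₀ 0)) :
    Good (J s₀ = 0 ∧ deriv J s₀ ≠ 0) s₀ (fF A B C Qa Qb Qc p q dp dq c J) := by
  have h1 := hasDerivAt_hF m.var.swap (cd_diff H.sC _) (cd_diff H.sB _) (cd_diff H.sA _)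
    (cd_diff (cd_deriv H.sc) _) (cd_diff (cd_deriv H.sb) _) (cd_diff (cd_deriv H.sa) _) e
  have hfun : hF C B A Qc Qb Qa q p dq dp (fun s => c s 0)
    (fun s => deriv c s 0) (fun s => J s 0) (fun s => deriv J s 0) (fun s => J s 2)
    (fun s => J s 1) = fF A B C Qa Qb Qc p q dp dq c J := by
    funext s; exact fF_eq_swap s
  rw [hfun] at h1
  refine ⟨_, ?_, h1, fun hP => ?_⟩
  · have := qf_nonneg (H.swap.A_pos (c s₀ 0)) (H.swap.D_pos (c s₀ 0)) dq
      (dp - 1 / 2 * κ * (deriv c s₀ 0 * J s₀ 1 - J s₀ 0 *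
        (B (c s₀ 0) * q + A (c s₀ 0) * p)))
    have h2 := sq_nonneg (deriv J s₀ 0 + 1 / 2 * κ * (B (c s₀ 0) * q + A (c s₀ 0) * p) * J s₀ 1)
    exact add_nonneg h2 this
  · obtain ⟨z0, z1, z2, hne⟩ := P_imp m hP
    simp only [z0, z1, mul_zero, zero_mul, sub_zero, add_zero]
    by_cases hb : deriv J s₀ 0 = 0
    · have hdp : dq ≠ 0 ∨ dp ≠ 0 := by
        rcases hne with h | h | h
        · exact absurd hb h
        · exact Or.inr h
        · exact Or.inl h
      have := qf_pos (H.swap.A_pos (c s₀ 0)) (H.swap.D_pos (c s₀ 0)) hdp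
      have h3 := sq_nonneg (deriv J s₀ 0)
      linarith
    · have := qf_nonneg (H.swap.A_pos (c s₀ 0)) (H.swap.D_pos (c s₀ 0)) dq dp
      have h3 : 0 < deriv J s₀ 0 ^ 2 := by positivity
      linarith

/-- `fF` at a flat left end. -/
theorem fF_left {κ : ℝ} (e : FlatEnd A B C Qa Qb Qc κ (c s 0)) :
    fF A B C Qa Qb Qc p q dp dq c J s = fZ dp dq J s +
      κ * (B (c s 0) * p + C (c s 0) * q) * (J s 2 * J s 0) - κ * deriv c s 0 / 2 * J s 2 ^ 2 := by
  unfold fF hF fZ bf qf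
  rw [e.Qa1, e.Qb1, e.Qc1]
  ring

theorem fF_right {κ : ℝ} (e : FlatEnd C B A Qc Qb Qa κ (c s 0)) :
    fF A B C Qa Qb Qc p q dp dq c J s = fZ dp dq J s +
      κ * (A (c s 0) * p + B (c s 0) * q) * (J s 1 * J s 0) - κ * deriv c s 0 / 2 * J s 1 ^ 2 := by
  unfold fF hF fZ bf qf
  rw [e.Qa1, e.Qb1, e.Qc1]
  ring

theorem Vt_left {κ : ℝ} (e : FlatEnd A B C Qa Qb Qc κ (c s 0)) :
    Vt A B C p q c s = κ * (B (c s 0) * p + C (c s 0) * q) ^ 2 := by
  unfold Vt qf
  rw [e.A1, e.B1, e.C1]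
  ring

theorem Vt_right {κ : ℝ} (e : FlatEnd C B A Qc Qb Qa κ (c s 0)) :
    Vt A B C p q c s = κ * (A (c s 0) * p + B (c s 0) * q) ^ 2 := by
  unfold Vt qf
  rw [e.A1, e.B1, e.C1]
  ring

theorem eventually_of_deriv_neg {f : ℝ → ℝ} {d s₀ : ℝ} (h : HasDerivAt f d s₀) (hd : d < 0) :
    (∀ᶠ z in 𝓝[>] s₀, f z < f s₀) ∧ (∀ᶠ z in 𝓝[<] s₀, f s₀ < f z) := by
  have := eventually_of_deriv_pos h.neg (neg_pos.2 hd)
  constructor
  · filter_upwards [this.1] with z hz
    simp only [Pi.neg_apply] at hz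
    linarith
  · filter_upwards [this.2] with z hz
    simp only [Pi.neg_apply] at hz
    linarith

theorem cR_of_zero {A B C A' B' C' A'' B'' C'' p q : ℝ} (h : qf A' B' C' p q = 0)
    (h2 : qf A'' B'' C'' p q ≤ 0) : 0 ≤ cR A B C A' B' C' A'' B'' C'' p q := by
  unfold cR
  rw [h]
  simp
  linarith

theorem cR_flat {κ : ℝ} {r : ℝ} (e : FlatEnd A B C Qa Qb Qc κ r) (hv : B r * p + C r * q ≠ 0) :
    0 ≤ cR (C r) (B r) (A r) (deriv C r) (deriv B r)
      (deriv A r) (deriv (deriv C) r) (deriv (deriv B) r)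
      (deriv (deriv A) r) q p := by
  have : cR (C r) (B r) (A r) (deriv C r) (deriv B r)
      (deriv A r) (deriv (deriv C) r) (deriv (deriv B) r)
      (deriv (deriv A) r) q p = 0 := by
    have hv' : C r * q + B r * p ≠ 0 := by rwa [add_comm]
    unfold cR qf
    rw [e.A1, e.B1, e.C1, e.A2, e.B2, e.C2]
    field_simp
    ring
  rw [this]

theorem collar_local (H : QW Qa Qb Qc A B C) (D : ColCond Qa Qb Qc A B C tL tR)
    (h : ∀ᶠ s in 𝓝 s₀, EqAt (gC Qa Qb Qc) c J s)
    (hE : ∀ᶠ s in 𝓝 s₀, E s = J s 0 ^ 2 +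
      qf (Qa (c s 0)) (Qb (c s 0)) (Qc (c s 0)) (J s 1) (J s 2))
    (hH : ∀ᶠ s in 𝓝 s₀, Hf s = deriv E s / 2 +
      colK Qa Qb Qc tL tR (c s) (deriv c s) (J s)) :
    LocMono Hf s₀ ∧ (J s₀ = 0 ∧ deriv J s₀ ≠ 0 → ∀ᶠ z in 𝓝[>] s₀, Hf s₀ < Hf z) := by
  obtain ⟨p, q, dp, dq, hm⟩ := H.exists_mom h
  have m0 := hm.self_of_nhds
  have ht0 : ContinuousAt (fun s => c s 0) s₀ := m0.var.ht.continuousAt
  have hVt : ContinuousAt (Vt A B C p q c) s₀ := by
    have hA := (cd_deriv H.sA).continuous.continuousAt (x := c s₀ 0)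
    have hB := (cd_deriv H.sB).continuous.continuousAt (x := c s₀ 0)
    have hC := (cd_deriv H.sC).continuous.continuousAt (x := c s₀ 0)
    have hA' := ContinuousAt.comp (f := fun s => c s 0) hA ht0
    have hB' := ContinuousAt.comp (f := fun s => c s 0) hB ht0
    have hC' := ContinuousAt.comp (f := fun s => c s 0) hC ht0
    exact ((hA'.mul continuousAt_const).add ((((continuousAt_const.mul hB').mul
      continuousAt_const).mul continuousAt_const))).add (hC'.mul continuousAt_const)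
  have hdE : ∀ᶠ s in 𝓝 s₀, deriv E s = 2 * fF A B C Qa Qb Qc p q dp dq c J s := by
    filter_upwards [hE.eventually_nhds, hm] with s hs ms
    have h1 := hasDerivAt_eJ ms.var (cd_diff H.sA _) (cd_diff H.sB _) (cd_diff H.sC _)
      (cd_diff H.sa _) (cd_diff H.sb _) (cd_diff H.sc _) H.h11 H.h12 H.h21 H.h22
    have h2 : E =ᶠ[𝓝 s] eJ Qa Qb Qc (fun s => c s 0) (fun s => J s 0) (fun s => J s 1)
      (fun s => J s 2) := hs
    rw [h2.deriv_eq]
    exact h1.deriv
  have hout : ∀ᶠ s in 𝓝 s₀, ¬ (tL < c s 0 ∧ c s 0 < tR) →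
      Hf s = fF A B C Qa Qb Qc p q dp dq c J s := by
    filter_upwards [hdE, hH] with s h1 h2 h3
    rw [h2, h1, colK_out h3]
    ring
  have hin : ∀ᶠ s in 𝓝 s₀, (tL < c s 0 ∧ c s 0 < tR) →
      (Vt A B C p q c s < 0 → Hf s = fR A B C p q dp dq c J s) ∧
      (0 < Vt A B C p q c s → Hf s = fL A B C p q dp dq c J s) ∧
      (Vt A B C p q c s = 0 → Hf s = fZ dp dq J s) := by
    filter_upwards [hdE, hH, hm] with s h1 h2 ms h3
    exact H_in H ms h1 h2 h3
  have hpq0 : p = 0 → q = 0 → ∀ s, Vt A B C p q c s = 0 := by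
    intro hp hq s
    unfold Vt qf
    rw [hp, hq]; ring
  rcases lt_trichotomy (c s₀ 0) tL with hlt | heq | hgt
  · -- flat left
    obtain ⟨κ, hκ, e⟩ := D.flatL _ hlt.le
    apply locMono_of_eventually (F := {fF A B C Qa Qb Qc p q dp dq c J}) (finite_singleton _)
    · intro f hf
      rw [mem_singleton_iff] at hf
      subst hf
      exact ⟨good_fF_left H m0 e, (hout.self_of_nhds (fun hh => absurd hh.1 (not_lt.2 hlt.le))).symm⟩
    · filter_upwards [hout, ht0.eventually (gt_mem_nhds hlt)] with s h1 h2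
      exact ⟨_, rfl, h1 (fun hh => absurd hh.1 (not_lt.2 h2.le))⟩
  · -- left interface
    obtain ⟨κ, hκ, e⟩ := D.flatL _ heq.le
    have hnear : ∀ᶠ s in 𝓝 s₀, c s 0 < tR :=
      ht0.eventually (gt_mem_nhds (by show c s₀ 0 < tR; rw [heq]; exact D.tL_lt))
    have hv₀ : Hf s₀ = fF A B C Qa Qb Qc p q dp dq c J s₀ :=
      hout.self_of_nhds (fun hh => absurd hh.1 (by rw [heq]; exact lt_irrefl _))
    have hVs := Vt_left (p := p) (q := q) e
    have hFs := fF_left (p := p) (q := q) (dp := dp) (dq := dq) (J := J) e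
    have hout' : ∀ᶠ z in 𝓝 s₀, ¬ tL < c z 0 → Hf z = fF A B C Qa Qb Qc p q dp dq c J z := by
      filter_upwards [hout] with z h1 h2
      exact h1 (fun hh => h2 hh.1)
    by_cases hvy : B (c s₀ 0) * p + C (c s₀ 0) * q = 0
    · -- `y' = 0`
      rw [hvy] at hVs hFs
      have hVle : ∀ᶠ z in 𝓝 s₀, tL < c z 0 → Vt A B C p q c z ≤ 0 := by
        have h1 := D.endL p q (by rw [← heq]; exact hvy)
        rw [eventually_nhdsWithin_iff, ← heq] at h1
        have h2 := ht0.eventually h1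
        filter_upwards [h2] with z hz hz'
        exact hz (by rw [heq]; exact hz')
      have hV2 : qf (deriv (deriv A) (c s₀ 0)) (deriv (deriv B) (c s₀ 0))
          (deriv (deriv C) (c s₀ 0)) p q = 0 := by
        have : qf (deriv (deriv A) (c s₀ 0)) (deriv (deriv B) (c s₀ 0))
          (deriv (deriv C) (c s₀ 0)) p q = 3 / 2 * κ ^ 2 * C (c s₀ 0) *
            (B (c s₀ 0) * p + C (c s₀ 0) * q) ^ 2 := by
          unfold qf; rw [e.A2, e.B2, e.C2]; ring
        rw [this, hvy]; ring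
      have hcase : ∀ v : ℝ, v = fZ dp dq J s₀ →
          v = fF A B C Qa Qb Qc p q dp dq c J s₀ ∨
          (fF A B C Qa Qb Qc p q dp dq c J s₀ ≤ v ∧ ∀ᶠ z in 𝓝[<] s₀, ¬ tL < c z 0) ∨
          (v ≤ fF A B C Qa Qb Qc p q dp dq c J s₀ ∧ ∀ᶠ z in 𝓝[>] s₀, ¬ tL < c z 0) := by
        intro v hv
        rw [hv, hFs]
        have h5 : 0 ≤ κ * J s₀ 2 ^ 2 := by positivity
        rcases lt_trichotomy (deriv c s₀ 0) 0 with hw | hw | hw
        · right; right
          refine ⟨by nlinarith, ?_⟩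
          filter_upwards [(eventually_of_deriv_neg m0.var.ht hw).1] with z hz
          rw [heq] at hz
          exact not_lt.2 hz.le
        · left; rw [hw]; ring
        · right; left
          refine ⟨by nlinarith, ?_⟩
          filter_upwards [(eventually_of_deriv_pos m0.var.ht hw).2] with z hz
          rw [heq] at hz
          exact not_lt.2 hz.le
      by_cases hpq : p = 0 ∧ q = 0
      · apply locMono_interface (F := {fZ dp dq J}) (v := fZ dp dq J s₀)
          (out := fun z => ¬ tL < c z 0) (finite_singleton _) _ (good_fF_left H m0 e) hv₀ hout' _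
          (hcase _ rfl)
        · intro f hf
          rw [mem_singleton_iff] at hf
          subst hf
          exact ⟨good_fZ H m0 hV2.le, rfl⟩
        · filter_upwards [hin, hnear] with z h1 h2 h3
          exact ⟨_, rfl, (h1 ⟨not_not.1 h3, h2⟩).2.2 (hpq0 hpq.1 hpq.2 z)⟩
      · have hu : A (c s₀ 0) * p + B (c s₀ 0) * q ≠ 0 := by
          intro hu
          apply hpq
          have hD := H.D_pos (c s₀ 0)
          have e1 : (A (c s₀ 0) * C (c s₀ 0) - B (c s₀ 0) ^ 2) * p = 0 := by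
            linear_combination C (c s₀ 0) * hu - B (c s₀ 0) * hvy
          have e2 : (A (c s₀ 0) * C (c s₀ 0) - B (c s₀ 0) ^ 2) * q = 0 := by
            linear_combination A (c s₀ 0) * hvy - B (c s₀ 0) * hu
          exact ⟨(mul_eq_zero.1 e1).resolve_left hD.ne', (mul_eq_zero.1 e2).resolve_left hD.ne'⟩
        have hV0 : Vt A B C p q c s₀ = 0 := by rw [hVs]; ring
        have hR0 : fR A B C p q dp dq c J s₀ = fZ dp dq J s₀ := by
          rw [fR_eq, hV0]; ring
        apply locMono_interface (F := {fR A B C p q dp dq c J, fZ dp dq J}) (v := fZ dp dq J s₀)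
          (out := fun z => ¬ tL < c z 0) (toFinite _) _ (good_fF_left H m0 e) hv₀ hout' _
          (hcase _ rfl)
        · intro f hf
          rcases hf with hf | hf
          · subst hf
            exact ⟨good_fR H m0 hu (cR_of_zero hV0 hV2.le), hR0⟩
          · rw [mem_singleton_iff] at hf
            subst hf
            exact ⟨good_fZ H m0 hV2.le, rfl⟩
        · filter_upwards [hin, hnear, hVle] with z h1 h2 h4 h3
          have h5 := h4 (not_not.1 h3)
          rcases h5.lt_or_eq with h6 | h6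
          · exact ⟨_, Or.inl rfl, (h1 ⟨not_not.1 h3, h2⟩).1 h6⟩
          · exact ⟨_, Or.inr rfl, (h1 ⟨not_not.1 h3, h2⟩).2.2 h6⟩
    · -- `y' ≠ 0`
      have hVpos : 0 < Vt A B C p q c s₀ := by rw [hVs]; positivity
      have hVev : ∀ᶠ z in 𝓝 s₀, 0 < Vt A B C p q c z := hVt.eventually (lt_mem_nhds hVpos)
      apply locMono_interface (F := {fL A B C p q dp dq c J}) (v := fL A B C p q dp dq c J s₀)
          (out := fun z => ¬ tL < c z 0) (finite_singleton _) _ (good_fF_left H m0 e) hv₀ hout'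
      · filter_upwards [hin, hnear, hVev] with z h1 h2 h4 h3
        exact ⟨_, rfl, (h1 ⟨not_not.1 h3, h2⟩).2.1 h4⟩
      · left
        rw [fL_eq_swap, hFs, hVs]
        field_simp
      · intro f hf
        rw [mem_singleton_iff] at hf
        subst hf
        exact ⟨good_fL H m0 hvy (cR_flat e hvy), rfl⟩
  rcases lt_trichotomy (c s₀ 0) tR with hlt | heq | hgt'
  · -- interior
    have hnear : ∀ᶠ s in 𝓝 s₀, tL < c s 0 ∧ c s 0 < tR :=
      (ht0.eventually (lt_mem_nhds hgt)).and (ht0.eventually (gt_mem_nhds hlt))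
    have hin' : ∀ᶠ s in 𝓝 s₀,
        (Vt A B C p q c s < 0 → Hf s = fR A B C p q dp dq c J s) ∧
        (0 < Vt A B C p q c s → Hf s = fL A B C p q dp dq c J s) ∧
        (Vt A B C p q c s = 0 → Hf s = fZ dp dq J s) := by
      filter_upwards [hin, hnear] with s h1 h2
      exact h1 h2
    have hin0 := hin'.self_of_nhds
    rcases lt_trichotomy (Vt A B C p q c s₀) 0 with hV | hV | hV
    · apply locMono_of_eventually (F := {fR A B C p q dp dq c J}) (finite_singleton _)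
      · intro f hf
        rw [mem_singleton_iff] at hf
        subst hf
        exact ⟨good_fR H m0 (D.condR _ hgt hlt p q hV).1
          (D.condR _ hgt hlt p q hV).2, (hin0.1 hV).symm⟩
      · filter_upwards [hin', hVt.eventually (gt_mem_nhds hV)] with s h1 h2
        exact ⟨_, rfl, h1.1 h2⟩
    · have hV2 := D.condZ _ hgt hlt p q hV
      by_cases hpq : p = 0 ∧ q = 0
      · apply locMono_of_eventually (F := {fZ dp dq J}) (finite_singleton _)
        · intro f hf
          rw [mem_singleton_iff] at hf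
          subst hf
          exact ⟨good_fZ H m0 hV2, (hin0.2.2 hV).symm⟩
        · filter_upwards [hin'] with s h1
          exact ⟨_, rfl, h1.2.2 (hpq0 hpq.1 hpq.2 s)⟩
      · have hpq' : p ≠ 0 ∨ q ≠ 0 := by
          by_contra hc
          push Not at hc
          exact hpq hc
        have hR0 : fR A B C p q dp dq c J s₀ = fZ dp dq J s₀ := by
          rw [fR_eq, hV]; ring
        have hL0 : fL A B C p q dp dq c J s₀ = fZ dp dq J s₀ := by
          rw [fL_eq_swap, hV]; ring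
        have hZ0 := hin0.2.2 hV
        have hVs : qf (deriv C (c s₀ 0)) (deriv B (c s₀ 0)) (deriv A (c s₀ 0)) q p = 0 := by
          have : qf (deriv C (c s₀ 0)) (deriv B (c s₀ 0)) (deriv A (c s₀ 0)) q p =
            qf (deriv A (c s₀ 0)) (deriv B (c s₀ 0)) (deriv C (c s₀ 0)) p q := by
            unfold qf; ring
          rw [this]; exact hV
        have hVs2 : qf (deriv (deriv C) (c s₀ 0)) (deriv (deriv B) (c s₀ 0))
            (deriv (deriv A) (c s₀ 0)) q p ≤ 0 := by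
          have : qf (deriv (deriv C) (c s₀ 0)) (deriv (deriv B) (c s₀ 0))
            (deriv (deriv A) (c s₀ 0)) q p =
            qf (deriv (deriv A) (c s₀ 0)) (deriv (deriv B) (c s₀ 0))
              (deriv (deriv C) (c s₀ 0)) p q := by
            unfold qf; ring
          rw [this]; exact hV2
        have hnX := D.neX _ hgt hlt p q hpq' hV.le
        have hnY := D.neY _ hgt hlt p q hpq' hV.ge
        have hfin : {f : ℝ → ℝ | (f = fR A B C p q dp dq c J ∧
            A (c s₀ 0) * p + B (c s₀ 0) * q ≠ 0) ∨ (f = fL A B C p q dp dq c J ∧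
            B (c s₀ 0) * p + C (c s₀ 0) * q ≠ 0) ∨ f = fZ dp dq J}.Finite := by
          apply Set.Finite.subset (toFinite ({fR A B C p q dp dq c J, fL A B C p q dp dq c J,
            fZ dp dq J} : Set (ℝ → ℝ)))
          intro f hf
          rcases hf with hf | hf | hf
          · exact Or.inl hf.1
          · exact Or.inr (Or.inl hf.1)
          · exact Or.inr (Or.inr hf)
        apply locMono_of_eventually hfin
        · intro f hf
          rcases hf with ⟨hf, hu⟩ | ⟨hf, hu⟩ | hf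
          · subst hf
            exact ⟨good_fR H m0 hu (cR_of_zero hV hV2), by rw [hR0, hZ0]⟩
          · subst hf
            exact ⟨good_fL H m0 hu (cR_of_zero hVs hVs2), by rw [hL0, hZ0]⟩
          · subst hf
            exact ⟨good_fZ H m0 hV2, hZ0.symm⟩
        · filter_upwards [hin'] with s h1
          rcases lt_trichotomy (Vt A B C p q c s) 0 with h2 | h2 | h2
          · refine ⟨_, Or.inl ⟨rfl, ?_⟩, h1.1 h2⟩
            rcases hnX with h3 | h3
            · exact h3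
            · exact absurd (h3 (c s 0)) (not_le.2 h2)
          · exact ⟨_, Or.inr (Or.inr rfl), h1.2.2 h2⟩
          · refine ⟨_, Or.inr (Or.inl ⟨rfl, ?_⟩), h1.2.1 h2⟩
            rcases hnY with h3 | h3
            · exact h3
            · exact absurd (h3 (c s 0)) (not_le.2 h2)
    · apply locMono_of_eventually (F := {fL A B C p q dp dq c J}) (finite_singleton _)
      · intro f hf
        rw [mem_singleton_iff] at hf
        subst hf
        exact ⟨good_fL H m0 (D.condL _ hgt hlt p q hV).1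
          (D.condL _ hgt hlt p q hV).2, (hin0.2.1 hV).symm⟩
      · filter_upwards [hin', hVt.eventually (lt_mem_nhds hV)] with s h1 h2
        exact ⟨_, rfl, h1.2.1 h2⟩
  · -- right interface
    obtain ⟨κ, hκ, e⟩ := D.flatR _ heq.ge
    have hnear : ∀ᶠ s in 𝓝 s₀, tL < c s 0 := ht0.eventually (lt_mem_nhds hgt)
    have hv₀ : Hf s₀ = fF A B C Qa Qb Qc p q dp dq c J s₀ :=
      hout.self_of_nhds (fun hh => absurd hh.2 (by rw [heq]; exact lt_irrefl _))
    have hVs := Vt_right (p := p) (q := q) e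
    have hFs := fF_right (p := p) (q := q) (dp := dp) (dq := dq) (J := J) e
    have hout' : ∀ᶠ z in 𝓝 s₀, ¬ c z 0 < tR → Hf z = fF A B C Qa Qb Qc p q dp dq c J z := by
      filter_upwards [hout] with z h1 h2
      exact h1 (fun hh => h2 hh.2)
    by_cases hvx : A (c s₀ 0) * p + B (c s₀ 0) * q = 0
    · -- `x' = 0`
      rw [hvx] at hVs hFs
      have hVge : ∀ᶠ z in 𝓝 s₀, c z 0 < tR → 0 ≤ Vt A B C p q c z := by
        have h1 := D.endR p q (by rw [← heq]; exact hvx)
        rw [eventually_nhdsWithin_iff, ← heq] at h1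
        have h2 := ht0.eventually h1
        filter_upwards [h2] with z hz hz'
        exact hz (by rw [heq]; exact hz')
      have hV2 : qf (deriv (deriv A) (c s₀ 0)) (deriv (deriv B) (c s₀ 0))
          (deriv (deriv C) (c s₀ 0)) p q = 0 := by
        have : qf (deriv (deriv A) (c s₀ 0)) (deriv (deriv B) (c s₀ 0))
          (deriv (deriv C) (c s₀ 0)) p q = 3 / 2 * κ ^ 2 * A (c s₀ 0) *
            (A (c s₀ 0) * p + B (c s₀ 0) * q) ^ 2 := by
          unfold qf; rw [e.A2, e.B2, e.C2]; ring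
        rw [this, hvx]; ring
      have hcase : ∀ v : ℝ, v = fZ dp dq J s₀ →
          v = fF A B C Qa Qb Qc p q dp dq c J s₀ ∨
          (fF A B C Qa Qb Qc p q dp dq c J s₀ ≤ v ∧ ∀ᶠ z in 𝓝[<] s₀, ¬ c z 0 < tR) ∨
          (v ≤ fF A B C Qa Qb Qc p q dp dq c J s₀ ∧ ∀ᶠ z in 𝓝[>] s₀, ¬ c z 0 < tR) := by
        intro v hv
        rw [hv, hFs]
        have h5 : 0 ≤ -κ * J s₀ 1 ^ 2 := mul_nonneg (by linarith) (sq_nonneg _)
        rcases lt_trichotomy (deriv c s₀ 0) 0 with hw | hw | hw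
        · right; left
          refine ⟨by nlinarith, ?_⟩
          filter_upwards [(eventually_of_deriv_neg m0.var.ht hw).2] with z hz
          rw [heq] at hz
          exact not_lt.2 hz.le
        · left; rw [hw]; ring
        · right; right
          refine ⟨by nlinarith, ?_⟩
          filter_upwards [(eventually_of_deriv_pos m0.var.ht hw).1] with z hz
          rw [heq] at hz
          exact not_lt.2 hz.le
      by_cases hpq : p = 0 ∧ q = 0
      · apply locMono_interface (F := {fZ dp dq J}) (v := fZ dp dq J s₀)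
          (out := fun z => ¬ c z 0 < tR) (finite_singleton _) _ (good_fF_right H m0 e) hv₀ hout' _
          (hcase _ rfl)
        · intro f hf
          rw [mem_singleton_iff] at hf
          subst hf
          exact ⟨good_fZ H m0 hV2.le, rfl⟩
        · filter_upwards [hin, hnear] with z h1 h2 h3
          exact ⟨_, rfl, (h1 ⟨h2, not_not.1 h3⟩).2.2 (hpq0 hpq.1 hpq.2 z)⟩
      · have hu : B (c s₀ 0) * p + C (c s₀ 0) * q ≠ 0 := by
          intro hu
          apply hpq
          have hD := H.D_pos (c s₀ 0)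
          have e1 : (A (c s₀ 0) * C (c s₀ 0) - B (c s₀ 0) ^ 2) * p = 0 := by
            linear_combination C (c s₀ 0) * hvx - B (c s₀ 0) * hu
          have e2 : (A (c s₀ 0) * C (c s₀ 0) - B (c s₀ 0) ^ 2) * q = 0 := by
            linear_combination A (c s₀ 0) * hu - B (c s₀ 0) * hvx
          exact ⟨(mul_eq_zero.1 e1).resolve_left hD.ne', (mul_eq_zero.1 e2).resolve_left hD.ne'⟩
        have hV0 : Vt A B C p q c s₀ = 0 := by rw [hVs]; ring
        have hL0 : fL A B C p q dp dq c J s₀ = fZ dp dq J s₀ := by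
          rw [fL_eq_swap, hV0]; ring
        have hVsw : qf (deriv C (c s₀ 0)) (deriv B (c s₀ 0)) (deriv A (c s₀ 0)) q p = 0 := by
          have : qf (deriv C (c s₀ 0)) (deriv B (c s₀ 0)) (deriv A (c s₀ 0)) q p =
            qf (deriv A (c s₀ 0)) (deriv B (c s₀ 0)) (deriv C (c s₀ 0)) p q := by
            unfold qf; ring
          rw [this]; exact hV0
        have hVs2 : qf (deriv (deriv C) (c s₀ 0)) (deriv (deriv B) (c s₀ 0))
            (deriv (deriv A) (c s₀ 0)) q p ≤ 0 := by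
          have : qf (deriv (deriv C) (c s₀ 0)) (deriv (deriv B) (c s₀ 0))
            (deriv (deriv A) (c s₀ 0)) q p =
            qf (deriv (deriv A) (c s₀ 0)) (deriv (deriv B) (c s₀ 0))
              (deriv (deriv C) (c s₀ 0)) p q := by
            unfold qf; ring
          rw [this]; exact hV2.le
        apply locMono_interface (F := {fL A B C p q dp dq c J, fZ dp dq J}) (v := fZ dp dq J s₀)
          (out := fun z => ¬ c z 0 < tR) (toFinite _) _ (good_fF_right H m0 e) hv₀ hout' _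
          (hcase _ rfl)
        · intro f hf
          rcases hf with hf | hf
          · subst hf
            exact ⟨good_fL H m0 hu (cR_of_zero hVsw hVs2), hL0⟩
          · rw [mem_singleton_iff] at hf
            subst hf
            exact ⟨good_fZ H m0 hV2.le, rfl⟩
        · filter_upwards [hin, hnear, hVge] with z h1 h2 h4 h3
          have h5 := h4 (not_not.1 h3)
          rcases h5.lt_or_eq with h6 | h6
          · exact ⟨_, Or.inl rfl, (h1 ⟨h2, not_not.1 h3⟩).2.1 h6⟩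
          · exact ⟨_, Or.inr rfl, (h1 ⟨h2, not_not.1 h3⟩).2.2 h6.symm⟩
    · -- `x' ≠ 0`
      have hVneg : Vt A B C p q c s₀ < 0 := by
        rw [hVs]
        have : 0 < (A (c s₀ 0) * p + B (c s₀ 0) * q) ^ 2 := by positivity
        nlinarith
      have hVev : ∀ᶠ z in 𝓝 s₀, Vt A B C p q c z < 0 := hVt.eventually (gt_mem_nhds hVneg)
      apply locMono_interface (F := {fR A B C p q dp dq c J}) (v := fR A B C p q dp dq c J s₀)
          (out := fun z => ¬ c z 0 < tR) (finite_singleton _) _ (good_fF_right H m0 e) hv₀ hout'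
      · filter_upwards [hin, hnear, hVev] with z h1 h2 h4 h3
        exact ⟨_, rfl, (h1 ⟨h2, not_not.1 h3⟩).1 h4⟩
      · left
        rw [fR_eq, hFs, hVs]
        field_simp
      · intro f hf
        rw [mem_singleton_iff] at hf
        subst hf
        exact ⟨good_fR H m0 hvx (cR_flat (p := q) (q := p) e (by rwa [add_comm])), rfl⟩
  · -- flat right
    obtain ⟨κ, hκ, e⟩ := D.flatR _ hgt'.le
    apply locMono_of_eventually (F := {fF A B C Qa Qb Qc p q dp dq c J}) (finite_singleton _)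
    · intro f hf
      rw [mem_singleton_iff] at hf
      subst hf
      exact ⟨good_fF_right H m0 e,
        (hout.self_of_nhds (fun hh => absurd hh.2 (not_lt.2 hgt'.le))).symm⟩
    · filter_upwards [hout, ht0.eventually (lt_mem_nhds hgt')] with s h1 h2
      exact ⟨_, rfl, h1 (fun hh => absurd hh.2 (not_lt.2 h2.le))⟩

end Local

end Crest.Agent.R244.NCP
end

-- ▼ part R244/NCPGlue
section

/-!
# R244 (S0377), package NCP-C, part 1: own-chart data versus the chart at `γ s₀` on a glued manifold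
-/

set_option autoImplicit false
set_option maxSynthPendingDepth 3

open Filter Topology Set Bundle
open scoped ContDiff Manifold

noncomputable section

namespace Crest.Agent.R244.NCP

open Crest.GeometryTopology.CoordMetric Crest.GeometryTopology.ChartCurvature
  Crest.GeometryTopology.Geodesic Crest.Agent.R244.Man Crest.Agent.R244.Man.Glue

section General

variable {ι : Type} {n : ℕ} {G : Glue ι n}

local notation "𝔼" => EuclideanSpace ℝ (Fin n)

/-- The derivative of the transition to the own chart inverts the derivative of the chart. -/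
theorem fderiv_trans_mfderiv (m₀ : G.M) {x : G.M} (hx : x ∈ (chartAt 𝔼 m₀).source) (v : 𝔼) :
    fderiv ℝ (chartAt 𝔼 x ∘ G.F (G.idx m₀)) (chartAt 𝔼 m₀ x)
      ((mfderiv 𝓘(ℝ, EuclideanSpace ℝ (Fin n)) 𝓘(ℝ, EuclideanSpace ℝ (Fin n))
        (chartAt (EuclideanSpace ℝ (Fin n)) m₀) x : 𝔼 → 𝔼) v) = v := by
  rw [mfderiv_chartAt m₀ x hx v]
  set σ : 𝔼 → 𝔼 := chartAt 𝔼 m₀ ∘ G.F (G.idx x) with hσ
  set τ : 𝔼 → 𝔼 := chartAt 𝔼 x ∘ G.F (G.idx m₀) with hτ
  have hxs : G.F (G.idx x) (G.pt x) ∈ (chartAt 𝔼 m₀).source := by rw [G.F_pt]; exact hx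
  have h1 : G.Trans (G.idx x) (G.idx m₀) (G.pt x) (chartAt 𝔼 m₀ x) σ := by
    have := G.trans_chartAt_F (m := m₀) (G.pt_mem x) hxs
    rwa [G.F_pt] at this
  have h2 : G.Trans (G.idx m₀) (G.idx x) (chartAt 𝔼 m₀ x) (G.pt x) τ := trans_center m₀ x hx
  have h3 : (τ ∘ σ) =ᶠ[𝓝 (G.pt x)] id :=
    Trans.eventuallyEq G (Trans.comp G h1 h2) (G.trans_id (G.pt_mem x))
  have h4 : HasFDerivAt σ (fderiv ℝ σ (G.pt x)) (G.pt x) :=
    (h1.1.differentiableAt (by simp)).hasFDerivAt
  have h5 : HasFDerivAt τ (fderiv ℝ τ (chartAt 𝔼 m₀ x)) (σ (G.pt x)) := by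
    rw [h1.2.1]
    exact (h2.1.differentiableAt (by simp)).hasFDerivAt
  have h6 := (h5.comp (G.pt x) h4).fderiv
  rw [h3.fderiv_eq, fderiv_id] at h6
  have h7 := congrArg (fun L : 𝔼 →L[ℝ] 𝔼 => L v) h6
  simpa using h7.symm

/-- Velocity in the own chart versus velocity in the chart at `m₀`. -/
theorem deriv_own_chart (m₀ : G.M) {γ : ℝ → G.M} {s : ℝ} (hγ : ContinuousAt γ s)
    (hx : γ s ∈ (chartAt 𝔼 m₀).source) (hd : DifferentiableAt ℝ (fun u => chartAt 𝔼 m₀ (γ u)) s) :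
    deriv (fun u => chartAt 𝔼 (γ s) (γ u)) s =
      fderiv ℝ (chartAt 𝔼 (γ s) ∘ G.F (G.idx m₀)) (chartAt 𝔼 m₀ (γ s))
        (deriv (fun u => chartAt 𝔼 m₀ (γ u)) s) := by
  have h2 := trans_center m₀ (γ s) hx
  have h3 : (fun u => chartAt 𝔼 (γ s) (γ u)) =ᶠ[𝓝 s]
      (chartAt 𝔼 (γ s) ∘ G.F (G.idx m₀)) ∘ (fun u => chartAt 𝔼 m₀ (γ u)) := by
    filter_upwards [hγ.eventually ((chartAt 𝔼 m₀).open_source.mem_nhds hx)] with u hu
    simp only [Function.comp_apply]
    rw [G.F_chartAt hu]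
  rw [h3.deriv_eq]
  have h4 : HasFDerivAt (chartAt 𝔼 (γ s) ∘ G.F (G.idx m₀))
      (fderiv ℝ (chartAt 𝔼 (γ s) ∘ G.F (G.idx m₀)) (chartAt 𝔼 m₀ (γ s)))
      (chartAt 𝔼 m₀ (γ s)) := (h2.1.differentiableAt (by simp)).hasFDerivAt
  exact (h4.comp_hasDerivAt s hd.hasDerivAt).deriv

/-- Squared norm of the field, read in the own charts. -/
def Efun (D : G.MetricData) (γ : ℝ → G.M) (J : ℝ → 𝔼) (s : ℝ) : ℝ :=
  D.g (G.idx (γ s)) (G.pt (γ s)) (J s) (J s)

theorem Efun_eq (D : G.MetricData) (m₀ : G.M) {γ : ℝ → G.M} {J : ℝ → 𝔼} {s : ℝ}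
    (hx : γ s ∈ (chartAt 𝔼 m₀).source) :
    Efun D γ J s = D.g (G.idx m₀) (chartAt 𝔼 m₀ (γ s))
      ((mfderiv 𝓘(ℝ, EuclideanSpace ℝ (Fin n)) 𝓘(ℝ, EuclideanSpace ℝ (Fin n))
        (chartAt (EuclideanSpace ℝ (Fin n)) m₀) (γ s) : 𝔼 → 𝔼) (J s))
      ((mfderiv 𝓘(ℝ, EuclideanSpace ℝ (Fin n)) 𝓘(ℝ, EuclideanSpace ℝ (Fin n))
        (chartAt (EuclideanSpace ℝ (Fin n)) m₀) (γ s) : 𝔼 → 𝔼) (J s)) := by
  have h2 := fderiv_trans_mfderiv m₀ hx (J s)
  generalize ((mfderiv 𝓘(ℝ, EuclideanSpace ℝ (Fin n)) 𝓘(ℝ, EuclideanSpace ℝ (Fin n))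
        (chartAt (EuclideanSpace ℝ (Fin n)) m₀) (γ s) : 𝔼 → 𝔼) (J s)) = w at h2 ⊢
  have h1 := D.inv' (trans_center m₀ (γ s) hx) w w
  rw [h2] at h1
  exact h1.symm

theorem Efun_nonneg (D : G.MetricData) (γ : ℝ → G.M) (J : ℝ → 𝔼) (s : ℝ) : 0 ≤ Efun D γ J s := by
  rcases eq_or_ne (J s) 0 with h | h
  · simp [Efun, h]
  · exact (D.pos _ _ (G.pt_mem _) _ h).le

theorem deriv_Efun_eq_zero (D : G.MetricData) (γ : ℝ → G.M) (J : ℝ → 𝔼) {s : ℝ} (h : J s = 0) :
    deriv (Efun D γ J) s = 0 := by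
  have h0 : Efun D γ J s = 0 := by simp [Efun, h]
  have hmin : IsLocalMin (Efun D γ J) s := by
    filter_upwards with u
    rw [h0]
    exact Efun_nonneg D γ J u
  exact hmin.deriv_eq_zero

theorem g_apply_eq_sum (D : G.MetricData) (i : ι) (z u v : 𝔼) :
    D.g i z u v = ∑ a, ∑ b, D.mat i z a b * u a * v b := by
  have hsum : ∀ u : 𝔼, u = ∑ i, u i • EuclideanSpace.single i (1 : ℝ) := by
    intro u
    ext k
    simp [Finset.sum_apply, Pi.single_apply]
  conv_lhs => rw [hsum u, hsum v]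
  simp only [map_sum, map_smul, sum_apply, smul_apply, smul_eq_mul, MetricData.mat,
    Matrix.of_apply, Finset.mul_sum]
  rw [Finset.sum_comm]
  refine Finset.sum_congr rfl fun i _ => Finset.sum_congr rfl fun j _ => ?_
  ring

end General

end Crest.Agent.R244.NCP
end
end

-- ▼ part R244/NCPInst
section

/-!
R244 (S0377), package NCP, part 6: the collar data of package COL satisfy the hypotheses of
`collar_local`.
-/

set_option autoImplicit false

open Filter Topology Set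
open scoped ContDiff

namespace Crest.Agent.R244.NCP

theorem deriv_eq_Iic {f g : ℝ → ℝ} {a : ℝ} (hf : ∀ t ≤ a, DifferentiableAt ℝ f t)
    (hg : ∀ t ≤ a, DifferentiableAt ℝ g t) (h : ∀ t ≤ a, f t = g t) :
    ∀ t ≤ a, deriv f t = deriv g t := by
  intro t ht
  have h1 : HasDerivWithinAt f (deriv f t) (Iic a) t := (hf t ht).hasDerivAt.hasDerivWithinAt
  have h2 : HasDerivWithinAt f (deriv g t) (Iic a) t :=
    (hg t ht).hasDerivAt.hasDerivWithinAt.congr (fun x hx => h x hx) (h t ht)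
  exact UniqueDiffWithinAt.eq_deriv _ ((uniqueDiffOn_Iic a) t ht) h1 h2

theorem deriv_eq_Ici {f g : ℝ → ℝ} {a : ℝ} (hf : ∀ t, a ≤ t → DifferentiableAt ℝ f t)
    (hg : ∀ t, a ≤ t → DifferentiableAt ℝ g t) (h : ∀ t, a ≤ t → f t = g t) :
    ∀ t, a ≤ t → deriv f t = deriv g t := by
  intro t ht
  have h1 : HasDerivWithinAt f (deriv f t) (Ici a) t := (hf t ht).hasDerivAt.hasDerivWithinAt
  have h2 : HasDerivWithinAt f (deriv g t) (Ici a) t :=
    (hg t ht).hasDerivAt.hasDerivWithinAt.congr (fun x hx => h x hx) (h t ht)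
  exact UniqueDiffWithinAt.eq_deriv _ ((uniqueDiffOn_Ici a) t ht) h1 h2

theorem QW.flatEnd {Qa Qb Qc A B C : ℝ → ℝ} (H : QW Qa Qb Qc A B C) {κ r : ℝ}
    (a1 : deriv Qa r = 0) (b1 : deriv Qb r = 0) (c1 : deriv Qc r = -κ)
    (a2 : deriv (deriv Qa) r = 0) (b2 : deriv (deriv Qb) r = 0)
    (c2 : deriv (deriv Qc) r = 1 / 2 * κ ^ 2 * C r) : FlatEnd A B C Qa Qb Qc κ r := by
  have A1 : deriv A r = κ * B r ^ 2 := by rw [H.dA, a1, b1, c1]; ring
  have B1 : deriv B r = κ * B r * C r := by rw [H.dB, a1, b1, c1]; ring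
  have C1 : deriv C r = κ * C r ^ 2 := by rw [H.dC, a1, b1, c1]; ring
  refine ⟨A1, B1, C1, ?_, ?_, ?_, a1, b1, c1, a2, b2, c2⟩
  · rw [H.ddA, a1, b1, c1, a2, b2, c2, A1, B1]; ring
  · rw [H.ddB, a1, b1, c1, a2, b2, c2, A1, B1, C1]; ring
  · rw [H.ddC, a1, b1, c1, a2, b2, c2, B1, C1]; ring

variable (K : CollarData)

theorem qw : QW K.P K.B K.D (colA K.P K.B K.D) (colB K.P K.B K.D) (colC K.P K.B K.D) where
  sa := K.smooth_P
  sb := K.smooth_B
  sc := K.smooth_D
  sA := K.smooth_D.div ((K.smooth_P.mul K.smooth_D).sub (K.smooth_B.pow 2))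
    (fun t => (K.det_pos t).ne')
  sB := K.smooth_B.neg.div ((K.smooth_P.mul K.smooth_D).sub (K.smooth_B.pow 2))
    (fun t => (K.det_pos t).ne')
  sC := K.smooth_P.div ((K.smooth_P.mul K.smooth_D).sub (K.smooth_B.pow 2))
    (fun t => (K.det_pos t).ne')
  h11 := fun r => by
    have := (K.det_pos r).ne'
    unfold colA colB; field_simp; ring
  h12 := fun r => by
    have := (K.det_pos r).ne'
    unfold colB colC; field_simp; ring
  h21 := fun r => by
    have := (K.det_pos r).ne'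
    unfold colA colB; field_simp; ring
  h22 := fun r => by
    have := (K.det_pos r).ne'
    unfold colB colC; field_simp; ring
  A_pos := fun r => div_pos (K.D_pos r) (K.det_pos r)
  D_pos := fun r => by
    have := K.det_pos r
    have h2 : colA K.P K.B K.D r * colC K.P K.B K.D r - colB K.P K.B K.D r ^ 2 =
        1 / (K.P r * K.D r - K.B r ^ 2) := by
      unfold colA colB colC
      field_simp
    rw [h2]
    positivity

theorem deriv2_eq_Iic {f g : ℝ → ℝ} {a : ℝ} (hf : ContDiff ℝ ∞ f) (hg : ContDiff ℝ ∞ g)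
    (h : ∀ t ≤ a, f t = g t) :
    ∀ t ≤ a, deriv f t = deriv g t ∧ deriv (deriv f) t = deriv (deriv g) t := by
  have h1 := deriv_eq_Iic (fun t _ => cd_diff hf t) (fun t _ => cd_diff hg t) h
  have h2 := deriv_eq_Iic (fun t _ => cd_diff (cd_deriv hf) t)
    (fun t _ => cd_diff (cd_deriv hg) t) h1
  exact fun t ht => ⟨h1 t ht, h2 t ht⟩

theorem deriv2_eq_Ici {f g : ℝ → ℝ} {a : ℝ} (hf : ContDiff ℝ ∞ f) (hg : ContDiff ℝ ∞ g)
    (h : ∀ t, a ≤ t → f t = g t) :
    ∀ t, a ≤ t → deriv f t = deriv g t ∧ deriv (deriv f) t = deriv (deriv g) t := by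
  have h1 := deriv_eq_Ici (fun t _ => cd_diff hf t) (fun t _ => cd_diff hg t) h
  have h2 := deriv_eq_Ici (fun t _ => cd_diff (cd_deriv hf) t)
    (fun t _ => cd_diff (cd_deriv hg) t) h1
  exact fun t ht => ⟨h1 t ht, h2 t ht⟩

theorem deriv_sq1 (c : ℝ) : deriv (fun t : ℝ => (c - t) ^ 2) = fun t => -2 * (c - t) := by
  funext t
  have := ((hasDerivAt_id t).const_sub c).pow 2
  have h2 : HasDerivAt (fun t : ℝ => (c - t) ^ 2) (-2 * (c - t)) t := by
    refine this.congr_deriv ?_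
    simp
  exact h2.deriv

theorem deriv_sq2 (c r : ℝ) : deriv (fun t : ℝ => (t + c) ^ 2 + r) = fun t => 2 * (t + c) := by
  funext t
  have := (((hasDerivAt_id t).add_const c).pow 2).add_const r
  have h2 : HasDerivAt (fun t : ℝ => (t + c) ^ 2 + r) (2 * (t + c)) t := by
    refine this.congr_deriv ?_
    simp
  exact h2.deriv

theorem deriv_sq1' (c t : ℝ) : deriv (fun t : ℝ => -2 * (c - t)) t = 2 := by
  have := ((hasDerivAt_id t).const_sub c).const_mul (-2)
  have h2 : HasDerivAt (fun t : ℝ => -2 * (c - t)) 2 t := by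
    refine this.congr_deriv ?_
    norm_num
  exact h2.deriv

theorem deriv_sq2' (c t : ℝ) : deriv (fun t : ℝ => 2 * (t + c)) t = 2 := by
  have := ((hasDerivAt_id t).add_const c).const_mul 2
  have h2 : HasDerivAt (fun t : ℝ => 2 * (t + c)) 2 t := by
    refine this.congr_deriv ?_
    norm_num
  exact h2.deriv

theorem colCond : ColCond K.P K.B K.D (colA K.P K.B K.D) (colB K.P K.B K.D) (colC K.P K.B K.D)
    K.tL K.tR where
  tL_lt := K.tL_lt_t0.trans (K.t0_lt_t1.trans K.t1_lt_tR)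
  flatL := by
    intro t ht
    have ht0 : t ≤ K.t0 := ht.trans K.tL_lt_t0.le
    have hP := deriv2_eq_Iic K.smooth_P contDiff_const K.left_P t ht0
    have hB := deriv2_eq_Iic K.smooth_B contDiff_const K.left_B t ht0
    have hD := deriv2_eq_Iic K.smooth_D (g := fun t => (K.c1 - t) ^ 2)
      ((contDiff_const.sub contDiff_id).pow 2) K.left_D t ht
    rw [deriv_sq1, deriv_sq1'] at hD
    simp only [deriv_const', deriv_const] at hP hB
    have hc : 0 < K.c1 - t := by have := K.c1_pos; linarith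
    refine ⟨2 * (K.c1 - t), by positivity, (qw K).flatEnd hP.1 hB.1 ?_ hP.2 hB.2 ?_⟩
    · rw [hD.1]; ring
    · rw [hD.2]
      unfold colC
      rw [K.left_P t ht0, K.left_B t ht0, K.left_D t ht]
      have := K.Φ0_pos
      field_simp
      ring
  flatR := by
    intro t ht
    have ht1 : K.t1 ≤ t := K.t1_lt_tR.le.trans ht
    have hD := deriv2_eq_Ici K.smooth_D contDiff_const K.right_D t ht1
    have hB := deriv2_eq_Ici K.smooth_B contDiff_const K.right_B t ht1
    have hP := deriv2_eq_Ici K.smooth_P (g := fun t => (t + K.c2) ^ 2 + K.R0 ^ 2)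
      (((contDiff_id.add contDiff_const).pow 2).add contDiff_const) K.right_P t ht
    rw [deriv_sq2, deriv_sq2'] at hP
    simp only [deriv_const', deriv_const] at hD hB
    have hc : 0 < t + K.c2 := by have := K.c2_pos; linarith
    refine ⟨-(2 * (t + K.c2)), by linarith, (qw K).swap.flatEnd hD.1 hB.1 ?_ hD.2 hB.2 ?_⟩
    · rw [hP.1]; ring
    · rw [hP.2]
      unfold colA
      rw [K.right_P t ht, K.right_B t ht1, K.right_D t ht1]
      have := K.R0_pos
      have h3 : ((t + K.c2) ^ 2 + K.R0 ^ 2) * K.R0 ^ 2 - (K.R0 ^ 2) ^ 2 =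
        (t + K.c2) ^ 2 * K.R0 ^ 2 := by ring
      rw [h3]
      field_simp
  condR := fun t _ _ p q h => K.condR t p q h
  condL := fun t _ _ p q h => K.condL t p q h
  condZ := fun t _ _ p q h => K.condZ t p q h
  neX := by
    intro t _ _ p q hpq h
    rcases K.neX t p q hpq h with h1 | h1
    · exact Or.inl h1
    · right
      intro r
      have h2 := K.monoY r
      have h3 : qf (deriv (colA K.P K.B K.D) r) (deriv (colB K.P K.B K.D) r)
          (deriv (colC K.P K.B K.D) r) p q = q ^ 2 * colV1 K.P K.B K.D r 1 1 := by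
        rw [h1.1]; unfold colV1 qf; ring
      rw [h3]; positivity
  neY := by
    intro t _ _ p q hpq h
    rcases K.neY t p q hpq h with h1 | h1
    · exact Or.inl h1
    · right
      intro r
      have h2 := K.monoX r
      have h3 : qf (deriv (colA K.P K.B K.D) r) (deriv (colB K.P K.B K.D) r)
          (deriv (colC K.P K.B K.D) r) p q = p ^ 2 * deriv (colA K.P K.B K.D) r := by
        rw [h1.1]; unfold qf; ring
      rw [h3]
      exact mul_nonpos_of_nonneg_of_nonpos (sq_nonneg _) h2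
  endL := by
    intro p q h
    have h0 : K.tL ≤ K.t0 := K.tL_lt_t0.le
    have hB : colB K.P K.B K.D K.tL = 0 := by
      unfold colB; rw [K.left_B _ h0]; simp
    rw [hB, zero_mul, zero_add] at h
    have hq : q = 0 := (mul_eq_zero.1 h).resolve_left ((qw K).C_pos _).ne'
    refine Eventually.of_forall (fun r => ?_)
    have h2 := K.monoX r
    have h3 : qf (deriv (colA K.P K.B K.D) r) (deriv (colB K.P K.B K.D) r)
        (deriv (colC K.P K.B K.D) r) p q = p ^ 2 * deriv (colA K.P K.B K.D) r := by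
      rw [hq]; unfold qf; ring
    rw [h3]
    exact mul_nonpos_of_nonneg_of_nonpos (sq_nonneg _) h2
  endR := by
    intro p q h
    have h1 : K.t1 ≤ K.tR := K.t1_lt_tR.le
    have hD := K.det_pos K.tR
    have hpq : p = q := by
      unfold colA colB at h
      rw [K.right_B _ h1, K.right_D _ h1] at h
      rw [K.right_B _ h1, K.right_D _ h1] at hD
      have hR := K.R0_pos
      have e : K.R0 ^ 2 / (K.P K.tR * K.R0 ^ 2 - (K.R0 ^ 2) ^ 2) * p +
          -K.R0 ^ 2 / (K.P K.tR * K.R0 ^ 2 - (K.R0 ^ 2) ^ 2) * q =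
          K.R0 ^ 2 * (p - q) / (K.P K.tR * K.R0 ^ 2 - (K.R0 ^ 2) ^ 2) := by ring
      rw [e] at h
      have h2 := (div_eq_zero_iff.1 h).resolve_right hD.ne'
      have h3 := (mul_eq_zero.1 h2).resolve_left (by positivity)
      linarith
    refine Eventually.of_forall (fun r => ?_)
    have h2 := K.monoY r
    have h3 : qf (deriv (colA K.P K.B K.D) r) (deriv (colB K.P K.B K.D) r)
        (deriv (colC K.P K.B K.D) r) p q = q ^ 2 * colV1 K.P K.B K.D r 1 1 := by
      rw [hpq]; unfold colV1 qf; ring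
    rw [h3]; positivity

end Crest.Agent.R244.NCP
end

-- ▼ part R244/NCPEq
section

/-!
R244 (S0377), package NCP, part 7: from the Prelude equations to `EqAt`.
-/

set_option autoImplicit false
set_option maxSynthPendingDepth 3

open Filter Topology Set
open scoped ContDiff

namespace Crest.Agent.R244.NCP

open Crest.GeometryTopology.CoordMetric Crest.GeometryTopology.ChartCurvature
  Crest.GeometryTopology.Geodesic Crest.Agent.R244.CF

variable {Qa Qb Qc A B C : ℝ → ℝ}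

theorem contDiff_coord0 {f : ℝ → ℝ} (hf : ContDiff ℝ ∞ f) : ContDiff ℝ ∞ (fun y : E3 => f (y 0)) :=
  hf.comp (EuclideanSpace.proj (0 : Fin 3) : E3 →L[ℝ] ℝ).contDiff

theorem QW.isRiemannianOn (H : QW Qa Qb Qc A B C) : IsRiemannianOn (gC Qa Qb Qc) univ where
  isOpen := isOpen_univ
  contDiffOn := by
    intro i j
    apply ContDiff.contDiffOn
    unfold gC
    fin_cases i <;> fin_cases j <;>
      simp [contDiff_const, contDiff_coord0 H.sa, contDiff_coord0 H.sb, contDiff_coord0 H.sc]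
  posDef := by
    intro z _
    apply Matrix.PosDef.of_dotProduct_mulVec_pos
    · unfold gC
      ext i j
      fin_cases i <;> fin_cases j <;> simp [Matrix.conjTranspose_apply]
    · intro x hx
      have hQa : 0 < Qa (z 0) := by
        have h1 := H.h11 (z 0)
        have h2 := H.h12 (z 0)
        have h3 := H.D_pos (z 0)
        have h4 := H.C_pos (z 0)
        have h5 : Qa (z 0) * (A (z 0) * C (z 0) - B (z 0) ^ 2) = C (z 0) := by
          linear_combination C (z 0) * h1 - B (z 0) * h2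
        by_contra hc
        push Not at hc
        nlinarith
      have hdet : 0 < Qa (z 0) * Qc (z 0) - Qb (z 0) ^ 2 := by
        have h1 := H.h11 (z 0)
        have h2 := H.h12 (z 0)
        have h3 := H.h21 (z 0)
        have h4 := H.h22 (z 0)
        have h5 := H.D_pos (z 0)
        have h6 : (Qa (z 0) * Qc (z 0) - Qb (z 0) ^ 2) * (A (z 0) * C (z 0) - B (z 0) ^ 2) = 1 := by
          linear_combination (Qb (z 0) * B (z 0) + Qc (z 0) * C (z 0)) * h1 -
            (Qb (z 0) * A (z 0) + Qc (z 0) * B (z 0)) * h2 + h4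
        by_contra hc
        push Not at hc
        nlinarith
      have e : star x ⬝ᵥ (gC Qa Qb Qc z).mulVec x =
          x 0 ^ 2 + qf (Qa (z 0)) (Qb (z 0)) (Qc (z 0)) (x 1) (x 2) := by
        unfold gC qf
        simp [Matrix.mulVec, dotProduct, Fin.sum_univ_three]
        ring
      rw [e]
      by_cases h0 : x 0 = 0
      · have h12 : x 1 ≠ 0 ∨ x 2 ≠ 0 := by
          by_contra hc
          push Not at hc
          apply hx
          funext i
          fin_cases i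
          · exact h0
          · exact hc.1
          · exact hc.2
        have := qf_pos hQa hdet h12
        positivity
      · have := qf_nonneg hQa hdet (x 1) (x 2)
        positivity

theorem QW.eqAt (H : QW Qa Qb Qc A B C) {c J : ℝ → E3} {s : ℝ}
    (hc : ContDiffAt ℝ 2 c s) (hJ : ContDiffAt ℝ 2 J s)
    (hg : GeodesicEqAt (gC Qa Qb Qc) c s) (hj : JacobiEqAt (gC Qa Qb Qc) c J s) :
    EqAt (gC Qa Qb Qc) c J s := by
  have hR := H.isRiemannianOn
  refine ⟨(hc.differentiableAt (by simp)).hasDerivAt, (differentiableAt_deriv hc).hasDerivAt,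
    (hJ.differentiableAt (by simp)).hasDerivAt, (differentiableAt_deriv hJ).hasDerivAt, hg, ?_⟩
  have h := (jacobiEqAt_iff_linearized hR (mem_univ (c s)) (ev_differentiableAt hc)
    (differentiableAt_deriv hc) hg (ev_differentiableAt hJ) (differentiableAt_deriv hJ)).1 hj
  intro k
  have hk := congrArg (fun v : E3 => v k) h
  simp only [PiLp.add_apply, PiLp.smul_apply, smul_eq_mul, PiLp.zero_apply] at hk
  rw [fderiv_Gam_apply hR (mem_univ _), Gam_apply] at hk
  rw [← hk]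
  congr 1
  congr 1
  simp only [Fin.sum_univ_three]
  ring

section Congr

variable {n : ℕ} {g g' : MetricField n} {x : EuclideanSpace ℝ (Fin n)}

theorem pderiv_congr {f f' : EuclideanSpace ℝ (Fin n) → ℝ} (h : f =ᶠ[𝓝 x] f') (i : Fin n) :
    pderiv i f x = pderiv i f' x := by
  unfold pderiv
  rw [h.fderiv_eq]

theorem christoffel_congr (h : g =ᶠ[𝓝 x] g') (k i j : Fin n) :
    christoffel g x k i j = christoffel g' x k i j := by
  have h1 : ∀ i j, (fun y => g y i j) =ᶠ[𝓝 x] (fun y => g' y i j) := by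
    intro i j
    filter_upwards [h] with y hy
    rw [hy]
  unfold christoffel inverseField
  simp only [pderiv_congr (h1 _ _), h.self_of_nhds]

theorem christoffel_congr' (h : g =ᶠ[𝓝 x] g') (k i j : Fin n) :
    (fun y => christoffel g y k i j) =ᶠ[𝓝 x] (fun y => christoffel g' y k i j) := by
  filter_upwards [h.eventuallyEq_nhds] with y hy
  exact christoffel_congr hy k i j

theorem riemann_congr (h : g =ᶠ[𝓝 x] g') (l k i j : Fin n) :
    riemann g x l k i j = riemann g' x l k i j := by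
  unfold riemann
  simp only [pderiv_congr (christoffel_congr' h _ _ _), christoffel_congr h]

theorem geodesicEqAt_congr {c : ℝ → EuclideanSpace ℝ (Fin n)} {s : ℝ}
    (h : g =ᶠ[𝓝 (c s)] g') : GeodesicEqAt g c s ↔ GeodesicEqAt g' c s := by
  unfold GeodesicEqAt
  simp only [christoffel_congr h]

theorem covDeriv_congr {c V V' : ℝ → EuclideanSpace ℝ (Fin n)} {s : ℝ} (hV : V =ᶠ[𝓝 s] V')
    (h : g =ᶠ[𝓝 (c s)] g') : covDeriv g c V s = covDeriv g' c V' s := by
  unfold covDeriv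
  simp only [christoffel_congr h, hV.deriv_eq, hV.self_of_nhds]

theorem jacobiEqAt_congr {c J : ℝ → EuclideanSpace ℝ (Fin n)} {s : ℝ} (hc : ContinuousAt c s)
    (h : g =ᶠ[𝓝 (c s)] g') : JacobiEqAt g c J s ↔ JacobiEqAt g' c J s := by
  have h1 : covDeriv g c J =ᶠ[𝓝 s] covDeriv g' c J := by
    filter_upwards [hc.eventually h.eventuallyEq_nhds] with z hz
    exact covDeriv_congr (Filter.EventuallyEq.refl _ _) hz
  unfold JacobiEqAt
  simp only [covDeriv_congr h1 h, riemann_congr h]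

end Congr

/-- **The collar-local theorem** (final form of package NCP-A), for a metric field `g` which agrees
with the collar metric on an open set `U` containing the curve. -/
theorem collar_triple (K : CollarData) {g : MetricField 3} {U : Set E3} (hU : IsOpen U)
    (hgU : ∀ x ∈ U, g x = gC K.P K.B K.D x) {c J : ℝ → E3} {s₀ : ℝ} {E Hf : ℝ → ℝ}
    (hcU : c s₀ ∈ U)
    (hc : ∀ᶠ s in 𝓝 s₀, ContDiffAt ℝ 2 c s) (hJ : ∀ᶠ s in 𝓝 s₀, ContDiffAt ℝ 2 J s)
    (hgeo : ∀ᶠ s in 𝓝 s₀, GeodesicEqAt g c s) (hjac : ∀ᶠ s in 𝓝 s₀, JacobiEqAt g c J s)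
    (hE : ∀ᶠ s in 𝓝 s₀, E s = quadForm g (c s) (J s))
    (hH : ∀ᶠ s in 𝓝 s₀, Hf s = deriv E s / 2 +
      colK K.P K.B K.D K.tL K.tR (c s) (deriv c s) (J s)) :
    LocMono Hf s₀ ∧ (J s₀ = 0 ∧ deriv J s₀ ≠ 0 → ∀ᶠ z in 𝓝[>] s₀, Hf s₀ < Hf z) := by
  have hcU' : ∀ᶠ s in 𝓝 s₀, c s ∈ U :=
    (hc.self_of_nhds.continuousAt).eventually (hU.mem_nhds hcU)
  refine collar_local (qw K) (colCond K) (c := c) (J := J) (E := E) ?_ ?_ hH
  · filter_upwards [hcU', hc, hJ, hgeo, hjac] with s h1 h2 h3 h4 h5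
    have h6 : g =ᶠ[𝓝 (c s)] gC K.P K.B K.D := by
      filter_upwards [hU.mem_nhds h1] with y hy
      exact hgU y hy
    exact (qw K).eqAt h2 h3 ((geodesicEqAt_congr h6).1 h4)
      ((jacobiEqAt_congr h2.continuousAt h6).1 h5)
  · filter_upwards [hcU', hE] with s h1 h2
    rw [h2]
    unfold quadForm
    rw [hgU _ h1]
    unfold gC qf
    simp [Fin.sum_univ_three]
    ring

end Crest.Agent.R244.NCP
end

-- ▼ part R244/ChartEq
section

/-!
# R244 (S0377): geodesic and Jacobi equations in one fixed chart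

`IsGeodesic`/`IsJacobiField` test each parameter in its own preferred chart; here the equations
are transported to the chart at `γ s₀` for all parameters `s` with `γ s` in its domain.
-/

set_option autoImplicit false
set_option maxSynthPendingDepth 3

open Filter Topology Set Bundle
open scoped ContDiff Manifold

noncomputable section

namespace Crest.Agent.R244.NCP

open Crest.GeometryTopology.CoordMetric Crest.GeometryTopology.ChartCurvature
  Crest.GeometryTopology.Geodesic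

section Germs

variable {n : ℕ}

theorem geodesicEqAt_congr_curve {g : MetricField n} {c c' : ℝ → EuclideanSpace ℝ (Fin n)} {s : ℝ}
    (h : c =ᶠ[𝓝 s] c') : GeodesicEqAt g c s ↔ GeodesicEqAt g c' s := by
  have h1 : deriv c =ᶠ[𝓝 s] deriv c' := h.deriv
  unfold GeodesicEqAt
  rw [h1.deriv_eq, h.self_of_nhds, h1.self_of_nhds]

theorem covDeriv_congr_curve {g : MetricField n} {c c' V V' : ℝ → EuclideanSpace ℝ (Fin n)} {s : ℝ}
    (h : c =ᶠ[𝓝 s] c') (hV : V =ᶠ[𝓝 s] V') : covDeriv g c V =ᶠ[𝓝 s] covDeriv g c' V' := by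
  filter_upwards [h.eventuallyEq_nhds, hV.eventuallyEq_nhds] with t ht htV
  unfold covDeriv
  rw [htV.deriv_eq, htV.self_of_nhds, ht.deriv_eq, ht.self_of_nhds]

theorem jacobiEqAt_congr_curve {g : MetricField n} {c c' V V' : ℝ → EuclideanSpace ℝ (Fin n)}
    {s : ℝ} (h : c =ᶠ[𝓝 s] c') (hV : V =ᶠ[𝓝 s] V') :
    JacobiEqAt g c V s ↔ JacobiEqAt g c' V' s := by
  have h1 := covDeriv_congr_curve (g := g) h (covDeriv_congr_curve (g := g) h hV)
  unfold JacobiEqAt
  rw [h1.self_of_nhds, h.self_of_nhds, h.deriv_eq, hV.self_of_nhds]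

end Germs

variable {n : ℕ} {M : Type*} [TopologicalSpace M] [ChartedSpace (EuclideanSpace ℝ (Fin n)) M]
  [IsManifold 𝓘(ℝ, EuclideanSpace ℝ (Fin n)) ∞ M]

local notation "𝔼" => EuclideanSpace ℝ (Fin n)
local notation "𝓘E" => 𝓘(ℝ, EuclideanSpace ℝ (Fin n))


theorem contDiffAt_chartCurve {γ : ℝ → M} (hγ : ContMDiff 𝓘(ℝ, ℝ) 𝓘E ∞ γ) {x₀ : M} {s : ℝ}
    (hs : γ s ∈ (chartAt 𝔼 x₀).source) : ContDiffAt ℝ ∞ (fun s => chartAt 𝔼 x₀ (γ s)) s := by
  rw [← contMDiffAt_iff_contDiffAt]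
  have h1 : ContMDiffAt 𝓘E 𝓘E ∞ (chartAt 𝔼 x₀) (γ s) :=
    contMDiffOn_chart.contMDiffAt ((chartAt 𝔼 x₀).open_source.mem_nhds hs)
  exact h1.comp s (hγ s)

theorem contDiffAt_mfderiv_chart {γ : ℝ → M} {J : ℝ → 𝔼}
    (hJ : ContMDiff 𝓘(ℝ, ℝ) (𝓘E).tangent ∞
      (fun t => (TotalSpace.mk' 𝔼 (γ t) (J t) : TangentBundle 𝓘E M))) {x₀ : M} {s : ℝ}
    (hs : γ s ∈ (chartAt 𝔼 x₀).source) :
    ContDiffAt ℝ ∞ (fun s => (mfderiv 𝓘E 𝓘E (chartAt 𝔼 x₀) (γ s) (J s) : 𝔼)) s := by
  have h1 : ContMDiffOn 𝓘E 𝓘E ∞ (chartAt 𝔼 x₀) (chartAt 𝔼 x₀).source := contMDiffOn_chart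
  have h2 := h1.contMDiffOn_tangentMapWithin (m := ∞) (by simp)
    (chartAt 𝔼 x₀).open_source.uniqueMDiffOn
  have hγc : ContinuousAt γ s := by
    have := (hJ s).continuousAt
    exact (FiberBundle.continuous_proj 𝔼 (TangentSpace 𝓘E)).continuousAt.comp this
  have hopen : IsOpen (π 𝔼 (TangentSpace 𝓘E) ⁻¹' (chartAt 𝔼 x₀).source) :=
    (chartAt 𝔼 x₀).open_source.preimage (FiberBundle.continuous_proj 𝔼 (TangentSpace 𝓘E))
  have h3 := (h2.contMDiffAt (x := TotalSpace.mk' 𝔼 (γ s) (J s)) (hopen.mem_nhds hs)).comp s (hJ s)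
  have h4 := (contMDiff_snd_tangentBundle_modelSpace 𝔼 𝓘E (n := ∞)).contMDiffAt.comp s h3
  rw [contMDiffAt_iff_contDiffAt] at h4
  refine h4.congr_of_eventuallyEq ?_
  filter_upwards [hγc.eventually ((chartAt 𝔼 x₀).open_source.mem_nhds hs)] with t ht
  simp only [Function.comp, tangentMapWithin]
  rw [mfderivWithin_eq_mfderiv ((chartAt 𝔼 x₀).open_source.uniqueMDiffWithinAt ht)
    ((h1.contMDiffAt ((chartAt 𝔼 x₀).open_source.mem_nhds ht)).mdifferentiableAt (by simp))]

variable (g : ContMDiffRiemannianMetric 𝓘(ℝ, EuclideanSpace ℝ (Fin n)) ∞ (EuclideanSpace ℝ (Fin n))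
      (fun x : M => TangentSpace 𝓘(ℝ, EuclideanSpace ℝ (Fin n)) x))

/-- The geodesic equation in the chart at `x₀`, at every parameter `s` with `γ s` in its domain. -/
theorem geodesicEqAt_chart {γ : ℝ → M} (hγ : IsGeodesic g γ) {x₀ : M} {s : ℝ}
    (hs : γ s ∈ (chartAt 𝔼 x₀).source) :
    GeodesicEqAt (metricInChart g x₀) (fun s => chartAt 𝔼 x₀ (γ s)) s := by
  have hy : chartAt 𝔼 x₀ (γ s) ∈ (chartAt 𝔼 x₀).target := (chartAt 𝔼 x₀).map_source hs
  have hy1 : (chartAt 𝔼 x₀).symm (chartAt 𝔼 x₀ (γ s)) ∈ (chartAt 𝔼 (γ s)).source := by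
    rw [(chartAt 𝔼 x₀).left_inv hs]; exact mem_chart_source 𝔼 (γ s)
  have hφ := locIsoAt_transition g x₀ (γ s) hy hy1
  have hc := (contDiffAt_chartCurve hγ.1 hs).of_le (m := 2) CF.two_le_infty
  rw [← CF.geodesicEqAt_comp (isRiemannianOn_metricInChart g x₀)
    (isRiemannianOn_metricInChart g (γ s)) (c := fun s => chartAt 𝔼 x₀ (γ s)) hφ hc]
  refine (geodesicEqAt_congr_curve ?_).1 (hγ.2 s)
  filter_upwards [hγ.1.continuous.continuousAt.eventually
    ((chartAt 𝔼 x₀).open_source.mem_nhds hs)] with u hu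
  simp only [Function.comp_apply]
  rw [(chartAt 𝔼 x₀).left_inv hu]

/-- The Jacobi equation in the chart at `x₀`, at every parameter `s` with `γ s` in its domain. -/
theorem jacobiEqAt_chart {γ : ℝ → M} {J : ℝ → 𝔼} (hγ : IsGeodesic g γ)
    (hJ : IsJacobiField g γ J) {x₀ : M} {s : ℝ} (hs : γ s ∈ (chartAt 𝔼 x₀).source) :
    JacobiEqAt (metricInChart g x₀) (fun s => chartAt 𝔼 x₀ (γ s))
      (fun s => (mfderiv 𝓘E 𝓘E (chartAt 𝔼 x₀) (γ s) (J s) : 𝔼)) s := by
  have hy : chartAt 𝔼 x₀ (γ s) ∈ (chartAt 𝔼 x₀).target := (chartAt 𝔼 x₀).map_source hs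
  have hy1 : (chartAt 𝔼 x₀).symm (chartAt 𝔼 x₀ (γ s)) ∈ (chartAt 𝔼 (γ s)).source := by
    rw [(chartAt 𝔼 x₀).left_inv hs]; exact mem_chart_source 𝔼 (γ s)
  have hφ := locIsoAt_transition g x₀ (γ s) hy hy1
  have hc := (contDiffAt_chartCurve hγ.1 hs).of_le (m := 2) CF.two_le_infty
  have hV := (contDiffAt_mfderiv_chart hJ.1 hs).of_le (m := 2) CF.two_le_infty
  rw [← CF.jacobiEqAt_comp (isRiemannianOn_metricInChart g x₀)
    (isRiemannianOn_metricInChart g (γ s)) (c := fun s => chartAt 𝔼 x₀ (γ s)) hφ hc hV]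
  have hnear : ∀ᶠ u in 𝓝 s, γ u ∈ (chartAt 𝔼 x₀).source ∩ (chartAt 𝔼 (γ s)).source :=
    hγ.1.continuous.continuousAt.eventually
      (((chartAt 𝔼 x₀).open_source.inter (chartAt 𝔼 (γ s)).open_source).mem_nhds
        ⟨hs, mem_chart_source 𝔼 (γ s)⟩)
  refine (jacobiEqAt_congr_curve ?_ ?_).1 (hJ.2 s)
  · filter_upwards [hnear] with u hu
    simp only [Function.comp_apply]
    rw [(chartAt 𝔼 x₀).left_inv hu.1]
  · filter_upwards [hnear] with u hu
    -- chain rule at `γ u`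
    set τ : 𝔼 → 𝔼 := (chartAt 𝔼 (γ s)) ∘ (chartAt 𝔼 x₀).symm with hτ
    have hyu : chartAt 𝔼 x₀ (γ u) ∈ (chartAt 𝔼 x₀).target := (chartAt 𝔼 x₀).map_source hu.1
    have hyu1 : (chartAt 𝔼 x₀).symm (chartAt 𝔼 x₀ (γ u)) ∈ (chartAt 𝔼 (γ s)).source := by
      rw [(chartAt 𝔼 x₀).left_inv hu.1]; exact hu.2
    have hτd : MDifferentiableAt 𝓘E 𝓘E τ (chartAt 𝔼 x₀ (γ u)) := by
      have h1 : MDifferentiableAt 𝓘E 𝓘E (chartAt 𝔼 x₀).symm (chartAt 𝔼 x₀ (γ u)) :=
        mdifferentiableAt_atlas_symm (chart_mem_atlas _ _) hyu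
      have h2 : MDifferentiableAt 𝓘E 𝓘E (chartAt 𝔼 (γ s))
          ((chartAt 𝔼 x₀).symm (chartAt 𝔼 x₀ (γ u))) :=
        mdifferentiableAt_atlas (chart_mem_atlas _ _) hyu1
      exact h2.comp _ h1
    have hcd : MDifferentiableAt 𝓘E 𝓘E (chartAt 𝔼 x₀) (γ u) :=
      mdifferentiableAt_atlas (chart_mem_atlas _ _) hu.1
    have hEq : (chartAt 𝔼 (γ s) : M → 𝔼) =ᶠ[𝓝 (γ u)] τ ∘ (chartAt 𝔼 x₀) := by
      filter_upwards [(chartAt 𝔼 x₀).open_source.mem_nhds hu.1] with z hz
      simp only [hτ, Function.comp_apply]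
      rw [(chartAt 𝔼 x₀).left_inv hz]
    have h3 := mfderiv_comp (γ u) hτd hcd
    have h4 : mfderiv 𝓘E 𝓘E (chartAt 𝔼 (γ s)) (γ u) =
        mfderiv 𝓘E 𝓘E (τ ∘ (chartAt 𝔼 x₀)) (γ u) := hEq.mfderiv_eq
    rw [h4, h3, mfderiv_eq_fderiv]
    rfl

end Crest.Agent.R244.NCP
end
end

-- ▼ part R244/NCPFinal
section

/-!
# R244 (S0377), package NCP-C: assembly on the glued manifold
-/

set_option autoImplicit false
set_option maxSynthPendingDepth 3

open Filter Topology Set Bundle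
open scoped ContDiff Manifold

noncomputable section

namespace Crest.Agent.R244.NCP

open Crest.GeometryTopology.CoordMetric Crest.GeometryTopology.ChartCurvature
  Crest.GeometryTopology.Geodesic Crest.Agent.R244.Man Crest.Agent.R244.Man.Glue

/-! ### flat triple in the form of `collar_triple` -/

theorem isRiemannianOn_const {Q : Matrix (Fin 3) (Fin 3) ℝ} (hQ : Q.PosDef) :
    IsRiemannianOn (fun _ : E3 => Q) univ where
  isOpen := isOpen_univ
  contDiffOn _ _ := contDiffOn_const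
  posDef _ _ := hQ

theorem eqAt_const {Q : Matrix (Fin 3) (Fin 3) ℝ} (hQ : Q.PosDef) {c J : ℝ → E3} {s : ℝ}
    (hc : ContDiffAt ℝ 2 c s) (hJ : ContDiffAt ℝ 2 J s)
    (hg : GeodesicEqAt (fun _ => Q) c s) (hj : JacobiEqAt (fun _ => Q) c J s) :
    EqAt (fun _ => Q) c J s := by
  have hR := isRiemannianOn_const hQ
  refine ⟨(hc.differentiableAt (by simp)).hasDerivAt, (CF.differentiableAt_deriv hc).hasDerivAt,
    (hJ.differentiableAt (by simp)).hasDerivAt, (CF.differentiableAt_deriv hJ).hasDerivAt, hg, ?_⟩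
  have h := (CF.jacobiEqAt_iff_linearized hR (mem_univ (c s)) (CF.ev_differentiableAt hc)
    (CF.differentiableAt_deriv hc) hg (CF.ev_differentiableAt hJ)
    (CF.differentiableAt_deriv hJ)).1 hj
  intro k
  have hk := congrArg (fun v : E3 => v k) h
  simp only [PiLp.add_apply, PiLp.smul_apply, smul_eq_mul, PiLp.zero_apply] at hk
  rw [CF.fderiv_Gam_apply hR (mem_univ _), CF.Gam_apply] at hk
  rw [← hk]
  congr 1
  congr 1
  simp only [Fin.sum_univ_three]
  ring

theorem flat_triple {Q : Matrix (Fin 3) (Fin 3) ℝ} (hQ : Q.PosDef) {g : MetricField 3}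
    {U : Set E3} (hU : IsOpen U) (hgU : ∀ x ∈ U, g x = Q) {c J : ℝ → E3} {s₀ : ℝ}
    {E Hf : ℝ → ℝ} (hcU : c s₀ ∈ U)
    (hc : ∀ᶠ s in 𝓝 s₀, ContDiffAt ℝ 2 c s) (hJ : ∀ᶠ s in 𝓝 s₀, ContDiffAt ℝ 2 J s)
    (hgeo : ∀ᶠ s in 𝓝 s₀, GeodesicEqAt g c s) (hjac : ∀ᶠ s in 𝓝 s₀, JacobiEqAt g c J s)
    (hE : ∀ᶠ s in 𝓝 s₀, E s = quadForm g (c s) (J s))
    (hH : ∀ᶠ s in 𝓝 s₀, Hf s = deriv E s / 2) :
    LocMono Hf s₀ ∧ (J s₀ = 0 ∧ deriv J s₀ ≠ 0 → ∀ᶠ z in 𝓝[>] s₀, Hf s₀ < Hf z) := by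
  have hcU' : ∀ᶠ s in 𝓝 s₀, c s ∈ U :=
    hc.self_of_nhds.continuousAt.eventually (hU.mem_nhds hcU)
  refine flat_local hQ (c := c) (E := E) ?_ ?_ hH
  · filter_upwards [hcU', hc, hJ, hgeo, hjac] with s h1 h2 h3 h4 h5
    have hev : g =ᶠ[𝓝 (c s)] fun _ => Q := by
      filter_upwards [hU.mem_nhds h1] with x hx using hgU x hx
    exact eqAt_const hQ h2 h3 ((geodesicEqAt_congr hev).1 h4)
      ((jacobiEqAt_congr h2.continuousAt hev).1 h5)
  · filter_upwards [hcU', hE] with s h1 h2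
    rw [h2, quadForm, hgU _ h1]

theorem colK_congr {Qa Qb Qc : ℝ → ℝ} {tL tR : ℝ} {x x' : E3} (h : x 0 = x' 0) (v j : E3) :
    colK Qa Qb Qc tL tR x v j = colK Qa Qb Qc tL tR x' v j := by
  unfold colK
  rw [h]

theorem colK_eq_zero {Qa Qb Qc : ℝ → ℝ} {tL tR : ℝ} {x : E3} (h : ¬ (tL < x 0 ∧ x 0 < tR))
    (v j : E3) : colK Qa Qb Qc tL tR x v j = 0 := by
  unfold colK
  rw [if_neg h]

/-- What we use of the concrete glued manifold: the piece `col` carries the collar metric, the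
other pieces are flat, the gluing of the collar piece with itself is by translations preserving the
`t`-coordinate and the open collar meets no other piece. -/
structure CollarGlue {ι : Type} (G : Glue ι 3) (D : G.MetricData) (K : CollarData) (col : ι) :
    Prop where
  mat_col : ∀ z ∈ G.U col, D.mat col z = gC K.P K.B K.D z
  mat_flat : ∀ i, i ≠ col → ∃ Q : Matrix (Fin 3) (Fin 3) ℝ, Q.PosDef ∧ ∀ z ∈ G.U i, D.mat i z = Q
  rel_col : ∀ (p q : E3) (τ : E3 → E3), G.Trans col col p q τ →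
    q 0 = p 0 ∧ fderiv ℝ τ p = ContinuousLinearMap.id ℝ E3
  rel_flat : ∀ i, i ≠ col → ∀ (p q : E3) (τ : E3 → E3), G.Trans i col p q τ →
    ¬ (K.tL < q 0 ∧ q 0 < K.tR)

section Main

variable {ι : Type} {G : Glue ι 3} {D : G.MetricData} {K : CollarData} {col : ι}

theorem CollarGlue.rel_flat' (h : CollarGlue G D K col) {i : ι} (hi : i ≠ col) {p q : E3}
    {τ : E3 → E3} (hτ : G.Trans col i p q τ) : ¬ (K.tL < p 0 ∧ p 0 < K.tR) := by
  obtain ⟨hp, hq, hr⟩ := hτ.rel
  obtain ⟨σ, hσ⟩ := G.exists_trans (G.r.symm hr)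
  exact h.rel_flat i hi _ _ _ hσ

open Classical in
/-- The monotone function. -/
def Hfun (D : G.MetricData) (K : CollarData) (col : ι) (γ : ℝ → G.M) (J : ℝ → E3) (s : ℝ) : ℝ :=
  deriv (Efun D γ J) s / 2 +
    if G.idx (γ s) = col then
      colK K.P K.B K.D K.tL K.tR (G.pt (γ s)) (deriv (fun u => chartAt E3 (γ s) (γ u)) s) (J s)
    else 0

theorem Hfun_zero (γ : ℝ → G.M) (J : ℝ → E3) {s : ℝ} (h : J s = 0) : Hfun D K col γ J s = 0 := by
  unfold Hfun
  rw [deriv_Efun_eq_zero D γ J h, h]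
  simp [colK_zero]

theorem CollarGlue.key (h : CollarGlue G D K col) {γ : ℝ → G.M} {J : ℝ → E3}
    (hγ : IsGeodesic D.toMetric γ) (hJ : IsJacobiField D.toMetric γ J) (s₀ : ℝ) :
    LocMono (Hfun D K col γ J) s₀ ∧ (J s₀ = 0 → deriv (chartField γ J s₀) s₀ ≠ 0 →
      ∀ᶠ z in 𝓝[>] s₀, Hfun D K col γ J s₀ < Hfun D K col γ J z) := by
  classical
  set m₀ : G.M := γ s₀ with hm₀
  set c : ℝ → E3 := fun s => chartAt E3 m₀ (γ s) with hc
  set j : ℝ → E3 := chartField γ J s₀ with hj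
  have hs₀ : γ s₀ ∈ (chartAt E3 m₀).source := mem_chart_source E3 m₀
  have hnear : ∀ᶠ s in 𝓝 s₀, γ s ∈ (chartAt E3 m₀).source :=
    hγ.1.continuous.continuousAt.eventually ((chartAt E3 m₀).open_source.mem_nhds hs₀)
  have hcd : ∀ᶠ s in 𝓝 s₀, ContDiffAt ℝ 2 c s := by
    filter_upwards [hnear] with s hs
    exact (contDiffAt_chartCurve hγ.1 hs).of_le CF.two_le_infty
  have hjd : ∀ᶠ s in 𝓝 s₀, ContDiffAt ℝ 2 j s := by
    filter_upwards [hnear] with s hs
    exact (contDiffAt_mfderiv_chart hJ.1 hs).of_le CF.two_le_infty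
  have hgeo : ∀ᶠ s in 𝓝 s₀, GeodesicEqAt (metricInChart D.toMetric m₀) c s := by
    filter_upwards [hnear] with s hs
    exact geodesicEqAt_chart D.toMetric hγ hs
  have hjac : ∀ᶠ s in 𝓝 s₀, JacobiEqAt (metricInChart D.toMetric m₀) c j s := by
    filter_upwards [hnear] with s hs
    exact jacobiEqAt_chart D.toMetric hγ hJ hs
  have hU : IsOpen (G.nb m₀) := G.isOpen_nb m₀
  have hcU : c s₀ ∈ G.nb m₀ := G.chartAt_mem_nb hs₀
  have hE : ∀ᶠ s in 𝓝 s₀,
      Efun D γ J s = quadForm (metricInChart D.toMetric m₀) (c s) (j s) := by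
    filter_upwards [hnear] with s hs
    rw [quadForm, D.metricInChart_eq m₀ (G.chartAt_mem_nb hs)]
    exact (Efun_eq D m₀ hs).trans (g_apply_eq_sum D _ _ _ _)
  have hj0 : J s₀ = 0 → j s₀ = 0 := by
    intro h0
    have : j s₀ = ((mfderiv 𝓘(ℝ, EuclideanSpace ℝ (Fin 3)) 𝓘(ℝ, EuclideanSpace ℝ (Fin 3))
        (chartAt (EuclideanSpace ℝ (Fin 3)) m₀) (γ s₀) : E3 → E3) (J s₀)) := rfl
    rw [this, h0]
    exact map_zero _
  -- own chart data versus chart at `m₀`
  have hv : ∀ s, γ s ∈ (chartAt E3 m₀).source →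
      deriv (fun u => chartAt E3 (γ s) (γ u)) s =
        fderiv ℝ (chartAt E3 (γ s) ∘ G.F (G.idx m₀)) (c s) (deriv c s) := fun s hs =>
    deriv_own_chart m₀ hγ.1.continuous.continuousAt hs
      ((contDiffAt_chartCurve hγ.1 hs).differentiableAt (by simp))
  have hw : ∀ s, γ s ∈ (chartAt E3 m₀).source →
      fderiv ℝ (chartAt E3 (γ s) ∘ G.F (G.idx m₀)) (c s) (j s) = J s := fun s hs =>
    fderiv_trans_mfderiv m₀ hs (J s)
  by_cases hi : G.idx m₀ = col
  · -- the collar chart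
    have hH : ∀ᶠ s in 𝓝 s₀, Hfun D K col γ J s = deriv (Efun D γ J) s / 2 +
        colK K.P K.B K.D K.tL K.tR (c s) (deriv c s) (j s) := by
      filter_upwards [hnear] with s hs
      have hτ := trans_center m₀ (γ s) hs
      unfold Hfun
      congr 1
      by_cases hi' : G.idx (γ s) = col
      · rw [if_pos hi']
        have hτ' : G.Trans col col (c s) (G.pt (γ s)) (chartAt E3 (γ s) ∘ G.F (G.idx m₀)) := by
          rw [hi, hi'] at hτ
          rw [hi]
          exact hτ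
        obtain ⟨h1, h2⟩ := h.rel_col _ _ _ hτ'
        have h3 := hv s hs
        have h4 := hw s hs
        rw [h2] at h3 h4
        rw [h3, ← h4]
        exact colK_congr h1 _ _
      · rw [if_neg hi']
        rw [hi] at hτ
        exact (colK_eq_zero (h.rel_flat' hi' hτ) _ _).symm
    have := collar_triple K hU (g := metricInChart D.toMetric m₀) (fun x hx => by
      rw [D.metricInChart_eq m₀ hx, hi]
      exact h.mat_col x (by rw [← hi]; exact G.nb_subset m₀ hx)) hcU hcd hjd hgeo hjac hE hH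
    exact ⟨this.1, fun h0 h1 => this.2 ⟨hj0 h0, h1⟩⟩
  · -- a flat chart
    obtain ⟨Q, hQ, hQU⟩ := h.mat_flat _ hi
    have hH : ∀ᶠ s in 𝓝 s₀, Hfun D K col γ J s = deriv (Efun D γ J) s / 2 := by
      filter_upwards [hnear] with s hs
      have hτ := trans_center m₀ (γ s) hs
      unfold Hfun
      by_cases hi' : G.idx (γ s) = col
      · rw [if_pos hi']
        rw [hi'] at hτ
        rw [colK_eq_zero (h.rel_flat _ hi _ _ _ hτ), add_zero]
      · rw [if_neg hi', add_zero]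
    have := flat_triple hQ hU (g := metricInChart D.toMetric m₀) (fun x hx => by
      rw [D.metricInChart_eq m₀ hx]
      exact hQU x (G.nb_subset m₀ hx)) hcU hcd hjd hgeo hjac hE hH
    exact ⟨this.1, fun h0 h1 => this.2 ⟨hj0 h0, h1⟩⟩

/-- **Package NCP, final form** (modulo the uniqueness statement for Jacobi fields). -/
theorem CollarGlue.noConjugatePoints (h : CollarGlue G D K col)
    (huniq : ∀ (γ : ℝ → G.M) (J : ℝ → E3), IsGeodesic D.toMetric γ →
      IsJacobiField D.toMetric γ J → ∀ a, J a = 0 → deriv (chartField γ J a) a = 0 →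
        ∀ t, J t = 0) :
    NoConjugatePoints D.toMetric :=
  noConjugatePoints_of D.toMetric (fun γ J hγ hJ => ⟨Hfun D K col γ J,
    fun s => (h.key hγ hJ s).1, fun _ hs => Hfun_zero γ J hs,
    fun s hs hd => (h.key hγ hJ s).2 hs hd⟩) huniq

end Main

end Crest.Agent.R244.NCP
end
end

-- ▼ part R244/NCPUnique
section

/-!
# R244, NCP-B (3): a Jacobi field with a degenerate zero vanishes identically
-/

set_option autoImplicit false
set_option maxSynthPendingDepth 3

open Filter Topology Set Bundle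
open scoped ContDiff Manifold

namespace Crest.Agent.R244.NCP

open Crest.GeometryTopology.CoordMetric Crest.GeometryTopology.ChartCurvature
  Crest.GeometryTopology.Geodesic

section Local

variable {E : Type*} [NormedAddCommGroup E] [NormedSpace ℝ E]

/-- local uniqueness for the linearized geodesic equation -/
theorem zero_near_of_linearized {U : Set E} {g : E → E →L[ℝ] E →L[ℝ] ℝ}
    {Γ : E → E →L[ℝ] E →L[ℝ] E} (h : CF.IsLC U g Γ) {c j : ℝ → E} {t₀ : ℝ} (hx : c t₀ ∈ U)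
    (hc : ∀ᶠ s in 𝓝 t₀, ContDiffAt ℝ 2 c s) (hj : ∀ᶠ s in 𝓝 t₀, ContDiffAt ℝ 2 j s)
    (hgeo : ∀ᶠ s in 𝓝 t₀, CF.cov Γ c (deriv c) s = 0)
    (hjac : ∀ᶠ s in 𝓝 t₀, CF.cov Γ c (CF.cov Γ c j) s
      + CF.curv Γ (c s) (j s) (deriv c s) (deriv c s) = 0)
    (h0 : j t₀ = 0) (h1 : deriv j t₀ = 0) : ∀ᶠ s in 𝓝 t₀, j s = 0 := by
  classical
  set F : E × E × E × E → E × E × E × E := fun p =>
    (p.2.1, -(Γ p.1 p.2.1 p.2.1), p.2.2.2,
      -(fderiv ℝ Γ p.1 p.2.2.1 p.2.1 p.2.1) - (2 : ℝ) • Γ p.1 p.2.1 p.2.2.2) with hF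
  have hΓ : ContDiffAt ℝ 1 Γ (c t₀) := (h.Γ_contDiffAt hx).of_le (by simp)
  have hdΓ : ContDiffAt ℝ 1 (fderiv ℝ Γ) (c t₀) :=
    ((h.Γ_contDiffAt hx).fderiv_right (m := ∞) (by simp)).of_le (by simp)
  have hFc : ContDiffAt ℝ 1 F (c t₀, deriv c t₀, 0, 0) := by
    have q1 : ContDiffAt ℝ 1 (fun p : E × E × E × E => p.1) (c t₀, deriv c t₀, 0, 0) :=
      contDiffAt_fst
    have q2 : ContDiffAt ℝ 1 (fun p : E × E × E × E => p.2.1) (c t₀, deriv c t₀, 0, 0) :=
      contDiffAt_fst.comp _ contDiffAt_snd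
    have q3 : ContDiffAt ℝ 1 (fun p : E × E × E × E => p.2.2.1) (c t₀, deriv c t₀, 0, 0) :=
      contDiffAt_fst.comp _ (contDiffAt_snd.comp _ contDiffAt_snd)
    have q4 : ContDiffAt ℝ 1 (fun p : E × E × E × E => p.2.2.2) (c t₀, deriv c t₀, 0, 0) :=
      contDiffAt_snd.comp _ (contDiffAt_snd.comp _ contDiffAt_snd)
    have g1 : ContDiffAt ℝ 1 (fun p : E × E × E × E => Γ p.1) (c t₀, deriv c t₀, 0, 0) :=
      ContDiffAt.comp (g := Γ) (f := fun p : E × E × E × E => p.1) _ hΓ q1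
    have g2 : ContDiffAt ℝ 1 (fun p : E × E × E × E => fderiv ℝ Γ p.1)
        (c t₀, deriv c t₀, 0, 0) :=
      ContDiffAt.comp (g := fderiv ℝ Γ) (f := fun p : E × E × E × E => p.1) _ hdΓ q1
    refine q2.prodMk (ContDiffAt.prodMk ?_ (q4.prodMk ?_))
    · exact ((g1.clm_apply q2).clm_apply q2).neg
    · exact ((((g2.clm_apply q3).clm_apply q2).clm_apply q2).neg).sub
        (contDiffAt_const.smul ((g1.clm_apply q2).clm_apply q4))
  obtain ⟨K, S, hS, hLip⟩ := hFc.exists_lipschitzOnWith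
  have hc0 := hc.self_of_nhds
  have hj0 := hj.self_of_nhds
  have hcc : ContinuousAt c t₀ := hc0.continuousAt
  have hcd : ContinuousAt (deriv c) t₀ := (CF.differentiableAt_deriv hc0).continuousAt
  have hjc : ContinuousAt j t₀ := hj0.continuousAt
  have hjd : ContinuousAt (deriv j) t₀ := (CF.differentiableAt_deriv hj0).continuousAt
  have hU : ∀ᶠ s in 𝓝 t₀, c s ∈ U := hcc.eventually (h.isOpen.mem_nhds hx)
  -- the second order equation
  have hODE : ∀ᶠ s in 𝓝 t₀, deriv (deriv c) s = -(Γ (c s) (deriv c s) (deriv c s)) ∧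
      deriv (deriv j) s = -(fderiv ℝ Γ (c s) (j s) (deriv c s) (deriv c s))
        - (2 : ℝ) • Γ (c s) (deriv c s) (deriv j s) := by
    filter_upwards [hc, hj, hgeo, hjac, hU] with s hs1 hs2 hs3 hs4 hs5
    have e := h.jacobi_eq hs5 (CF.ev_differentiableAt hs1) (CF.differentiableAt_deriv hs1) hs3
      (CF.ev_differentiableAt hs2) (CF.differentiableAt_deriv hs2)
    rw [hs4] at e
    refine ⟨eq_neg_of_add_eq_zero_left hs3, ?_⟩
    have e' : deriv (deriv j) s = -(fderiv ℝ Γ (c s) (j s) (deriv c s) (deriv c s)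
        + (2 : ℝ) • Γ (c s) (deriv c s) (deriv j s)) := by
      rw [add_assoc] at e
      exact eq_neg_of_add_eq_zero_left e.symm
    rw [e']
    abel
  set f : ℝ → E × E × E × E := fun s => (c s, deriv c s, j s, deriv j s) with hf
  set k : ℝ → E × E × E × E := fun s => (c s, deriv c s, 0, 0) with hk
  have hfc : ContinuousAt f t₀ := hcc.prodMk (hcd.prodMk (hjc.prodMk hjd))
  have hkc : ContinuousAt k t₀ :=
    hcc.prodMk (hcd.prodMk (continuousAt_const.prodMk continuousAt_const))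
  have hfS : ∀ᶠ s in 𝓝 t₀, f s ∈ S := hfc.eventually (by
    have : f t₀ = (c t₀, deriv c t₀, 0, 0) := by simp [hf, h0, h1]
    rw [this]; exact hS)
  have hkS : ∀ᶠ s in 𝓝 t₀, k s ∈ S := hkc.eventually hS
  have hfd : ∀ᶠ s in 𝓝 t₀, HasDerivAt f (F (f s)) s ∧ f s ∈ S := by
    filter_upwards [hfS, hODE, hc, hj] with s hs hs' hs1 hs2
    refine ⟨?_, hs⟩
    have a1 := (CF.ev_differentiableAt hs1).self_of_nhds.hasDerivAt
    have a2 := (CF.differentiableAt_deriv hs1).hasDerivAt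
    have a3 := (CF.ev_differentiableAt hs2).self_of_nhds.hasDerivAt
    have a4 := (CF.differentiableAt_deriv hs2).hasDerivAt
    rw [hs'.1] at a2
    rw [hs'.2] at a4
    exact a1.prodMk (a2.prodMk (a3.prodMk a4))
  have hkd : ∀ᶠ s in 𝓝 t₀, HasDerivAt k (F (k s)) s ∧ k s ∈ S := by
    filter_upwards [hkS, hODE, hc] with s hs hs' hs1
    refine ⟨?_, hs⟩
    have a1 := (CF.ev_differentiableAt hs1).self_of_nhds.hasDerivAt
    have a2 := (CF.differentiableAt_deriv hs1).hasDerivAt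
    rw [hs'.1] at a2
    have := a1.prodMk (a2.prodMk ((hasDerivAt_const s (0 : E)).prodMk
      (hasDerivAt_const s (0 : E))))
    convert this using 1
    simp [hF, hk]
  have huniq := ODE_solution_unique_of_eventually (v := fun _ => F) (s := fun _ => S) (K := K)
    (Eventually.of_forall fun _ => hLip) hfd hkd (by simp [hf, hk, h0, h1])
  filter_upwards [huniq] with s hs
  have := congrArg (fun p : E × E × E × E => p.2.2.1) hs
  simpa [hf, hk] using this

end Local

section Prelude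

variable {n : ℕ} {g : MetricField n} {U : Set (EuclideanSpace ℝ (Fin n))}

/-- local uniqueness, Prelude form -/
theorem zero_near (h : IsRiemannianOn g U) {c j : ℝ → EuclideanSpace ℝ (Fin n)} {t₀ : ℝ}
    (hx : c t₀ ∈ U) (hc : ∀ᶠ s in 𝓝 t₀, ContDiffAt ℝ 2 c s)
    (hj : ∀ᶠ s in 𝓝 t₀, ContDiffAt ℝ 2 j s)
    (hgeo : ∀ᶠ s in 𝓝 t₀, GeodesicEqAt g c s) (hjac : ∀ᶠ s in 𝓝 t₀, JacobiEqAt g c j s)
    (h0 : j t₀ = 0) (h1 : deriv j t₀ = 0) : ∀ᶠ s in 𝓝 t₀, j s = 0 := by
  have hU : ∀ᶠ s in 𝓝 t₀, c s ∈ U :=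
    hc.self_of_nhds.continuousAt.eventually (h.isOpen.mem_nhds hx)
  refine zero_near_of_linearized (CF.isLC_of_isRiemannianOn h) hx hc hj ?_ ?_ h0 h1
  · filter_upwards [hgeo] with s hs using (CF.geodesicEqAt_iff g c s).1 hs
  · filter_upwards [hjac, hU] with s hs hs' using (CF.jacobiEqAt_iff h hs').1 hs

end Prelude

section Manifold

variable {n : ℕ} {M : Type*} [TopologicalSpace M] [ChartedSpace (EuclideanSpace ℝ (Fin n)) M]
  [IsManifold 𝓘(ℝ, EuclideanSpace ℝ (Fin n)) ∞ M]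
  (g : ContMDiffRiemannianMetric 𝓘(ℝ, EuclideanSpace ℝ (Fin n)) ∞ (EuclideanSpace ℝ (Fin n))
      (fun x : M => TangentSpace 𝓘(ℝ, EuclideanSpace ℝ (Fin n)) x))

omit [IsManifold 𝓘(ℝ, EuclideanSpace ℝ (Fin n)) ∞ M] in
theorem chartField_zero (γ : ℝ → M) {J : ℝ → EuclideanSpace ℝ (Fin n)} {t₀ s : ℝ}
    (h : J s = 0) : chartField γ J t₀ s = 0 := by
  unfold chartField
  rw [h]
  exact map_zero _

theorem eq_zero_of_chartField {γ : ℝ → M} {J : ℝ → EuclideanSpace ℝ (Fin n)} {t₀ s : ℝ}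
    (hs : γ s ∈ (chartAt (EuclideanSpace ℝ (Fin n)) (γ t₀)).source)
    (h : chartField γ J t₀ s = 0) : J s = 0 := by
  have hinj := (mdifferentiable_chart (I := 𝓘(ℝ, EuclideanSpace ℝ (Fin n)))
    (γ t₀)).mfderiv_injective hs
  apply hinj
  have h0 := map_zero (mfderiv 𝓘(ℝ, EuclideanSpace ℝ (Fin n)) 𝓘(ℝ, EuclideanSpace ℝ (Fin n))
    (chartAt (EuclideanSpace ℝ (Fin n)) (γ t₀)) (γ s))
  exact h.trans h0.symm

/-- a Jacobi field with a degenerate zero vanishes near it (in any chart around the point) -/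
theorem eventually_zero {γ : ℝ → M} {J : ℝ → EuclideanSpace ℝ (Fin n)} (hγ : IsGeodesic g γ)
    (hJ : IsJacobiField g γ J) {t₀ a : ℝ}
    (ha : γ a ∈ (chartAt (EuclideanSpace ℝ (Fin n)) (γ t₀)).source)
    (h0 : chartField γ J t₀ a = 0) (h1 : deriv (chartField γ J t₀) a = 0) :
    ∀ᶠ s in 𝓝 a, J s = 0 := by
  have hs : ∀ᶠ s in 𝓝 a, γ s ∈ (chartAt (EuclideanSpace ℝ (Fin n)) (γ t₀)).source :=
    hγ.1.continuous.continuousAt.eventually
      ((chartAt (EuclideanSpace ℝ (Fin n)) (γ t₀)).open_source.mem_nhds ha)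
  have key := zero_near (isRiemannianOn_metricInChart g (γ t₀))
    (c := fun s => chartAt (EuclideanSpace ℝ (Fin n)) (γ t₀) (γ s)) (j := chartField γ J t₀)
    (t₀ := a) ((chartAt (EuclideanSpace ℝ (Fin n)) (γ t₀)).map_source ha)
    (by filter_upwards [hs] with s hs using
      (contDiffAt_chartCurve hγ.1 hs).of_le CF.two_le_infty)
    (by filter_upwards [hs] with s hs using
      (contDiffAt_mfderiv_chart hJ.1 hs).of_le CF.two_le_infty)
    (by filter_upwards [hs] with s hs using geodesicEqAt_chart g hγ hs)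
    (by filter_upwards [hs] with s hs using jacobiEqAt_chart g hγ hJ hs) h0 h1
  filter_upwards [key, hs] with s h2 h3 using eq_zero_of_chartField h3 h2

/-- **NCP-B (3)**: a Jacobi field with a degenerate zero vanishes identically. -/
theorem jacobi_unique {γ : ℝ → M} {J : ℝ → EuclideanSpace ℝ (Fin n)} (hγ : IsGeodesic g γ)
    (hJ : IsJacobiField g γ J) (a : ℝ) (h0 : J a = 0) (h1 : deriv (chartField γ J a) a = 0) :
    ∀ t, J t = 0 := by
  set W : Set ℝ := {t | ∀ᶠ s in 𝓝 t, J s = 0} with hW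
  have hopen : IsOpen W := isOpen_iff_mem_nhds.2 fun t ht => ht.eventually_nhds
  have haW : a ∈ W := eventually_zero g hγ hJ (mem_chart_source _ _) (chartField_zero γ h0) h1
  have hclosed : IsClosed W := by
    rw [← closure_subset_iff_isClosed]
    intro t₀ ht₀
    have hs : ∀ᶠ s in 𝓝 t₀, γ s ∈ (chartAt (EuclideanSpace ℝ (Fin n)) (γ t₀)).source :=
      hγ.1.continuous.continuousAt.eventually
        ((chartAt (EuclideanSpace ℝ (Fin n)) (γ t₀)).open_source.mem_nhds (mem_chart_source _ _))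
    have hsm : ContDiffAt ℝ 2 (chartField γ J t₀) t₀ :=
      (contDiffAt_mfderiv_chart hJ.1 (mem_chart_source _ _)).of_le CF.two_le_infty
    have hfreq : ∃ᶠ s in 𝓝 t₀, s ∈ W := mem_closure_iff_frequently.1 ht₀
    have hfreq' : ∃ᶠ s in 𝓝 t₀, chartField γ J t₀ s = 0 ∧ deriv (chartField γ J t₀) s = 0 := by
      refine hfreq.mono fun s hsW => ?_
      have hsW' : ∀ᶠ r in 𝓝 s, J r = 0 := hsW
      have h2 : chartField γ J t₀ =ᶠ[𝓝 s] fun _ => 0 := by
        filter_upwards [hsW'] with r hr using chartField_zero γ hr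
      exact ⟨h2.self_of_nhds, by rw [h2.deriv_eq]; simp⟩
    have e0 : chartField γ J t₀ t₀ = 0 := by
      by_contra hne
      have := hsm.continuousAt.eventually_ne hne
      obtain ⟨s, hs1, hs2⟩ := (hfreq'.and_eventually this).exists
      exact hs2 hs1.1
    have e1 : deriv (chartField γ J t₀) t₀ = 0 := by
      by_contra hne
      have := (CF.differentiableAt_deriv hsm).continuousAt.eventually_ne hne
      obtain ⟨s, hs1, hs2⟩ := (hfreq'.and_eventually this).exists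
      exact hs2 hs1.2
    exact eventually_zero g hγ hJ (mem_chart_source _ _) e0 e1
  have huniv : W = univ := IsClopen.eq_univ ⟨hclosed, hopen⟩ ⟨a, haW⟩
  intro t
  have : t ∈ W := huniv ▸ mem_univ t
  exact this.self_of_nhds

end Manifold

end Crest.Agent.R244.NCP
end

-- ▼ part R244/ManCNCP

/-!
# R244: the `CollarGlue` instance for the concrete manifold
-/

set_option autoImplicit false
set_option maxSynthPendingDepth 3

open Filter Topology Set Bundle
open scoped ContDiff Manifold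

noncomputable section

namespace Crest.Agent.R244.ManC

open Crest.GeometryTopology.CoordMetric Crest.GeometryTopology.ChartCurvature
  Crest.GeometryTopology.Geodesic Crest.Agent.R244.Man Crest.Agent.R244.Man.Glue
open Crest.Agent.R244.NCP (CollarGlue gC)
open Par

lemma posDef_diag {r : ℝ} (hr : 0 < r) :
    (Matrix.diagonal ![1, 1, r ^ 2] : Matrix (Fin 3) (Fin 3) ℝ).PosDef := by
  rw [Matrix.posDef_diagonal_iff]
  intro i
  fin_cases i
  · simp
  · simp
  · simp; positivity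

lemma mat_flat_aux (C : CollarData) (i : Fin 3) (r : ℝ) (z : E3)
    (h : met C i z = bil 1 1 0 (r ^ 2)) :
    (theMetricData C).mat i z = Matrix.diagonal ![1, 1, r ^ 2] := by
  ext a b
  have : (theMetricData C).mat i z a b =
      met C i z (EuclideanSpace.single a 1) (EuclideanSpace.single b 1) := rfl
  rw [this, h, bil_apply]
  fin_cases a <;> fin_cases b <;> simp

/-- the translation germ -/
lemma trans_add (C : CollarData) {i : Fin 3} {p q : E3} (hp : p ∈ C.par.P i)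
    (h : C.par.lat i p q) : (theGlue C).Trans i i p q (fun z => z + (q - p)) := by
  refine ⟨by fun_prop, by simp, ?_⟩
  filter_upwards [(C.par.isOpen_P i).mem_nhds hp] with z hz
  have h1 := C.par.lat_add h z
  exact ⟨hz, C.par.mem_of_lat h1 hz, C.par.rel_of_lat h1 hz⟩

theorem collarGlue (C : CollarData) : CollarGlue (theGlue C) (theMetricData C) C 1 where
  mat_col z _ := by
    ext a b
    have : (theMetricData C).mat 1 z a b =
        met C 1 z (EuclideanSpace.single a 1) (EuclideanSpace.single b 1) := rfl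
    rw [this, met_1, bil_apply]
    fin_cases a <;> fin_cases b <;> (simp; rfl)
  mat_flat i hi := by
    fin_cases i
    · exact ⟨_, posDef_diag C.Φ0_pos, fun z _ => mat_flat_aux C 0 _ z (met_0 C z)⟩
    · exact absurd rfl hi
    · exact ⟨_, posDef_diag C.R0_pos, fun z _ => mat_flat_aux C 2 _ z (met_2 C z)⟩
  rel_col p q τ h := by
    obtain ⟨hp, hq, hr⟩ := h.rel
    have h1 : latC p q := (C.par.rel_11 hp hq).1 hr
    have h2 : C.par.lat 1 p q := by simpa [lat] using h1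
    refine ⟨h1.1.symm, ?_⟩
    rw [(h.eventuallyEq _ (trans_add C hp h2)).fderiv_eq]
    have hτ : HasFDerivAt (fun z : E3 => z + (q - p)) (ContinuousLinearMap.id ℝ E3) p :=
      (hasFDerivAt_id p).add_const _
    exact hτ.fderiv
  rel_flat i hi p q τ h := by
    obtain ⟨hp, hq, hr⟩ := h.rel
    have hr' : C.par.rel i p 1 q := hr
    fin_cases i
    · have h1 : q 0 < C.tL := (C.par.rel_01.1 hr').1
      rintro ⟨h2, -⟩
      linarith
    · exact absurd rfl hi
    · have h1 : C.tR < q 0 := (C.par.rel_21.1 hr').1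
      rintro ⟨-, h2⟩
      linarith

/-- **No conjugate points** for the concrete metric. -/
theorem theMetric_noConjugatePoints (C : CollarData) : NoConjugatePoints (theMetric C) := by
  haveI : T2Space (theGlue C).M := theGlue_t2 C
  exact (collarGlue C).noConjugatePoints
    (fun γ J hγ hJ a h0 h1 t => NCP.jacobi_unique (theMetricData C).toMetric hγ hJ a h0 h1 t)

end Crest.Agent.R244.ManC
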