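import Mathlib
import Crest.Prelude.Def_Geodesic
import Crest.Agent.R244.NCPForm

-- ▼ part R244/NCPLoc
section

/-!
R244 (S0377), package NCP, part 4: local monotonicity of piecewise defined functions.
-/

set_option autoImplicit false

open Filter Topology Set

namespace Crest.Agent.R244.NCP

/-- Local monotonicity up to linear errors. -/
def LocMono (H : ℝ → ℝ) (s₀ : ℝ) : Prop :=
  ∀ ε > 0, (∀ᶠ z in 𝓝[>] s₀, H s₀ - ε * (z - s₀) ≤ H z) ∧
    (∀ᶠ z in 𝓝[<] s₀, H z ≤ H s₀ + ε * (s₀ - z))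

/-- `f` has nonnegative derivative at `s₀`, and positive derivative if `P` holds. -/
def Good (P : Prop) (s₀ : ℝ) (f : ℝ → ℝ) : Prop :=
  ∃ d, 0 ≤ d ∧ HasDerivAt f d s₀ ∧ (P → 0 < d)

theorem eventually_of_deriv_pos {f : ℝ → ℝ} {d s₀ : ℝ} (h : HasDerivAt f d s₀) (hd : 0 < d) :
    (∀ᶠ z in 𝓝[>] s₀, f s₀ < f z) ∧ (∀ᶠ z in 𝓝[<] s₀, f z < f s₀) := by
  have h1 := hasDerivAt_iff_tendsto_slope.1 h
  have h2 : ∀ᶠ z in 𝓝[≠] s₀, 0 < slope f s₀ z := h1.eventually (lt_mem_nhds hd)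
  constructor
  · have h3 : ∀ᶠ z in 𝓝[>] s₀, 0 < slope f s₀ z :=
      h2.filter_mono (nhdsWithin_mono _ (fun z hz => ne_of_gt hz))
    filter_upwards [h3, self_mem_nhdsWithin] with z hz hz'
    have hz'' : 0 < z - s₀ := sub_pos.2 hz'
    rw [slope_def_field] at hz
    have := (div_pos_iff_of_pos_right hz'').1 hz
    linarith
  · have h3 : ∀ᶠ z in 𝓝[<] s₀, 0 < slope f s₀ z :=
      h2.filter_mono (nhdsWithin_mono _ (fun z hz => ne_of_lt hz))
    filter_upwards [h3, self_mem_nhdsWithin] with z hz hz'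
    have hz'' : z - s₀ < 0 := sub_neg.2 hz'
    rw [slope_def_field] at hz
    have := (div_pos_iff.1 hz)
    rcases this with ⟨_, h⟩ | ⟨h, _⟩
    · linarith
    · linarith

theorem Good.right {P : Prop} {f : ℝ → ℝ} {s₀ : ℝ} (h : Good P s₀ f) {ε : ℝ} (hε : 0 < ε) :
    ∀ᶠ z in 𝓝[>] s₀, f s₀ - ε * (z - s₀) ≤ f z := by
  obtain ⟨d, hd, hf, -⟩ := h
  have h1 : HasDerivAt (fun z => f z + ε * z) (d + ε * 1) s₀ :=
    hf.add ((hasDerivAt_id s₀).const_mul ε)
  have h2 := (eventually_of_deriv_pos h1 (by linarith)).1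
  filter_upwards [h2] with z hz
  linarith

theorem Good.left {P : Prop} {f : ℝ → ℝ} {s₀ : ℝ} (h : Good P s₀ f) {ε : ℝ} (hε : 0 < ε) :
    ∀ᶠ z in 𝓝[<] s₀, f z ≤ f s₀ + ε * (s₀ - z) := by
  obtain ⟨d, hd, hf, -⟩ := h
  have h1 : HasDerivAt (fun z => f z + ε * z) (d + ε * 1) s₀ :=
    hf.add ((hasDerivAt_id s₀).const_mul ε)
  have h2 := (eventually_of_deriv_pos h1 (by linarith)).2
  filter_upwards [h2] with z hz
  linarith

theorem Good.pos {P : Prop} {f : ℝ → ℝ} {s₀ : ℝ} (h : Good P s₀ f) (hP : P) :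
    ∀ᶠ z in 𝓝[>] s₀, f s₀ < f z := by
  obtain ⟨d, hd, hf, hpos⟩ := h
  exact (eventually_of_deriv_pos hf (hpos hP)).1

/-- Candidate lemma. -/
theorem locMono_of_candidates {P : Prop} {H : ℝ → ℝ} {s₀ : ℝ} {F G : Set (ℝ → ℝ)}
    (hF : F.Finite) (hG : G.Finite)
    (hFgood : ∀ f ∈ F, Good P s₀ f ∧ H s₀ ≤ f s₀)
    (hGgood : ∀ f ∈ G, Good P s₀ f ∧ f s₀ ≤ H s₀)
    (hr : ∀ᶠ z in 𝓝[>] s₀, ∃ f ∈ F, H z = f z)
    (hl : ∀ᶠ z in 𝓝[<] s₀, ∃ f ∈ G, H z = f z) :
    LocMono H s₀ ∧ (P → ∀ᶠ z in 𝓝[>] s₀, H s₀ < H z) := by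
  refine ⟨fun ε hε => ⟨?_, ?_⟩, fun hP => ?_⟩
  · have h1 : ∀ᶠ z in 𝓝[>] s₀, ∀ f ∈ F, f s₀ - ε * (z - s₀) ≤ f z :=
      (eventually_all_finite hF).2 (fun f hf => (hFgood f hf).1.right hε)
    filter_upwards [h1, hr] with z hz hz'
    obtain ⟨f, hf, e⟩ := hz'
    have h2 := hz f hf
    have h3 := (hFgood f hf).2
    rw [e]; linarith
  · have h1 : ∀ᶠ z in 𝓝[<] s₀, ∀ f ∈ G, f z ≤ f s₀ + ε * (s₀ - z) :=
      (eventually_all_finite hG).2 (fun f hf => (hGgood f hf).1.left hε)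
    filter_upwards [h1, hl] with z hz hz'
    obtain ⟨f, hf, e⟩ := hz'
    have h2 := hz f hf
    have h3 := (hGgood f hf).2
    rw [e]; linarith
  · have h1 : ∀ᶠ z in 𝓝[>] s₀, ∀ f ∈ F, f s₀ < f z :=
      (eventually_all_finite hF).2 (fun f hf => (hFgood f hf).1.pos hP)
    filter_upwards [h1, hr] with z hz hz'
    obtain ⟨f, hf, e⟩ := hz'
    have h2 := hz f hf
    have h3 := (hFgood f hf).2
    rw [e]; linarith

/-- Interior points: all candidates take the value `H s₀` at `s₀`. -/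
theorem locMono_of_eventually {P : Prop} {H : ℝ → ℝ} {s₀ : ℝ} {F : Set (ℝ → ℝ)}
    (hF : F.Finite) (hgood : ∀ f ∈ F, Good P s₀ f ∧ f s₀ = H s₀)
    (h : ∀ᶠ z in 𝓝 s₀, ∃ f ∈ F, H z = f z) :
    LocMono H s₀ ∧ (P → ∀ᶠ z in 𝓝[>] s₀, H s₀ < H z) :=
  locMono_of_candidates hF hF (fun f hf => ⟨(hgood f hf).1, (hgood f hf).2.ge⟩)
    (fun f hf => ⟨(hgood f hf).1, (hgood f hf).2.le⟩) (h.filter_mono nhdsWithin_le_nhds)
    (h.filter_mono nhdsWithin_le_nhds)

/-- Interface points. -/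
theorem locMono_interface {P : Prop} {H : ℝ → ℝ} {s₀ v : ℝ} {F : Set (ℝ → ℝ)} {f₀ : ℝ → ℝ}
    {out : ℝ → Prop} (hF : F.Finite) (hgood : ∀ f ∈ F, Good P s₀ f ∧ f s₀ = v)
    (hgood₀ : Good P s₀ f₀) (hv₀ : H s₀ = f₀ s₀)
    (hout : ∀ᶠ z in 𝓝 s₀, out z → H z = f₀ z)
    (hin : ∀ᶠ z in 𝓝 s₀, ¬ out z → ∃ f ∈ F, H z = f z)
    (hcase : v = f₀ s₀ ∨ (f₀ s₀ ≤ v ∧ ∀ᶠ z in 𝓝[<] s₀, out z) ∨
      (v ≤ f₀ s₀ ∧ ∀ᶠ z in 𝓝[>] s₀, out z)) :
    LocMono H s₀ ∧ (P → ∀ᶠ z in 𝓝[>] s₀, H s₀ < H z) := by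
  have hall : ∀ᶠ z in 𝓝 s₀, ∃ f ∈ insert f₀ F, H z = f z := by
    filter_upwards [hout, hin] with z h1 h2
    by_cases h : out z
    · exact ⟨f₀, mem_insert _ _, h1 h⟩
    · obtain ⟨f, hf, e⟩ := h2 h
      exact ⟨f, mem_insert_of_mem _ hf, e⟩
  rcases hcase with hc | ⟨hc, ho⟩ | ⟨hc, ho⟩
  · apply locMono_of_eventually (hF.insert f₀) _ hall
    intro f hf
    rcases hf with rfl | hf
    · exact ⟨hgood₀, hv₀.symm⟩
    · exact ⟨(hgood f hf).1, by rw [(hgood f hf).2, hc, hv₀]⟩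
  · apply locMono_of_candidates (F := insert f₀ F) (G := {f₀}) (hF.insert f₀) (finite_singleton _)
    · intro f hf
      rcases hf with rfl | hf
      · exact ⟨hgood₀, hv₀.le⟩
      · exact ⟨(hgood f hf).1, by rw [(hgood f hf).2, hv₀]; exact hc⟩
    · intro f hf
      rw [mem_singleton_iff] at hf
      subst hf
      exact ⟨hgood₀, hv₀.ge⟩
    · exact hall.filter_mono nhdsWithin_le_nhds
    · filter_upwards [ho, hout.filter_mono nhdsWithin_le_nhds] with z h1 h2
      exact ⟨f₀, rfl, h2 h1⟩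
  · apply locMono_of_candidates (F := {f₀}) (G := insert f₀ F) (finite_singleton _) (hF.insert f₀)
    · intro f hf
      rw [mem_singleton_iff] at hf
      subst hf
      exact ⟨hgood₀, hv₀.le⟩
    · intro f hf
      rcases hf with rfl | hf
      · exact ⟨hgood₀, hv₀.ge⟩
      · exact ⟨(hgood f hf).1, by rw [(hgood f hf).2, hv₀]; exact hc⟩
    · filter_upwards [ho, hout.filter_mono nhdsWithin_le_nhds] with z h1 h2
      exact ⟨f₀, rfl, h2 h1⟩
    · exact hall.filter_mono nhdsWithin_le_nhds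

end Crest.Agent.R244.NCP
end

-- ▼ part R244/NCPChr
section

/-!
R244 (S0377), package NCP, part 2: Christoffel symbols of the collar metric `dt² + Q_t(dx,dy)`.
-/

set_option autoImplicit false

open Filter Topology
open scoped ContDiff

namespace Crest.Agent.R244.NCP

open Crest.GeometryTopology.CoordMetric Crest.GeometryTopology.ChartCurvature
  Crest.GeometryTopology.Geodesic

/-- `ℝ³` -/
abbrev E3 := EuclideanSpace ℝ (Fin 3)

/-- The collar metric `dt² + Qa dx² + 2 Qb dx dy + Qc dy²`. -/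
def gC (Qa Qb Qc : ℝ → ℝ) : MetricField 3 := fun z =>
  !![1, 0, 0; 0, Qa (z 0), Qb (z 0); 0, Qb (z 0), Qc (z 0)]

theorem inverseField_gC {Qa Qb Qc A B C : ℝ → ℝ}
    (h11 : ∀ r, Qa r * A r + Qb r * B r = 1) (h12 : ∀ r, Qa r * B r + Qb r * C r = 0)
    (h21 : ∀ r, Qb r * A r + Qc r * B r = 0) (h22 : ∀ r, Qb r * B r + Qc r * C r = 1) (z : E3) :
    inverseField (gC Qa Qb Qc) z =
      !![1, 0, 0; 0, A (z 0), B (z 0); 0, B (z 0), C (z 0)] := by
  unfold inverseField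
  apply Matrix.inv_eq_right_inv
  unfold gC
  ext i j
  fin_cases i <;> fin_cases j <;>
    simp [Matrix.mul_apply, Fin.sum_univ_three, h11, h12, h21, h22]

theorem pderiv_comp_zero {f : ℝ → ℝ} {z : E3} (hf : DifferentiableAt ℝ f (z 0)) (i : Fin 3) :
    pderiv i (fun y : E3 => f (y 0)) z = if i = 0 then deriv f (z 0) else 0 := by
  unfold pderiv
  have h1 : HasFDerivAt (fun y : E3 => y 0) (EuclideanSpace.proj (0 : Fin 3) : E3 →L[ℝ] ℝ) z :=
    (EuclideanSpace.proj (0 : Fin 3) : E3 →L[ℝ] ℝ).hasFDerivAt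
  have h2 := hf.hasDerivAt.comp_hasFDerivAt z h1
  have h3 : fderiv ℝ (fun y : E3 => f (y 0)) z = _ := h2.fderiv
  rw [h3]
  fin_cases i <;> simp

theorem pderiv_const' (r : ℝ) (z : E3) (i : Fin 3) : pderiv i (fun _ : E3 => r) z = 0 := by
  unfold pderiv
  simp

/-- The Christoffel symbols of the collar: matrix `Γ k i j`, `k = 0`. -/
noncomputable def chr (Qa' Qb' Qc' A B C : ℝ) (k : Fin 3) : Matrix (Fin 3) (Fin 3) ℝ :=
  if k = 0 then !![0, 0, 0; 0, -Qa' / 2, -Qb' / 2; 0, -Qb' / 2, -Qc' / 2]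
  else if k = 1 then
    !![0, (A * Qa' + B * Qb') / 2, (A * Qb' + B * Qc') / 2;
       (A * Qa' + B * Qb') / 2, 0, 0;
       (A * Qb' + B * Qc') / 2, 0, 0]
  else
    !![0, (B * Qa' + C * Qb') / 2, (B * Qb' + C * Qc') / 2;
       (B * Qa' + C * Qb') / 2, 0, 0;
       (B * Qb' + C * Qc') / 2, 0, 0]

theorem pderiv_gC {Qa Qb Qc : ℝ → ℝ} {z : E3} (ha : DifferentiableAt ℝ Qa (z 0))
    (hb : DifferentiableAt ℝ Qb (z 0)) (hc : DifferentiableAt ℝ Qc (z 0)) (l i j : Fin 3) :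
    pderiv l (fun y => gC Qa Qb Qc y i j) z =
      if l = 0 then !![0, 0, 0; 0, deriv Qa (z 0), deriv Qb (z 0); 0, deriv Qb (z 0),
        deriv Qc (z 0)] i j else 0 := by
  unfold gC
  fin_cases i <;> fin_cases j <;>
    simp [pderiv_comp_zero ha, pderiv_comp_zero hb, pderiv_comp_zero hc, pderiv_const']

theorem christoffel_gC {Qa Qb Qc A B C : ℝ → ℝ} {z : E3}
    (h11 : ∀ r, Qa r * A r + Qb r * B r = 1) (h12 : ∀ r, Qa r * B r + Qb r * C r = 0)
    (h21 : ∀ r, Qb r * A r + Qc r * B r = 0) (h22 : ∀ r, Qb r * B r + Qc r * C r = 1)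
    (ha : DifferentiableAt ℝ Qa (z 0))
    (hb : DifferentiableAt ℝ Qb (z 0)) (hc : DifferentiableAt ℝ Qc (z 0)) (k i j : Fin 3) :
    christoffel (gC Qa Qb Qc) z k i j =
      chr (deriv Qa (z 0)) (deriv Qb (z 0)) (deriv Qc (z 0)) (A (z 0)) (B (z 0)) (C (z 0))
        k i j := by
  unfold christoffel
  simp only [inverseField_gC h11 h12 h21 h22, pderiv_gC ha hb hc]
  fin_cases k <;> fin_cases i <;> fin_cases j <;>
    simp [chr, Fin.sum_univ_three] <;> ring

end Crest.Agent.R244.NCP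
end

-- ▼ part R244/NCPLin

/-!
R244 (S0377), package NCP, part 3: from the geodesic equation and the linearised geodesic equation
of the collar metric to the momentum form `VarAt`.
-/

set_option autoImplicit false

open Filter Topology Set
open scoped ContDiff

namespace Crest.Agent.R244.NCP

open Crest.GeometryTopology.CoordMetric Crest.GeometryTopology.ChartCurvature
  Crest.GeometryTopology.Geodesic

/-- The linearised geodesic equation in coordinates. -/
def LinAt (g : MetricField 3) (c J : ℝ → E3) (s : ℝ) : Prop :=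
  ∀ k : Fin 3, deriv (deriv J) s k +
    ∑ i, ∑ j, (∑ l, pderiv l (fun y => christoffel g y k i j) (c s) * J s l) *
      deriv c s i * deriv c s j +
    2 * ∑ i, ∑ j, christoffel g (c s) k i j * deriv c s i * deriv J s j = 0

/-- Metric coefficients of the collar together with the inverse matrix. -/
structure QW (Qa Qb Qc A B C : ℝ → ℝ) : Prop where
  sa : ContDiff ℝ ∞ Qa
  sb : ContDiff ℝ ∞ Qb
  sc : ContDiff ℝ ∞ Qc
  sA : ContDiff ℝ ∞ A
  sB : ContDiff ℝ ∞ B
  sC : ContDiff ℝ ∞ C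
  h11 : ∀ r, Qa r * A r + Qb r * B r = 1
  h12 : ∀ r, Qa r * B r + Qb r * C r = 0
  h21 : ∀ r, Qb r * A r + Qc r * B r = 0
  h22 : ∀ r, Qb r * B r + Qc r * C r = 1
  A_pos : ∀ r, 0 < A r
  D_pos : ∀ r, 0 < A r * C r - B r ^ 2

theorem cd_diff {f : ℝ → ℝ} (h : ContDiff ℝ ∞ f) (r : ℝ) : DifferentiableAt ℝ f r :=
  (h.differentiable (by simp)).differentiableAt

theorem cd_deriv {f : ℝ → ℝ} (h : ContDiff ℝ ∞ f) : ContDiff ℝ ∞ (deriv f) :=
  ((contDiff_infty_iff_deriv).1 h).2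

variable {Qa Qb Qc A B C : ℝ → ℝ}

namespace QW

variable (H : QW Qa Qb Qc A B C)
include H

theorem r11 (r : ℝ) : deriv Qa r * A r + Qa r * deriv A r +
    (deriv Qb r * B r + Qb r * deriv B r) = 0 := by
  have h1 := ((cd_diff H.sa r).hasDerivAt.mul (cd_diff H.sA r).hasDerivAt).add
    ((cd_diff H.sb r).hasDerivAt.mul (cd_diff H.sB r).hasDerivAt)
  have h2 : (Qa * A + Qb * B) = fun _ => (1:ℝ) := by funext r; exact H.h11 r
  rw [h2] at h1
  exact h1.unique (hasDerivAt_const _ _)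

theorem r12 (r : ℝ) : deriv Qa r * B r + Qa r * deriv B r +
    (deriv Qb r * C r + Qb r * deriv C r) = 0 := by
  have h1 := ((cd_diff H.sa r).hasDerivAt.mul (cd_diff H.sB r).hasDerivAt).add
    ((cd_diff H.sb r).hasDerivAt.mul (cd_diff H.sC r).hasDerivAt)
  have h2 : (Qa * B + Qb * C) = fun _ => (0:ℝ) := by funext r; exact H.h12 r
  rw [h2] at h1
  exact h1.unique (hasDerivAt_const _ _)

theorem r21 (r : ℝ) : deriv Qb r * A r + Qb r * deriv A r +
    (deriv Qc r * B r + Qc r * deriv B r) = 0 := by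
  have h1 := ((cd_diff H.sb r).hasDerivAt.mul (cd_diff H.sA r).hasDerivAt).add
    ((cd_diff H.sc r).hasDerivAt.mul (cd_diff H.sB r).hasDerivAt)
  have h2 : (Qb * A + Qc * B) = fun _ => (0:ℝ) := by funext r; exact H.h21 r
  rw [h2] at h1
  exact h1.unique (hasDerivAt_const _ _)

theorem r22 (r : ℝ) : deriv Qb r * B r + Qb r * deriv B r +
    (deriv Qc r * C r + Qc r * deriv C r) = 0 := by
  have h1 := ((cd_diff H.sb r).hasDerivAt.mul (cd_diff H.sB r).hasDerivAt).add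
    ((cd_diff H.sc r).hasDerivAt.mul (cd_diff H.sC r).hasDerivAt)
  have h2 : (Qb * B + Qc * C) = fun _ => (1:ℝ) := by funext r; exact H.h22 r
  rw [h2] at h1
  exact h1.unique (hasDerivAt_const _ _)

/-- The Christoffel symbols of the collar as functions of `t`. -/
theorem christoffel_eq (z : E3) (k i j : Fin 3) :
    christoffel (gC Qa Qb Qc) z k i j =
      chr (deriv Qa (z 0)) (deriv Qb (z 0)) (deriv Qc (z 0)) (A (z 0)) (B (z 0)) (C (z 0))
        k i j :=
  christoffel_gC H.h11 H.h12 H.h21 H.h22 (cd_diff H.sa _) (cd_diff H.sb _) (cd_diff H.sc _) k i j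

end QW

/-- The derivative in `t` of the Christoffel symbols of the collar. -/
noncomputable def dchr (Qa' Qb' Qc' Qa'' Qb'' Qc'' A B C A' B' C' : ℝ) (k : Fin 3) :
    Matrix (Fin 3) (Fin 3) ℝ :=
  if k = 0 then !![0, 0, 0; 0, -Qa'' / 2, -Qb'' / 2; 0, -Qb'' / 2, -Qc'' / 2]
  else if k = 1 then
    !![0, (A' * Qa' + A * Qa'' + (B' * Qb' + B * Qb'')) / 2,
          (A' * Qb' + A * Qb'' + (B' * Qc' + B * Qc'')) / 2;
       (A' * Qa' + A * Qa'' + (B' * Qb' + B * Qb'')) / 2, 0, 0;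
       (A' * Qb' + A * Qb'' + (B' * Qc' + B * Qc'')) / 2, 0, 0]
  else
    !![0, (B' * Qa' + B * Qa'' + (C' * Qb' + C * Qb'')) / 2,
          (B' * Qb' + B * Qb'' + (C' * Qc' + C * Qc'')) / 2;
       (B' * Qa' + B * Qa'' + (C' * Qb' + C * Qb'')) / 2, 0, 0;
       (B' * Qb' + B * Qb'' + (C' * Qc' + C * Qc'')) / 2, 0, 0]

theorem QW.pderiv_christoffel (H : QW Qa Qb Qc A B C) (z : E3) (l k i j : Fin 3) :
    pderiv l (fun y => christoffel (gC Qa Qb Qc) y k i j) z =
      if l = 0 then dchr (deriv Qa (z 0)) (deriv Qb (z 0)) (deriv Qc (z 0))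
        (deriv (deriv Qa) (z 0)) (deriv (deriv Qb) (z 0)) (deriv (deriv Qc) (z 0))
        (A (z 0)) (B (z 0)) (C (z 0)) (deriv A (z 0)) (deriv B (z 0)) (deriv C (z 0)) k i j
      else 0 := by
  have e1 : (fun y : E3 => christoffel (gC Qa Qb Qc) y k i j) = fun y : E3 =>
      (fun r => chr (deriv Qa r) (deriv Qb r) (deriv Qc r) (A r) (B r) (C r) k i j) (y 0) := by
    funext y
    exact H.christoffel_eq y k i j
  rw [e1]
  have ha := (cd_diff (cd_deriv H.sa) (z 0)).hasDerivAt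
  have hb := (cd_diff (cd_deriv H.sb) (z 0)).hasDerivAt
  have hc := (cd_diff (cd_deriv H.sc) (z 0)).hasDerivAt
  have hA := (cd_diff H.sA (z 0)).hasDerivAt
  have hB := (cd_diff H.sB (z 0)).hasDerivAt
  have hC := (cd_diff H.sC (z 0)).hasDerivAt
  have key : HasDerivAt
      (fun r => chr (deriv Qa r) (deriv Qb r) (deriv Qc r) (A r) (B r) (C r) k i j)
      (dchr (deriv Qa (z 0)) (deriv Qb (z 0)) (deriv Qc (z 0))
        (deriv (deriv Qa) (z 0)) (deriv (deriv Qb) (z 0)) (deriv (deriv Qc) (z 0))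
        (A (z 0)) (B (z 0)) (C (z 0)) (deriv A (z 0)) (deriv B (z 0)) (deriv C (z 0)) k i j)
      (z 0) := by
    have h0 := hasDerivAt_const (z 0) (0 : ℝ)
    have k1 := (ha.neg.div_const 2)
    have k2 := (hb.neg.div_const 2)
    have k3 := (hc.neg.div_const 2)
    have m1 := ((hA.mul ha).add (hB.mul hb)).div_const 2
    have m2 := ((hA.mul hb).add (hB.mul hc)).div_const 2
    have m3 := ((hB.mul ha).add (hC.mul hb)).div_const 2
    have m4 := ((hB.mul hb).add (hC.mul hc)).div_const 2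
    fin_cases k <;> fin_cases i <;> fin_cases j <;>
      first
        | exact h0
        | exact k1
        | exact k2
        | exact k3
        | exact m1
        | exact m2
        | exact m3
        | exact m4
  rw [pderiv_comp_zero key.differentiableAt, key.deriv]

/-- Explicit form of the geodesic equation of the collar. -/
theorem QW.geodesic_explicit (H : QW Qa Qb Qc A B C) {c : ℝ → E3} {s : ℝ}
    (hg : GeodesicEqAt (gC Qa Qb Qc) c s) :
    deriv (deriv c) s 0 = qf (deriv Qa (c s 0)) (deriv Qb (c s 0)) (deriv Qc (c s 0))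
      (deriv c s 1) (deriv c s 2) / 2 ∧
    deriv (deriv c) s 1 = -(deriv c s 0 *
      ((A (c s 0) * deriv Qa (c s 0) + B (c s 0) * deriv Qb (c s 0)) * deriv c s 1 +
       (A (c s 0) * deriv Qb (c s 0) + B (c s 0) * deriv Qc (c s 0)) * deriv c s 2)) ∧
    deriv (deriv c) s 2 = -(deriv c s 0 *
      ((B (c s 0) * deriv Qa (c s 0) + C (c s 0) * deriv Qb (c s 0)) * deriv c s 1 +
       (B (c s 0) * deriv Qb (c s 0) + C (c s 0) * deriv Qc (c s 0)) * deriv c s 2)) := by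
  have h0 := hg 0
  have h1 := hg 1
  have h2 := hg 2
  simp only [H.christoffel_eq, chr, Fin.sum_univ_three] at h0 h1 h2
  simp at h0 h1 h2
  unfold qf
  refine ⟨?_, ?_, ?_⟩
  · linear_combination h0
  · linear_combination h1
  · linear_combination h2

/-- Explicit form of the linearised geodesic equation of the collar. -/
theorem QW.lin_explicit (H : QW Qa Qb Qc A B C) {c J : ℝ → E3} {s : ℝ}
    (hg : LinAt (gC Qa Qb Qc) c J s) :
    deriv (deriv J) s 0 = J s 0 * qf (deriv (deriv Qa) (c s 0)) (deriv (deriv Qb) (c s 0))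
        (deriv (deriv Qc) (c s 0)) (deriv c s 1) (deriv c s 2) / 2 +
      bf (deriv Qa (c s 0)) (deriv Qb (c s 0)) (deriv Qc (c s 0)) (deriv c s 1) (deriv c s 2)
        (deriv J s 1) (deriv J s 2) ∧
    deriv (deriv J) s 1 = -(deriv J s 0 *
      ((A (c s 0) * deriv Qa (c s 0) + B (c s 0) * deriv Qb (c s 0)) * deriv c s 1 +
       (A (c s 0) * deriv Qb (c s 0) + B (c s 0) * deriv Qc (c s 0)) * deriv c s 2) +
      deriv c s 0 *
      ((A (c s 0) * deriv Qa (c s 0) + B (c s 0) * deriv Qb (c s 0)) * deriv J s 1 +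
       (A (c s 0) * deriv Qb (c s 0) + B (c s 0) * deriv Qc (c s 0)) * deriv J s 2) +
      J s 0 * deriv c s 0 *
      ((deriv A (c s 0) * deriv Qa (c s 0) + A (c s 0) * deriv (deriv Qa) (c s 0) +
        (deriv B (c s 0) * deriv Qb (c s 0) + B (c s 0) * deriv (deriv Qb) (c s 0))) *
          deriv c s 1 +
       (deriv A (c s 0) * deriv Qb (c s 0) + A (c s 0) * deriv (deriv Qb) (c s 0) +
        (deriv B (c s 0) * deriv Qc (c s 0) + B (c s 0) * deriv (deriv Qc) (c s 0))) *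
          deriv c s 2)) ∧
    deriv (deriv J) s 2 = -(deriv J s 0 *
      ((B (c s 0) * deriv Qa (c s 0) + C (c s 0) * deriv Qb (c s 0)) * deriv c s 1 +
       (B (c s 0) * deriv Qb (c s 0) + C (c s 0) * deriv Qc (c s 0)) * deriv c s 2) +
      deriv c s 0 *
      ((B (c s 0) * deriv Qa (c s 0) + C (c s 0) * deriv Qb (c s 0)) * deriv J s 1 +
       (B (c s 0) * deriv Qb (c s 0) + C (c s 0) * deriv Qc (c s 0)) * deriv J s 2) +
      J s 0 * deriv c s 0 *
      ((deriv B (c s 0) * deriv Qa (c s 0) + B (c s 0) * deriv (deriv Qa) (c s 0) +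
        (deriv C (c s 0) * deriv Qb (c s 0) + C (c s 0) * deriv (deriv Qb) (c s 0))) *
          deriv c s 1 +
       (deriv B (c s 0) * deriv Qb (c s 0) + B (c s 0) * deriv (deriv Qb) (c s 0) +
        (deriv C (c s 0) * deriv Qc (c s 0) + C (c s 0) * deriv (deriv Qc) (c s 0))) *
          deriv c s 2)) := by
  have h0 := hg 0
  have h1 := hg 1
  have h2 := hg 2
  simp only [H.pderiv_christoffel] at h0 h1 h2
  simp only [H.christoffel_eq, chr, dchr, Fin.sum_univ_three] at h0 h1 h2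
  simp at h0 h1 h2
  unfold qf bf
  refine ⟨?_, ?_, ?_⟩
  · linear_combination h0
  · linear_combination h1
  · linear_combination h2

theorem hasDerivAt_coord {f : ℝ → E3} {f' : E3} {s : ℝ} (h : HasDerivAt f f' s) (k : Fin 3) :
    HasDerivAt (fun s => f s k) (f' k) s :=
  (EuclideanSpace.proj k : E3 →L[ℝ] ℝ).hasFDerivAt.comp_hasDerivAt s h

/-- Momenta and their variations. -/
noncomputable def P1 (Qa Qb : ℝ → ℝ) (c : ℝ → E3) (s : ℝ) : ℝ :=
  Qa (c s 0) * deriv c s 1 + Qb (c s 0) * deriv c s 2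

noncomputable def dP1 (Qa Qb : ℝ → ℝ) (c J : ℝ → E3) (s : ℝ) : ℝ :=
  Qa (c s 0) * deriv J s 1 + Qb (c s 0) * deriv J s 2 +
    J s 0 * (deriv Qa (c s 0) * deriv c s 1 + deriv Qb (c s 0) * deriv c s 2)

/-- Regularity of the data at `s` and the two equations at `s`. -/
structure EqAt (g : MetricField 3) (c J : ℝ → E3) (s : ℝ) : Prop where
  c1 : HasDerivAt c (deriv c s) s
  c2 : HasDerivAt (deriv c) (deriv (deriv c) s) s
  J1 : HasDerivAt J (deriv J s) s
  J2 : HasDerivAt (deriv J) (deriv (deriv J) s) s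
  geo : GeodesicEqAt g c s
  lin : LinAt g c J s

theorem QW.P_const (H : QW Qa Qb Qc A B C) {c J : ℝ → E3} {s : ℝ}
    (h : EqAt (gC Qa Qb Qc) c J s) :
    HasDerivAt (P1 Qa Qb c) 0 s ∧ HasDerivAt (P1 Qb Qc c) 0 s ∧
    HasDerivAt (dP1 Qa Qb c J) 0 s ∧ HasDerivAt (dP1 Qb Qc c J) 0 s := by
  obtain ⟨g0, g1, g2⟩ := H.geodesic_explicit h.geo
  obtain ⟨l0, l1, l2⟩ := H.lin_explicit h.lin
  have ht := hasDerivAt_coord h.c1 0
  have hx' := hasDerivAt_coord h.c2 1
  have hy' := hasDerivAt_coord h.c2 2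
  have ha := hasDerivAt_coord h.J1 0
  have hX' := hasDerivAt_coord h.J2 1
  have hY' := hasDerivAt_coord h.J2 2
  have qa : HasDerivAt (fun s => Qa (c s 0)) (deriv Qa (c s 0) * deriv c s 0) s :=
    HasDerivAt.comp (h₂ := Qa) s (cd_diff H.sa _).hasDerivAt ht
  have qb : HasDerivAt (fun s => Qb (c s 0)) (deriv Qb (c s 0) * deriv c s 0) s :=
    HasDerivAt.comp (h₂ := Qb) s (cd_diff H.sb _).hasDerivAt ht
  have qc : HasDerivAt (fun s => Qc (c s 0)) (deriv Qc (c s 0) * deriv c s 0) s :=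
    HasDerivAt.comp (h₂ := Qc) s (cd_diff H.sc _).hasDerivAt ht
  have qa' : HasDerivAt (fun s => deriv Qa (c s 0)) (deriv (deriv Qa) (c s 0) * deriv c s 0) s :=
    HasDerivAt.comp (h₂ := deriv Qa) s (cd_diff (cd_deriv H.sa) _).hasDerivAt ht
  have qb' : HasDerivAt (fun s => deriv Qb (c s 0)) (deriv (deriv Qb) (c s 0) * deriv c s 0) s :=
    HasDerivAt.comp (h₂ := deriv Qb) s (cd_diff (cd_deriv H.sb) _).hasDerivAt ht
  have qc' : HasDerivAt (fun s => deriv Qc (c s 0)) (deriv (deriv Qc) (c s 0) * deriv c s 0) s :=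
    HasDerivAt.comp (h₂ := deriv Qc) s (cd_diff (cd_deriv H.sc) _).hasDerivAt ht
  have r11 := H.r11 (c s 0)
  have r12 := H.r12 (c s 0)
  have r21 := H.r21 (c s 0)
  have r22 := H.r22 (c s 0)
  have h11 := H.h11 (c s 0)
  have h12 := H.h12 (c s 0)
  have h21 := H.h21 (c s 0)
  have h22 := H.h22 (c s 0)
  refine ⟨?_, ?_, ?_, ?_⟩
  · have := (qa.mul hx').add (qb.mul hy')
    refine HasDerivAt.congr_deriv this ?_
    rw [g1, g2]
    generalize deriv Qa (c s 0) = Qa' at *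
    generalize deriv Qb (c s 0) = Qb' at *
    generalize deriv Qc (c s 0) = Qc' at *
    linear_combination (-(deriv c s 0) * (Qa' * deriv c s 1 + Qb' * deriv c s 2)) * h11 -
      (deriv c s 0) * (Qb' * deriv c s 1 + Qc' * deriv c s 2) * h12
  · have := (qb.mul hx').add (qc.mul hy')
    refine HasDerivAt.congr_deriv this ?_
    rw [g1, g2]
    generalize deriv Qa (c s 0) = Qa' at *
    generalize deriv Qb (c s 0) = Qb' at *
    generalize deriv Qc (c s 0) = Qc' at *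
    linear_combination (-(deriv c s 0) * (Qa' * deriv c s 1 + Qb' * deriv c s 2)) * h21 -
      (deriv c s 0) * (Qb' * deriv c s 1 + Qc' * deriv c s 2) * h22
  · have := (((qa.mul hX').add (qb.mul hY'))).add
      (ha.mul ((qa'.mul hx').add (qb'.mul hy')))
    refine HasDerivAt.congr_deriv this ?_
    simp only [Pi.mul_apply, Pi.add_apply]
    rw [l1, l2, g1, g2]
    linear_combination
      (-(deriv c s 0) * (deriv Qa (c s 0) * deriv J s 1 + deriv Qb (c s 0) * deriv J s 2)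
       - deriv J s 0 * (deriv Qa (c s 0) * deriv c s 1 + deriv Qb (c s 0) * deriv c s 2)
       - J s 0 * deriv c s 0 * (deriv (deriv Qa) (c s 0) * deriv c s 1 +
          deriv (deriv Qb) (c s 0) * deriv c s 2)) * h11 +
      (-(deriv c s 0) * (deriv Qb (c s 0) * deriv J s 1 + deriv Qc (c s 0) * deriv J s 2)
       - deriv J s 0 * (deriv Qb (c s 0) * deriv c s 1 + deriv Qc (c s 0) * deriv c s 2)
       - J s 0 * deriv c s 0 * (deriv (deriv Qb) (c s 0) * deriv c s 1 +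
          deriv (deriv Qc) (c s 0) * deriv c s 2)) * h12 -
      J s 0 * deriv c s 0 * (deriv Qa (c s 0) * deriv c s 1 + deriv Qb (c s 0) * deriv c s 2) * r11 -
      J s 0 * deriv c s 0 * (deriv Qb (c s 0) * deriv c s 1 + deriv Qc (c s 0) * deriv c s 2) * r12
  · have := (((qb.mul hX').add (qc.mul hY'))).add
      (ha.mul ((qb'.mul hx').add (qc'.mul hy')))
    refine HasDerivAt.congr_deriv this ?_
    simp only [Pi.mul_apply, Pi.add_apply]
    rw [l1, l2, g1, g2]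
    linear_combination
      (-(deriv c s 0) * (deriv Qa (c s 0) * deriv J s 1 + deriv Qb (c s 0) * deriv J s 2)
       - deriv J s 0 * (deriv Qa (c s 0) * deriv c s 1 + deriv Qb (c s 0) * deriv c s 2)
       - J s 0 * deriv c s 0 * (deriv (deriv Qa) (c s 0) * deriv c s 1 +
          deriv (deriv Qb) (c s 0) * deriv c s 2)) * h21 +
      (-(deriv c s 0) * (deriv Qb (c s 0) * deriv J s 1 + deriv Qc (c s 0) * deriv J s 2)
       - deriv J s 0 * (deriv Qb (c s 0) * deriv c s 1 + deriv Qc (c s 0) * deriv c s 2)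
       - J s 0 * deriv c s 0 * (deriv (deriv Qb) (c s 0) * deriv c s 1 +
          deriv (deriv Qc) (c s 0) * deriv c s 2)) * h22 -
      J s 0 * deriv c s 0 * (deriv Qa (c s 0) * deriv c s 1 + deriv Qb (c s 0) * deriv c s 2) * r21 -
      J s 0 * deriv c s 0 * (deriv Qb (c s 0) * deriv c s 1 + deriv Qc (c s 0) * deriv c s 2) * r22

namespace QW

variable (H : QW Qa Qb Qc A B C)
include H

theorem dA (r : ℝ) : deriv A r = -(A r ^ 2 * deriv Qa r + 2 * (A r * B r) * deriv Qb r +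
    B r ^ 2 * deriv Qc r) := by
  linear_combination A r * H.r11 r + B r * H.r21 r - deriv A r * H.h11 r - deriv B r * H.h21 r

theorem dB (r : ℝ) : deriv B r = -(A r * B r * deriv Qa r + (A r * C r + B r ^ 2) * deriv Qb r +
    B r * C r * deriv Qc r) := by
  linear_combination A r * H.r12 r + B r * H.r22 r - deriv B r * H.h11 r - deriv C r * H.h21 r

theorem dC (r : ℝ) : deriv C r = -(B r ^ 2 * deriv Qa r + 2 * (B r * C r) * deriv Qb r +
    C r ^ 2 * deriv Qc r) := by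
  linear_combination B r * H.r12 r + C r * H.r22 r - deriv B r * H.h12 r - deriv C r * H.h22 r

theorem ddA (r : ℝ) : deriv (deriv A) r = -(2 * A r * deriv A r * deriv Qa r +
    A r ^ 2 * deriv (deriv Qa) r + 2 * (deriv A r * B r + A r * deriv B r) * deriv Qb r +
    2 * (A r * B r) * deriv (deriv Qb) r + 2 * B r * deriv B r * deriv Qc r +
    B r ^ 2 * deriv (deriv Qc) r) := by
  have h1 : deriv A = fun r => -(A r ^ 2 * deriv Qa r + 2 * (A r * B r) * deriv Qb r +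
    B r ^ 2 * deriv Qc r) := by funext r; exact H.dA r
  have a := (cd_diff H.sA r).hasDerivAt
  have b := (cd_diff H.sB r).hasDerivAt
  have qa := (cd_diff (cd_deriv H.sa) r).hasDerivAt
  have qb := (cd_diff (cd_deriv H.sb) r).hasDerivAt
  have qc := (cd_diff (cd_deriv H.sc) r).hasDerivAt
  have h2 := ((((a.pow 2).mul qa).add ((((a.mul b).const_mul 2)).mul qb)).add ((b.pow 2).mul qc)).neg
  have h3 := HasDerivAt.congr_of_eventuallyEq (f₁ := deriv A) h2 (Filter.EventuallyEq.of_eq h1)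
  rw [h3.deriv]
  simp only [Pi.mul_apply, Pi.pow_apply, Nat.cast_ofNat, Nat.add_one_sub_one, pow_one]
  ring

theorem ddB (r : ℝ) : deriv (deriv B) r = -((deriv A r * B r + A r * deriv B r) * deriv Qa r +
    A r * B r * deriv (deriv Qa) r +
    (deriv A r * C r + A r * deriv C r + 2 * B r * deriv B r) * deriv Qb r +
    (A r * C r + B r ^ 2) * deriv (deriv Qb) r + (deriv B r * C r + B r * deriv C r) * deriv Qc r +
    B r * C r * deriv (deriv Qc) r) := by
  have h1 : deriv B = fun r => -(A r * B r * deriv Qa r + (A r * C r + B r ^ 2) * deriv Qb r +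
    B r * C r * deriv Qc r) := by funext r; exact H.dB r
  have a := (cd_diff H.sA r).hasDerivAt
  have b := (cd_diff H.sB r).hasDerivAt
  have c := (cd_diff H.sC r).hasDerivAt
  have qa := (cd_diff (cd_deriv H.sa) r).hasDerivAt
  have qb := (cd_diff (cd_deriv H.sb) r).hasDerivAt
  have qc := (cd_diff (cd_deriv H.sc) r).hasDerivAt
  have h2 := ((((a.mul b).mul qa).add (((a.mul c).add (b.pow 2)).mul qb)).add ((b.mul c).mul qc)).neg
  have h3 := HasDerivAt.congr_of_eventuallyEq (f₁ := deriv B) h2 (Filter.EventuallyEq.of_eq h1)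
  rw [h3.deriv]
  simp only [Pi.mul_apply, Pi.add_apply, Pi.pow_apply, Nat.cast_ofNat, Nat.add_one_sub_one, pow_one]
  ring

theorem ddC (r : ℝ) : deriv (deriv C) r = -(2 * B r * deriv B r * deriv Qa r +
    B r ^ 2 * deriv (deriv Qa) r + 2 * (deriv B r * C r + B r * deriv C r) * deriv Qb r +
    2 * (B r * C r) * deriv (deriv Qb) r + 2 * C r * deriv C r * deriv Qc r +
    C r ^ 2 * deriv (deriv Qc) r) := by
  have h1 : deriv C = fun r => -(B r ^ 2 * deriv Qa r + 2 * (B r * C r) * deriv Qb r +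
    C r ^ 2 * deriv Qc r) := by funext r; exact H.dC r
  have b := (cd_diff H.sB r).hasDerivAt
  have c := (cd_diff H.sC r).hasDerivAt
  have qa := (cd_diff (cd_deriv H.sa) r).hasDerivAt
  have qb := (cd_diff (cd_deriv H.sb) r).hasDerivAt
  have qc := (cd_diff (cd_deriv H.sc) r).hasDerivAt
  have h2 := ((((b.pow 2).mul qa).add ((((b.mul c).const_mul 2)).mul qb)).add ((c.pow 2).mul qc)).neg
  have h3 := HasDerivAt.congr_of_eventuallyEq (f₁ := deriv C) h2 (Filter.EventuallyEq.of_eq h1)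
  rw [h3.deriv]
  simp only [Pi.mul_apply, Pi.pow_apply, Nat.cast_ofNat, Nat.add_one_sub_one, pow_one]
  ring

/-- Velocities in terms of momenta. -/
theorem vel {c : ℝ → E3} {s : ℝ} :
    deriv c s 1 = A (c s 0) * P1 Qa Qb c s + B (c s 0) * P1 Qb Qc c s ∧
    deriv c s 2 = B (c s 0) * P1 Qa Qb c s + C (c s 0) * P1 Qb Qc c s := by
  have h11 := H.h11 (c s 0)
  have h12 := H.h12 (c s 0)
  have h21 := H.h21 (c s 0)
  have h22 := H.h22 (c s 0)
  unfold P1
  constructor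
  · linear_combination (-(deriv c s 1)) * h11 - (deriv c s 2) * h21
  · linear_combination (-(deriv c s 1)) * h12 - (deriv c s 2) * h22

/-- Variation of the velocities in terms of momenta. -/
theorem dvel {c J : ℝ → E3} {s : ℝ} :
    deriv J s 1 = A (c s 0) * dP1 Qa Qb c J s + B (c s 0) * dP1 Qb Qc c J s +
      J s 0 * (deriv A (c s 0) * P1 Qa Qb c s + deriv B (c s 0) * P1 Qb Qc c s) ∧
    deriv J s 2 = B (c s 0) * dP1 Qa Qb c J s + C (c s 0) * dP1 Qb Qc c J s +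
      J s 0 * (deriv B (c s 0) * P1 Qa Qb c s + deriv C (c s 0) * P1 Qb Qc c s) := by
  have h11 := H.h11 (c s 0)
  have h12 := H.h12 (c s 0)
  have h21 := H.h21 (c s 0)
  have h22 := H.h22 (c s 0)
  have r11 := H.r11 (c s 0)
  have r12 := H.r12 (c s 0)
  have r21 := H.r21 (c s 0)
  have r22 := H.r22 (c s 0)
  unfold P1 dP1
  constructor
  · linear_combination (-(deriv J s 1)) * h11 - (deriv J s 2) * h21 -
      J s 0 * deriv c s 1 * r11 - J s 0 * deriv c s 2 * r21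
  · linear_combination (-(deriv J s 1)) * h12 - (deriv J s 2) * h22 -
      J s 0 * deriv c s 1 * r12 - J s 0 * deriv c s 2 * r22

theorem varAt {c J : ℝ → E3} {s p q dp dq : ℝ} (h : EqAt (gC Qa Qb Qc) c J s)
    (hp : P1 Qa Qb c s = p) (hq : P1 Qb Qc c s = q)
    (hdp : dP1 Qa Qb c J s = dp) (hdq : dP1 Qb Qc c J s = dq) :
    VarAt A B C p q dp dq (fun s => c s 0) (fun s => deriv c s 0) (fun s => J s 0)
      (fun s => deriv J s 0) (fun s => J s 1) (fun s => J s 2) s := by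
  obtain ⟨g0, -, -⟩ := H.geodesic_explicit h.geo
  obtain ⟨l0, -, -⟩ := H.lin_explicit h.lin
  obtain ⟨v1, v2⟩ := H.vel (c := c) (s := s)
  obtain ⟨w1, w2⟩ := H.dvel (c := c) (J := J) (s := s)
  rw [hp, hq] at v1 v2
  rw [hdp, hdq, hp, hq] at w1 w2
  refine ⟨hasDerivAt_coord h.c1 0, ?_, hasDerivAt_coord h.J1 0, ?_, ?_, ?_⟩
  · refine (hasDerivAt_coord h.c2 0).congr_deriv ?_
    rw [g0, v1, v2, H.dA, H.dB, H.dC]
    unfold qf
    ring
  · refine (hasDerivAt_coord h.J2 0).congr_deriv ?_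
    rw [l0, v1, v2, w1, w2, H.ddA, H.ddB, H.ddC, H.dA, H.dB, H.dC]
    unfold qf bf
    ring
  · refine (hasDerivAt_coord h.J1 1).congr_deriv ?_
    rw [w1]
  · refine (hasDerivAt_coord h.J1 2).congr_deriv ?_
    rw [w2]

end QW

end Crest.Agent.R244.NCP
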